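import Vale.Agent.P011.Even.Defs

/-!
Elements of a division algebra with integral coordinates.
-/

open NumberField IsDedekindDomain

set_option linter.unusedSectionVars false

namespace Vale.Agent.P011.Even

open Arith

variable {k D : Type} [Field k] [NumberField k] [DivisionRing D] [Algebra k D] {N : ℕ}
  (B : Module.Basis (Fin N) k D) (v : HeightOneSpectrum (𝓞 k))

/-- All coordinates are integral at `v`. -/
def Ing (x : D) : Prop := ∀ l, v.valuation k (B.repr x l) ≤ 1

theorem finite_not_le (c : k) : {v : HeightOneSpectrum (𝓞 k) | ¬ v.valuation k c ≤ 1}.Finite := by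
  by_cases hc : c = 0
  · subst hc
    simp
  · refine (finite_ne_one (Units.mk0 c hc)).subset ?_
    intro v hv h
    exact hv (le_of_eq h)

theorem finite_not_ing (x : D) : {v : HeightOneSpectrum (𝓞 k) | ¬ Ing B v x}.Finite := by
  refine (Set.finite_iUnion fun l => finite_not_le (B.repr x l)).subset ?_
  intro v hv
  have h1 : ∃ l, ¬ v.valuation k (B.repr x l) ≤ 1 := by
    by_contra h
    push Not at h
    exact hv h
  exact Set.mem_iUnion.mpr h1

theorem val_sum_le {ι : Type} (s : Finset ι) (f : ι → k) {c : Z0}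
    (h : ∀ i ∈ s, v.valuation k (f i) ≤ c) : v.valuation k (∑ i ∈ s, f i) ≤ c :=
  Valuation.map_sum_le _ h

theorem val_sum_lt {ι : Type} (s : Finset ι) (f : ι → k) {c : Z0} (hc : c ≠ 0)
    (h : ∀ i ∈ s, v.valuation k (f i) < c) : v.valuation k (∑ i ∈ s, f i) < c :=
  Valuation.map_sum_lt _ hc h

variable {B v}

theorem Ing.add {x y : D} (hx : Ing B v x) (hy : Ing B v y) : Ing B v (x + y) := fun l => by
  rw [map_add, Finsupp.add_apply]
  exact (Valuation.map_add _ _ _).trans (max_le (hx l) (hy l))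

theorem Ing.neg {x : D} (hx : Ing B v x) : Ing B v (-x) := fun l => by
  rw [map_neg, Finsupp.neg_apply, Valuation.map_neg]
  exact hx l

theorem Ing.smul {c : k} (hc : v.valuation k c ≤ 1) {x : D} (hx : Ing B v x) :
    Ing B v (c • x) := fun l => by
  rw [map_smul, Finsupp.smul_apply, smul_eq_mul, map_mul]
  exact mul_le_one' hc (hx l)

theorem Ing.basis (i : Fin N) : Ing B v (B i) := fun l => by
  rw [B.repr_self, Finsupp.single_apply]
  by_cases h : i = l
  · rw [if_pos h, map_one]
  · rw [if_neg h, map_zero]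
    exact zero_le_one

theorem Ing.zero : Ing B v 0 := fun l => by simp

theorem Ing.sum {ι : Type} (s : Finset ι) {f : ι → D} (h : ∀ i ∈ s, Ing B v (f i)) :
    Ing B v (∑ i ∈ s, f i) := by
  classical
  induction s using Finset.induction_on with
  | empty => rw [Finset.sum_empty]; exact Ing.zero
  | insert a s ha ih =>
    rw [Finset.sum_insert ha]
    exact (h a (Finset.mem_insert_self _ _)).add (ih fun i hi => h i (Finset.mem_insert_of_mem hi))

/-- images under a linear map whose matrix is integral -/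
theorem Ing.linear {f : D →ₗ[k] D} (hf : ∀ i, Ing B v (f (B i))) {x : D} (hx : Ing B v x) :
    Ing B v (f x) := by
  have h1 : f x = ∑ i, B.repr x i • f (B i) := by
    conv_lhs => rw [← B.sum_repr x]
    rw [map_sum]
    exact Finset.sum_congr rfl fun i _ => map_smul _ _ _
  rw [h1]
  exact Ing.sum _ fun i _ => (hf i).smul (hx i)

variable (B v) in
/-- The lattice is multiplicatively closed. -/
def MulC : Prop := ∀ i j, Ing B v (B i * B j)

theorem Ing.mul (h : MulC B v) {x y : D} (hx : Ing B v x) (hy : Ing B v y) : Ing B v (x * y) := by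
  have h1 : ∀ i, Ing B v (B i * y) := fun i =>
    Ing.linear (f := LinearMap.mulLeft k (B i)) (fun j => h i j) hy
  have h2 : x * y = ∑ i, B.repr x i • (B i * y) := by
    conv_lhs => rw [← B.sum_repr x]
    rw [Finset.sum_mul]
    exact Finset.sum_congr rfl fun i _ => smul_mul_assoc _ _ _
  rw [h2]
  exact Ing.sum _ fun i _ => (h1 i).smul (hx i)

theorem Ing.pow (h : MulC B v) (h1 : Ing B v (1 : D)) {x : D} (hx : Ing B v x) (n : ℕ) :
    Ing B v (x ^ n) := by
  induction n with
  | zero => rw [pow_zero]; exact h1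
  | succ n ih => rw [pow_succ]; exact Ing.mul h ih hx

/-- small times integral is small -/
theorem small_mul (h : MulC B v) {x y : D} (hx : ∀ l, v.valuation k (B.repr x l) < 1)
    (hy : Ing B v y) (l : Fin N) : v.valuation k (B.repr (x * y) l) < 1 := by
  have h1 : ∀ i, Ing B v (B i * y) := fun i =>
    Ing.linear (f := LinearMap.mulLeft k (B i)) (fun j => h i j) hy
  have h2 : x * y = ∑ i, B.repr x i • (B i * y) := by
    conv_lhs => rw [← B.sum_repr x]
    rw [Finset.sum_mul]
    exact Finset.sum_congr rfl fun i _ => smul_mul_assoc _ _ _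
  rw [h2, map_sum, Finsupp.coe_finsetSum, Finset.sum_apply]
  refine val_sum_lt v _ _ one_ne_zero fun i _ => ?_
  rw [map_smul, Finsupp.smul_apply, smul_eq_mul, map_mul]
  exact mul_lt_one_of_lt_of_le (hx i) (h1 i l)

/-- The inverse of an element close to one is integral. -/
theorem Ing.inv_one_add (h : MulC B v) (h1 : Ing B v (1 : D)) {y : D}
    (hy : ∀ l, v.valuation k (B.repr y l) < 1) : Ing B v (1 + y)⁻¹ := by
  by_cases h0 : 1 + y = 0
  · rw [h0, inv_zero]
    exact Ing.zero
  obtain ⟨u, hu⟩ : ∃ u : D, u = (1 + y)⁻¹ := ⟨_, rfl⟩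
  rw [← hu]
  have hyu : u + y * u = 1 := by
    rw [hu]
    calc (1 + y)⁻¹ + y * (1 + y)⁻¹ = (1 + y) * (1 + y)⁻¹ := by rw [add_mul, one_mul]
      _ = 1 := mul_inv_cancel₀ h0
  have hu0 : u ≠ 0 := by rw [hu]; exact inv_ne_zero h0
  have hne : Nonempty (Fin N) := by
    by_contra hN
    rw [not_nonempty_iff] at hN
    apply hu0
    rw [← B.sum_repr u]
    exact Finset.sum_eq_zero fun i _ => (hN.false i).elim
  obtain ⟨i0, hi0⟩ := Finite.exists_max fun i => v.valuation k (B.repr u i)
  intro l
  refine (hi0 l).trans ?_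
  by_contra hc
  rw [not_le] at hc
  obtain ⟨c, hcd⟩ : ∃ c : k, c = B.repr u i0 := ⟨_, rfl⟩
  rw [← hcd] at hc hi0
  have hc0 : c ≠ 0 := by
    rintro rfl
    rw [map_zero] at hc
    exact not_lt_zero hc
  have hvc : v.valuation k c ≠ 0 := (Valuation.ne_zero_iff _).mpr hc0
  have hInt : Ing B v (c⁻¹ • u) := fun i => by
    rw [map_smul, Finsupp.smul_apply, smul_eq_mul, map_mul, map_inv₀]
    calc (v.valuation k c)⁻¹ * v.valuation k (B.repr u i) ≤
        (v.valuation k c)⁻¹ * v.valuation k c := mul_le_mul_right (hi0 i) _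
      _ = 1 := inv_mul_cancel₀ hvc
  have h2 := small_mul h hy hInt i0
  have h3 : c⁻¹ • (1 : D) = c⁻¹ • u + y * (c⁻¹ • u) := by
    rw [mul_smul_comm, ← smul_add, hyu]
  have h4 := congrArg (fun z => B.repr z i0) h3
  simp only [map_add, Finsupp.add_apply] at h4
  rw [map_smul, Finsupp.smul_apply, map_smul, Finsupp.smul_apply, smul_eq_mul, smul_eq_mul,
    ← hcd, inv_mul_cancel₀ hc0] at h4
  have h5 : v.valuation k (1 + B.repr (y * (c⁻¹ • u)) i0) = 1 := by
    rw [Valuation.map_add_eq_of_lt_left]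
    · exact map_one _
    · rw [map_one]; exact h2
  rw [← h4, map_mul, map_inv₀] at h5
  have h6 : (v.valuation k c)⁻¹ * v.valuation k (B.repr (1 : D) i0) < 1 := by
    refine mul_lt_one_of_lt_of_le ?_ (h1 i0)
    exact inv_lt_one_of_one_lt₀ hc
  exact absurd h5 h6.ne

end Vale.Agent.P011.Even
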