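import Vale.Agent.P011.Even.Defs

/-!
The possible sets of places at which an element is not a norm from a quadratic extension.
-/

open NumberField IsDedekindDomain

namespace Vale.Agent.P011.Even

open Arith

variable {F : Type} [Field F] [NumberField F]

theorem mem_bad {a b : Fˣ} {p : Pl F} : p ∈ bad a b ↔ b ∉ NF a ⊔ LSp p := Iff.rfl

theorem notMem_bad {a b : Fˣ} {p : Pl F} : p ∉ bad a b ↔ b ∈ NF a ⊔ LSp p := not_not

/-- If `a` is a local square everything is a local norm. -/
theorem sup_eq_top {a : Fˣ} {p : Pl F} (ha : a ∈ LSp p) : NF a ⊔ LSp p = ⊤ := by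
  rcases p with v | φ
  · rw [eq_top_iff]
    intro b _
    exact mem_symm b a (Subgroup.mem_sup_right ha)
  · rw [eq_top_iff]
    intro b _
    have hab : a ∈ NF b ⊔ LSR φ := Subgroup.mem_sup_right ha
    by_cases hb : b ∈ LSR φ
    · exact Subgroup.mem_sup_right hb
    · have h1 : -a ∈ NF a := neg_mem_NF a
      have h2 : b * (-a)⁻¹ ∈ LSR φ := by
        refine mul_mem_LSR hb ?_
        rw [inv_mem_iff, notMem_LSR]
        have h3 : 0 < φ (a : F) := ha
        rw [Units.val_neg, map_neg]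
        linarith
      have h3 := Subgroup.mul_mem _ (Subgroup.mem_sup_right h2) (Subgroup.mem_sup_left h1)
      rwa [inv_mul_cancel_right] at h3

/-- The local norm index. -/
theorem index_two {a : Fˣ} {p : Pl F} (ha : a ∉ LSp p) : (NF a ⊔ LSp p).index = 2 := by
  rcases p with v | φ
  · exact local_index_two v a ha
  · have h1 : NF a ⊔ LSR φ = LSR φ :=
      sup_eq_right.mpr (NF_le_LSR (notMem_LSR.mp ha))
    change (NF a ⊔ LSR φ).index = 2
    rw [h1]
    exact index_LSR φ

theorem notMem_LSp_of_bad {a b : Fˣ} {p : Pl F} (h : p ∈ bad a b) : a ∉ LSp p := by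
  intro ha
  exact h (sup_eq_top ha ▸ Subgroup.mem_top b)

theorem bad_subset (a b : Fˣ) : bad a b ⊆ {p | a ∉ LSp p} := fun _ h => notMem_LSp_of_bad h

theorem bad_of_mem_NF {a b : Fˣ} (h : b ∈ NF a) : bad a b = ∅ := by
  ext p
  simp only [Set.mem_empty_iff_false, iff_false, notMem_bad]
  exact Subgroup.mem_sup_left h

theorem bad_one (a : Fˣ) : bad a 1 = ∅ := bad_of_mem_NF (Subgroup.one_mem _)

theorem mem_NF_of_bad {a b : Fˣ} (h : bad a b = ∅) : b ∈ NF a := by
  refine hasse_norm a b fun p => ?_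
  rw [← notMem_bad, h]
  exact Set.notMem_empty p

theorem bad_mul (a b c : Fˣ) : bad a (b * c) = symmDiff (bad a b) (bad a c) := by
  ext p
  rw [Set.mem_symmDiff]
  by_cases ha : a ∈ LSp p
  · have h := sup_eq_top ha
    simp [bad, h]
  · have h := index_two ha
    rw [mem_bad, mem_bad, mem_bad, Subgroup.mul_mem_iff_of_index_two h]
    tauto

theorem bad_inv (a b : Fˣ) : bad a b⁻¹ = bad a b := by
  ext p
  rw [mem_bad, mem_bad, inv_mem_iff]

theorem bad_finite (a b : Fˣ) : (bad a b).Finite := by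
  have h : (SP ({v : HeightOneSpectrum (𝓞 F) | v.valuation F (a : F) ≠ 1} ∪
      {v : HeightOneSpectrum (𝓞 F) | v.valuation F (b : F) ≠ 1} ∪
      {v : HeightOneSpectrum (𝓞 F) | v.valuation F ((Units.mk0 (2 : F) two_ne_zero : Fˣ) : F) ≠ 1})).Finite :=
    SP_finite (((finite_ne_one a).union (finite_ne_one b)).union (finite_ne_one _))
  refine h.subset ?_
  rintro (v | φ) hp
  · rw [inl_mem_SP]
    by_contra hcon
    simp only [Set.mem_union, Set.mem_ofPred_eq, not_or, not_not, Units.val_mk0] at hcon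
    obtain ⟨⟨h1, h2⟩, h3⟩ := hcon
    exact hp (unit_norm v h3 a b h1 h2)
  · exact inr_mem_SP

/-- Outside a good set the non-split places see even orders only. -/
theorem even_order {v : HeightOneSpectrum (𝓞 F)} (h2 : v.valuation F (2 : F) = 1) {x b : Fˣ}
    (hx : v.valuation F (x : F) = 1) (hxv : x ∉ LS (v.valuation F))
    (hb : b ∈ NF x ⊔ LS (v.valuation F)) : Even (ordv v (b : F)) := by
  by_contra hodd
  rw [Int.not_even_iff_odd] at hodd
  obtain ⟨k, hk⟩ := hodd
  refine NF_sup_ne_top x (.inl v) hxv ?_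
  refine eq_top_of_units (v := v) (k := k) ((Sq_le_LS _).trans le_sup_right) ?_ hb ?_
  · intro u hu
    exact unit_norm v h2 x u hx hu
  · rw [exp_ordv, hk]

/-- An element that is a local norm outside a good set is an `S`-unit up to norms. -/
theorem exists_unit_mul {x : Fˣ} {S : Set (HeightOneSpectrum (𝓞 F))} (hS : Good x S) {b : Fˣ}
    (hb : bad x b ⊆ SP S) : ∃ β ∈ NF x, b * β ∈ S.unit F := by
  classical
  have hβ : ∀ v : HeightOneSpectrum (𝓞 F), ∃ β : Fˣ, v ∉ S →
      β ^ (ordv v (b : F)) ∈ NF x ∧ v.valuation F (β : F) = WithZero.exp (-1) ∧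
      ∀ v' ∉ S, v' ≠ v → v'.valuation F (β : F) = 1 := by
    intro v
    by_cases hv : v ∈ S
    · exact ⟨1, fun h => absurd hv h⟩
    by_cases hxv : x ∈ LS (v.valuation F)
    · obtain ⟨β, h1, h2, h3⟩ := hS.split v hv hxv
      exact ⟨β, fun _ => ⟨Subgroup.zpow_mem _ h1 _, h2, h3⟩⟩
    · obtain ⟨π, h1, h2⟩ := hS.pr.2 v hv
      refine ⟨π, fun _ => ⟨?_, h1, h2⟩⟩
      have h3' : b ∈ NF x ⊔ LSp (Sum.inl v : Pl F) := by
        by_contra h
        exact hv (inl_mem_SP.mp (hb h))
      have h3 : b ∈ NF x ⊔ LS (v.valuation F) := h3'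
      obtain ⟨k, hk⟩ := even_order (dyadic_of_Pr hS.pr hv) (hS.unit v hv) hxv h3
      have h4 : π ^ 2 ∈ NF x := Sch.sq_mem_NF x π
      have h5 : π ^ (k + k) = (π ^ 2) ^ k := by
        rw [← zpow_natCast π 2, ← zpow_mul]
        congr 1
        push_cast
        ring
      rw [hk, h5]
      exact Subgroup.zpow_mem _ h4 _
  choose β hβ using hβ
  let T : Finset (HeightOneSpectrum (𝓞 F)) := (finite_ne_one b).toFinset.filter (· ∉ S)
  let B : Fˣ := ∏ v ∈ T, β v ^ (ordv v (b : F))
  have hTS : ∀ v ∈ T, v ∉ S := fun v hv => (Finset.mem_filter.mp hv).2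
  refine ⟨B, Subgroup.prod_mem _ fun v hv => (hβ v (hTS v hv)).1, ?_⟩
  intro v hv
  have e1 : (B : F) = ∏ v ∈ T, (β v : F) ^ (ordv v (b : F)) := by simp [B]
  have hv0 : v.valuation F (b : F) ≠ 0 := (Valuation.ne_zero_iff _).mpr b.ne_zero
  rw [Units.val_mul, map_mul, e1, map_prod]
  by_cases hvT : v ∈ T
  · rw [Finset.prod_eq_single_of_mem v hvT]
    · rw [map_zpow₀, (hβ v hv).2.1, exp_ordv v b, ← WithZero.exp_zsmul, ← WithZero.exp_add,
        ← WithZero.exp_zero]
      congr 1
      simp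
    · intro v' hv' hne
      rw [map_zpow₀, (hβ v' (hTS v' hv')).2.2 v hv hne.symm, one_zpow]
  · have h1 : v.valuation F (b : F) = 1 := by
      by_contra h1
      exact hvT (Finset.mem_filter.mpr ⟨(finite_ne_one b).mem_toFinset.mpr h1, hv⟩)
    rw [h1, one_mul, Finset.prod_eq_one]
    intro v' hv'
    have hne : v ≠ v' := fun h => hvT (h ▸ hv')
    rw [map_zpow₀, (hβ v' (hTS v' hv')).2.2 v hv hne, one_zpow]

/-- The place `p` is isolated for `a` if some element fails to be a norm at `p` only. -/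
def Isol (a : Fˣ) (p : Pl F) : Prop := ∃ b : Fˣ, bad a b = {p}

/-- If every nonsplit place of a finite set is isolated, each subset is a set of bad places. -/
theorem exists_bad_of_isol {a : Fˣ} {B : Set (Pl F)} (hB : B.Finite) (h : ∀ p ∈ B, Isol a p) :
    ∃ b : Fˣ, bad a b = B := by
  induction B, hB using Set.Finite.induction_on with
  | empty => exact ⟨1, bad_one a⟩
  | @insert p B hp hB ih =>
    obtain ⟨b, hb⟩ := ih fun q hq => h q (Set.mem_insert_of_mem _ hq)
    obtain ⟨c, hc⟩ := h p (Set.mem_insert _ _)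
    refine ⟨c * b, ?_⟩
    rw [bad_mul, hc, hb]
    ext q
    simp only [Set.mem_symmDiff, Set.mem_singleton_iff, Set.mem_insert_iff]
    constructor
    · rintro (⟨h1, _⟩ | ⟨h1, _⟩)
      · exact Or.inl h1
      · exact Or.inr h1
    · rintro (rfl | h1)
      · exact Or.inl ⟨rfl, hp⟩
      · exact Or.inr ⟨h1, fun h2 => hp (h2 ▸ h1)⟩

/-- Some nonsplit place is not isolated. -/
theorem exists_not_isol {a : Fˣ} (ha : ¬ IsSquare (a : F)) : ∃ p : Pl F, a ∉ LSp p ∧ ¬ Isol a p := by
  by_contra hcon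
  push Not at hcon
  obtain ⟨S, hS, hgood⟩ := exists_good a ha
  have hG := hgood S le_rfl hS
  refine not_good_of_patterns a ha hG ?_
  intro e
  have hfin : {p | p ∈ SP S ∧ a ∉ LSp p ∧ e p = false}.Finite :=
    (SP_finite hS).subset fun p hp => hp.1
  obtain ⟨b, hb⟩ := exists_bad_of_isol (a := a) hfin fun p hp => hcon p hp.2.1
  obtain ⟨β, hβ, hu⟩ := exists_unit_mul hG (b := b) (by rw [hb]; exact fun p hp => hp.1)
  refine ⟨b * β, hu, ?_⟩
  intro p hp hap
  have h1 : p ∉ bad a (b * β) ↔ e p = true := by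
    rw [bad_mul, hb, bad_of_mem_NF hβ]
    simp [Set.mem_symmDiff, hp, hap]
  rwa [notMem_bad] at h1

/-- Of two nonsplit places, one is isolated or both together are a set of bad places. -/
theorem exists_bad_pair {a : Fˣ} (ha : ¬ IsSquare (a : F)) {p q : Pl F} (hpq : p ≠ q)
    (hp : a ∉ LSp p) (hq : a ∉ LSp q) (hp' : ¬ Isol a p) (hq' : ¬ Isol a q) :
    ∃ b : Fˣ, bad a b = {p, q} := by
  classical
  obtain ⟨S₁, hS₁, hgood⟩ := exists_good a ha
  have hS₀ : ({v | (Sum.inl v : Pl F) = p ∨ Sum.inl v = q} : Set (HeightOneSpectrum (𝓞 F))).Finite := by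
    have h1 : ({v | (Sum.inl v : Pl F) = p ∨ Sum.inl v = q} : Set (HeightOneSpectrum (𝓞 F))) =
        Sum.inl ⁻¹' {p, q} := by
      ext v
      simp
    rw [h1]
    exact (Set.toFinite _).preimage Sum.inl_injective.injOn
  have hG := hgood ({v | (Sum.inl v : Pl F) = p ∨ Sum.inl v = q} ∪ S₁) Set.subset_union_right
    (hS₀.union hS₁)
  set S : Set (HeightOneSpectrum (𝓞 F)) :=
    {v | (Sum.inl v : Pl F) = p ∨ Sum.inl v = q} ∪ S₁ with hSdef
  have hpS : p ∈ SP S := by
    rcases p with v | φ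
    · exact inl_mem_SP.mpr (Or.inl (Or.inl rfl))
    · exact inr_mem_SP
  have hqS : q ∈ SP S := by
    rcases q with v | φ
    · exact inl_mem_SP.mpr (Or.inl (Or.inr rfl))
    · exact inr_mem_SP
  -- the subgroup of local norms at the places of `S`
  have hfin : {p | p ∈ SP S ∧ a ∉ LSp p}.Finite := (SP_finite hG.fin).subset fun p hp => hp.1
  have : Fintype {p | p ∈ SP S ∧ a ∉ LSp p} := hfin.fintype
  let N : Subgroup Fˣ := ⨅ r : {p | p ∈ SP S ∧ a ∉ LSp p}, NF a ⊔ LSp r.1
  have hmemN : ∀ b, b ∈ N ↔ ∀ r ∈ SP S, a ∉ LSp r → b ∈ NF a ⊔ LSp r := by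
    intro b
    simp only [N, Subgroup.mem_iInf]
    exact ⟨fun h r h1 h2 => h ⟨r, h1, h2⟩, fun h r => h r.1 r.2.1 r.2.2⟩
  have hNle : N.index ≤ 2 ^ tc a S := by
    have h1 : N.index ≤ ∏ r : {p | p ∈ SP S ∧ a ∉ LSp p}, (NF a ⊔ LSp r.1).index :=
      Subgroup.index_iInf_le _
    rw [Finset.prod_congr rfl (fun r _ => index_two r.2.2), Finset.prod_const,
      Finset.card_univ] at h1
    rw [tc_eq a hG.fin, Set.ncard_eq_toFinset_card', Set.toFinset_card]
    exact h1
  have hN0 : N.index ≠ 0 := by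
    apply Subgroup.index_iInf_ne_zero
    intro r
    rw [index_two r.2.2]
    norm_num
  have hNU : N ⊓ S.unit F = NF a ⊓ S.unit F := by
    ext b
    simp only [Subgroup.mem_inf]
    constructor
    · rintro ⟨h1, h2⟩
      refine ⟨mem_NF_of_bad ?_, h2⟩
      ext r
      simp only [Set.mem_empty_iff_false, iff_false]
      intro hr
      by_cases hrS : r ∈ SP S
      · exact hr ((hmemN b).mp h1 r hrS (notMem_LSp_of_bad hr))
      · rcases r with v | φ
        · rw [inl_mem_SP] at hrS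
          exact hr (unit_norm v (dyadic_of_Pr hG.pr hrS) a b (hG.unit v hrS) (h2 v hrS))
        · exact hrS inr_mem_SP
    · rintro ⟨h1, h2⟩
      exact ⟨(hmemN b).mpr fun r _ _ => Subgroup.mem_sup_left h1, h2⟩
  have hrel : N.relIndex (S.unit F) * 2 = 2 ^ tc a S := by
    rw [← Subgroup.inf_relIndex_right, hNU, Subgroup.inf_relIndex_right]
    exact hG.idx
  have hidx : (N ⊔ S.unit F).index ≤ 2 := by
    have h1 : N.relIndex (N ⊔ S.unit F) * (N ⊔ S.unit F).index = N.index :=
      Subgroup.relIndex_mul_index le_sup_left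
    have h2 : N.relIndex (N ⊔ S.unit F) = N.relIndex (S.unit F) := by
      rw [sup_comm]
      exact Subgroup.relIndex_sup_right (S.unit F) N
    rw [h2] at h1
    have h3 : 0 < N.relIndex (S.unit F) := by
      rcases Nat.eq_zero_or_pos (N.relIndex (S.unit F)) with h | h
      · rw [h, zero_mul] at h1
        exact absurd h1.symm hN0
      · exact h
    rw [← hrel, ← h1, mul_comm _ 2, mul_comm _ (N ⊔ S.unit F).index] at hNle
    exact Nat.le_of_mul_le_mul_right hNle h3
  have hidx0 : (N ⊔ S.unit F).index ≠ 0 := fun h =>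
    hN0 (Nat.eq_zero_of_zero_dvd (h ▸ Subgroup.index_dvd_of_le le_sup_left))
  -- elements with prescribed bad places in `S`
  have hpat : ∀ B : Set (Pl F), ∃ g : Fˣ, ∀ r ∈ SP S, a ∉ LSp r → (g ∉ NF a ⊔ LSp r ↔ r ∈ B) := by
    intro B
    have h1 : ∀ r : Pl F, ∃ g : Fˣ, a ∉ LSp r → (g ∉ NF a ⊔ LSp r ↔ r ∈ B) := by
      intro r
      by_cases hr : a ∈ LSp r
      · exact ⟨1, fun h => absurd hr h⟩
      · by_cases hB : r ∈ B
        · have h2 := NF_sup_ne_top a r hr
          obtain ⟨g, hg⟩ : ∃ g, g ∉ NF a ⊔ LSp r := by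
            by_contra hc
            push Not at hc
            exact h2 (eq_top_iff.mpr fun g _ => hc g)
          exact ⟨g, fun _ => by simp [hg, hB]⟩
        · exact ⟨1, fun _ => by simp [hB]⟩
    choose g hg using h1
    obtain ⟨f, hf⟩ := weak_approx' hG.fin g
    refine ⟨f, fun r hr har => ?_⟩
    rw [← hg r har]
    have h3 : f / g r ∈ NF a ⊔ LSp r := Subgroup.mem_sup_right (hf r hr)
    rw [not_iff_not]
    constructor
    · intro h4
      have h5 := Subgroup.div_mem _ h4 h3
      rwa [div_div_cancel] at h5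
    · intro h4
      have h5 := Subgroup.mul_mem _ h3 h4
      rwa [div_mul_cancel] at h5
  have hreal : ∀ (B : Set (Pl F)) (g : Fˣ), (∀ r ∈ B, r ∈ SP S ∧ a ∉ LSp r) →
      (∀ r ∈ SP S, a ∉ LSp r → (g ∉ NF a ⊔ LSp r ↔ r ∈ B)) →
      g ∈ N ⊔ S.unit F → ∃ b, bad a b = B := by
    intro B g hB hg hgN
    obtain ⟨m, hm, u, hu, rfl⟩ := Subgroup.mem_sup.mp hgN
    refine ⟨u, ?_⟩
    ext r
    constructor
    · intro hr
      by_cases hrS : r ∈ SP S
      · rw [← hg r hrS (notMem_LSp_of_bad hr)]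
        intro h1
        rw [Subgroup.mul_mem_cancel_left _ ((hmemN m).mp hm r hrS (notMem_LSp_of_bad hr))] at h1
        exact hr h1
      · exfalso
        rcases r with v | φ
        · rw [inl_mem_SP] at hrS
          exact hr (unit_norm v (dyadic_of_Pr hG.pr hrS) a u (hG.unit v hrS) (hu v hrS))
        · exact hrS inr_mem_SP
    · intro hr
      obtain ⟨h1, h2⟩ := hB r hr
      have h3 := (hg r h1 h2).mpr hr
      intro h4
      exact h3 (Subgroup.mul_mem _ ((hmemN m).mp hm r h1 h2) h4)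
  obtain ⟨gp, hgp⟩ := hpat {p}
  obtain ⟨gq, hgq⟩ := hpat {q}
  have hcp : gp ∉ N ⊔ S.unit F := fun h => hp' (hreal {p} gp (by
    rintro r rfl
    exact ⟨hpS, hp⟩) hgp h)
  have hcq : gq ∉ N ⊔ S.unit F := fun h => hq' (hreal {q} gq (by
    rintro r rfl
    exact ⟨hqS, hq⟩) hgq h)
  have hidx2 : (N ⊔ S.unit F).index = 2 := by
    have h1 : (N ⊔ S.unit F).index ≠ 1 := fun h => by
      rw [Subgroup.index_eq_one] at h
      exact hcp (h ▸ Subgroup.mem_top _)
    omega
  have hpq' : gp * gq ∈ N ⊔ S.unit F := by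
    rw [Subgroup.mul_mem_iff_of_index_two hidx2]
    exact ⟨fun h => absurd h hcp, fun h => absurd h hcq⟩
  refine hreal {p, q} (gp * gq) ?_ ?_ hpq'
  · rintro r (rfl | rfl)
    · exact ⟨hpS, hp⟩
    · exact ⟨hqS, hq⟩
  · intro r hr har
    have h1 := hgp r hr har
    have h2 := hgq r hr har
    rw [Subgroup.mul_mem_iff_of_index_two (index_two har)]
    simp only [Set.mem_singleton_iff] at h1 h2
    simp only [Set.mem_insert_iff, Set.mem_singleton_iff]
    rw [← h1, ← h2]
    by_cases h3 : gp ∈ NF a ⊔ LSp r <;> by_cases h4 : gq ∈ NF a ⊔ LSp r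
    · simp [h3, h4]
    · simp [h3, h4]
    · simp [h3, h4]
    · exfalso
      exact hpq (((h1.mp h3).symm.trans (h2.mp h4)))

/-- The sets of bad places: exactly those nonsplit finite sets with an even number of elements
that are not isolated. -/
theorem exists_bad_iff {a : Fˣ} (ha : ¬ IsSquare (a : F)) {B : Set (Pl F)} (hB : B.Finite)
    (hBa : ∀ p ∈ B, a ∉ LSp p) :
    (∃ b : Fˣ, bad a b = B) ↔ Even {p | p ∈ B ∧ ¬ Isol a p}.ncard := by
  classical
  -- reduce to subsets without isolated places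
  have key : ∀ n : ℕ, ∀ B : Set (Pl F), B.Finite → (∀ p ∈ B, a ∉ LSp p ∧ ¬ Isol a p) →
      B.ncard = n → ((∃ b : Fˣ, bad a b = B) ↔ Even n) := by
    intro n
    induction n using Nat.strong_induction_on with
    | _ n ih =>
      intro B hB hBn hn
      rcases Nat.lt_or_ge n 2 with h2 | h2
      · interval_cases n
        · rw [Set.ncard_eq_zero hB] at hn
          subst hn
          exact iff_of_true ⟨1, bad_one a⟩ (by norm_num)
        · rw [Set.ncard_eq_one] at hn
          obtain ⟨p, rfl⟩ := hn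
          exact iff_of_false (hBn p rfl).2 (by norm_num)
      · obtain ⟨p, hp, q, hq, hpq⟩ := (Set.one_lt_ncard hB).mp (by omega)
        obtain ⟨c, hc⟩ := exists_bad_pair ha hpq (hBn p hp).1 (hBn q hq).1 (hBn p hp).2
          (hBn q hq).2
        have hsub : ({p, q} : Set (Pl F)) ⊆ B := by
          rintro r (rfl | rfl)
          · exact hp
          · exact hq
        have hcard : (B \ {p, q}).ncard = n - 2 := by
          rw [Set.ncard_sdiff hsub (Set.toFinite _), hn, Set.ncard_pair hpq]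
        have h3 := ih (n - 2) (by omega) (B \ {p, q}) hB.sdiff
          (fun r hr => hBn r hr.1) hcard
        have hev : Even n ↔ Even (n - 2) := by
          rw [Nat.even_sub h2]
          simp
        rw [hev, ← h3]
        constructor
        · rintro ⟨b, hb⟩
          refine ⟨b * c, ?_⟩
          rw [bad_mul, hb, hc]
          ext r
          simp only [Set.mem_symmDiff, Set.mem_sdiff]
          constructor
          · rintro (h | ⟨h4, h5⟩)
            · exact h
            · exact absurd (hsub h4) h5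
          · exact fun h => Or.inl h
        · rintro ⟨b, hb⟩
          refine ⟨b * c, ?_⟩
          rw [bad_mul, hb, hc]
          ext r
          simp only [Set.mem_symmDiff, Set.mem_sdiff]
          constructor
          · rintro (⟨⟨h4, _⟩, _⟩ | ⟨h4, _⟩)
            · exact h4
            · exact hsub h4
          · intro h4
            by_cases h5 : r ∈ ({p, q} : Set (Pl F))
            · exact Or.inr ⟨h5, fun h => h.2 h5⟩
            · exact Or.inl ⟨⟨h4, h5⟩, h5⟩
  have hfin1 : {p | p ∈ B ∧ ¬ Isol a p}.Finite := hB.subset fun p hp => hp.1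
  have hfin2 : {p | p ∈ B ∧ Isol a p}.Finite := hB.subset fun p hp => hp.1
  rw [← key _ _ hfin1 (fun p hp => ⟨hBa p hp.1, hp.2⟩) rfl]
  obtain ⟨c, hc⟩ := exists_bad_of_isol (a := a) hfin2 fun p hp => hp.2
  constructor
  · rintro ⟨b, hb⟩
    refine ⟨b * c, ?_⟩
    rw [bad_mul, hb, hc]
    ext r
    simp only [Set.mem_symmDiff, Set.mem_ofPred_eq]
    tauto
  · rintro ⟨b, hb⟩
    refine ⟨b * c, ?_⟩
    rw [bad_mul, hb, hc]
    ext r
    simp only [Set.mem_symmDiff, Set.mem_ofPred_eq]
    tauto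

end Vale.Agent.P011.Even
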