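import Vale.Agent.P011.Even.GInt
import Vale.Agent.P011.Even.GLat
import Vale.Agent.P011.Even.Pattern

/-!
From local data for `e'⁻¹ * (star t * e * t)` to a global isometry, by the norm theorem over the
field generated by this element.
-/

open NumberField IsDedekindDomain Polynomial

set_option linter.unusedSectionVars false

namespace Vale.Agent.P011.Even

open Arith

section field

variable {k E : Type} [Field k] [NumberField k] [Field E] [NumberField E] [Algebra k E]

theorem numberField_fin {L : Type} [Field L] [Algebra k L] [FiniteDimensional k L] :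
    NumberField L := by
  have : CharZero L := charZero_of_injective_algebraMap (algebraMap k L).injective
  have : IsScalarTower ℚ k L := IsScalarTower.of_algebraMap_eq fun q => by simp
  exact { to_finiteDimensional := Module.Finite.trans k L }

theorem inc_val_g (x : kˣ) : ((inc k E x : Eˣ) : E) = algebraMap k E x := rfl

/-- places above split places impose nothing -/
theorem mem_of_split {d : kˣ} {v : HeightOneSpectrum (𝓞 k)} {w : HeightOneSpectrum (𝓞 E)}
    (h : w.asIdeal.comap (algebraMap (𝓞 k) (𝓞 E)) = v.asIdeal) (hd : d ∈ LS (v.valuation k))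
    (γ : Eˣ) : γ ∈ NF (inc k E d) ⊔ LSp (.inl w : Pl E) := by
  have h1 : inc k E d ∈ LSp (.inl w : Pl E) := LS_map h hd
  rw [sup_eq_top h1]
  exact Subgroup.mem_top _

theorem mem_of_split_real {d : kˣ} {ψ : E →+* ℝ} (hd : 0 < ψ (algebraMap k E d)) (γ : Eˣ) :
    γ ∈ NF (inc k E d) ⊔ LSp (.inr ψ : Pl E) := by
  have h1 : inc k E d ∈ LSp (.inr ψ : Pl E) := hd
  rw [sup_eq_top h1]
  exact Subgroup.mem_top _

end field

section main

variable {k K D : Type} [Field k] [NumberField k] [Field K] [StarRing K]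
    [DivisionRing D] [StarRing D] [Algebra k K] [Algebra k D] [Algebra K D] [IsScalarTower k K D]
    {d : kˣ} {s : K} {N : ℕ}

open scoped IsMulCommutative in
/-- The field generated by an element. -/
theorem exists_gen (B : Module.Basis (Fin N) k D) (γ : D) :
    ∃ (E : Type) (_ : Field E) (_ : NumberField E) (_ : Algebra k E) (j : E →ₐ[k] D) (g : E),
      j g = γ ∧ ∀ x : E, ∃ p : k[X], x = aeval g p := by
  have _ : FiniteDimensional k D := Module.Finite.of_basis B
  have _ : IsMulCommutative (Algebra.adjoin k {γ}) := by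
    apply IsMulCommutative.of_setLike_mul_comm
    intro a ha b hb
    rw [Algebra.adjoin_singleton_eq_range_aeval] at ha hb
    obtain ⟨p, rfl⟩ := ha
    obtain ⟨q, rfl⟩ := hb
    change aeval γ p * aeval γ q = aeval γ q * aeval γ p
    rw [← map_mul, mul_comm, map_mul]
  let _ : Field (Algebra.adjoin k {γ}) := fieldOfFiniteDimensional k _
  refine ⟨Algebra.adjoin k {γ}, inferInstance, numberField_fin (k := k), inferInstance,
    (Algebra.adjoin k {γ}).val, ⟨γ, Algebra.self_mem_adjoin_singleton k γ⟩, rfl, fun x => ?_⟩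
  have h1 : (x : D) ∈ (aeval γ : k[X] →ₐ[k] D).range := by
    rw [← Algebra.adjoin_singleton_eq_range_aeval]
    exact x.2
  obtain ⟨p, hp⟩ := h1
  refine ⟨p, Subtype.ext ?_⟩
  rw [← hp]
  change aeval γ p = (Algebra.adjoin k {γ}).val (aeval _ p)
  rw [← aeval_algHom_apply]
  rfl

theorem star_alg (hS : Setting k K D d s) (x : k) :
    star (algebraMap k D x) = algebraMap k D x := by
  have h1 := hS.star_smul (algebraMap k K x) (1 : D)
  rw [(hS.fix _).mpr ⟨x, rfl⟩, star_one, Algebra.smul_def, mul_one,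
    ← IsScalarTower.algebraMap_apply] at h1
  exact h1

theorem star_S (hS : Setting k K D d s) :
    star (algebraMap K D s) = -algebraMap K D s := by
  have h1 := hS.star_smul s (1 : D)
  rw [hS.star_s, star_one, Algebra.smul_def, mul_one, neg_smul, Algebra.smul_def, mul_one] at h1
  exact h1

/-- The local conditions at all places imply the global isometry. -/
theorem finish (hS : Setting k K D d s) (B : Module.Basis (Fin N) k D) {e e' t : D} (he : star e = e) (he' : star e' = e')
    (h0 : e ≠ 0) (h0' : e' ≠ 0) (ht : t ≠ 0)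
    (H : ∀ (E : Type) [Field E] [NumberField E] [Algebra k E] (j : E →ₐ[k] D) (γ : Eˣ),
      j γ = e'⁻¹ * (star t * e * t) → ∀ p : Pl E, γ ∈ NF (inc k E d) ⊔ LSp p) :
    ∃ t' : D, t' ≠ 0 ∧ e' = star t' * e * t' := by
  obtain ⟨E, _, _, _, j, g, hg, hgen⟩ := exists_gen B (e'⁻¹ * (star t * e * t))
  have hst : star t ≠ 0 := star_ne_zero.mpr ht
  have hh0 : star t * e * t ≠ 0 := mul_ne_zero (mul_ne_zero hst h0) ht
  have hγ0 : e'⁻¹ * (star t * e * t) ≠ 0 := mul_ne_zero (inv_ne_zero h0') hh0
  have hg0 : g ≠ 0 := by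
    rintro rfl
    rw [map_zero] at hg
    exact hγ0 hg.symm
  have hN : Units.mk0 g hg0 ∈ NF (inc k E d) :=
    hasse_norm _ _ fun p => H E j (Units.mk0 g hg0) hg p
  obtain ⟨x, y, hxy⟩ := hN
  rw [Units.val_mk0, inc_val_g] at hxy
  -- conjugation by `e'`
  have hconj : ∀ z : E, star (j z) * e' = e' * j z := by
    intro z
    obtain ⟨p, rfl⟩ := hgen z
    rw [← aeval_algHom_apply, hg]
    induction p using Polynomial.induction_on' with
    | add p q hp hq => rw [map_add, star_add, add_mul, mul_add, hp, hq]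
    | monomial n a =>
      rw [aeval_monomial, star_mul, star_alg hS, star_pow]
      have h1 : star (e'⁻¹ * (star t * e * t)) * e' = e' * (e'⁻¹ * (star t * e * t)) := by
        rw [star_mul, star_inv₀, he', star_mul, star_mul, star_star, he, mul_assoc,
          inv_mul_cancel₀ h0', mul_one, ← mul_assoc e', mul_inv_cancel₀ h0', one_mul, mul_assoc]
      have h2 : ∀ n : ℕ, star (e'⁻¹ * (star t * e * t)) ^ n * e' =
          e' * (e'⁻¹ * (star t * e * t)) ^ n := by
        intro n
        induction n with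
        | zero => rw [pow_zero, pow_zero, one_mul, mul_one]
        | succ n ih => rw [pow_succ', mul_assoc, ih, ← mul_assoc, h1, pow_succ', mul_assoc]
      rw [mul_assoc, Algebra.commutes a e', ← mul_assoc, h2, mul_assoc,
        Algebra.commutes a]
  obtain ⟨S, hSd⟩ : ∃ S : D, S = algebraMap K D s := ⟨_, rfl⟩
  have hSc : ∀ z : D, S * z = z * S := fun z => by rw [hSd]; exact Algebra.commutes s z
  have hSS : S * S = algebraMap k D d := by
    rw [hSd, ← map_mul, ← sq, hS.sq, ← IsScalarTower.algebraMap_apply]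
  have hSst : star S = -S := by rw [hSd]; exact star_S hS
  obtain ⟨c, hc⟩ : ∃ c : D, c = j x + j y * S := ⟨_, rfl⟩
  have hjc : j x * j y = j y * j x := by rw [← map_mul, mul_comm, map_mul]
  have hkey : star c * e' * c = star t * e * t := by
    have h1 : star c * e' = e' * (j x - j y * S) := by
      rw [hc, star_add, star_mul, hSst, add_mul, hconj, neg_mul, neg_mul, mul_assoc, hconj,
        ← sub_eq_add_neg, hSc, mul_sub, mul_assoc]
    have h2 : (j x - j y * S) * (j x + j y * S) = j g := by
      have e1 : (j x - j y * S) * (j x + j y * S) =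
          j x * j x - j y * j y * (S * S) := by
        calc (j x - j y * S) * (j x + j y * S)
            = j x * j x + j x * j y * S - j y * (S * j x) - j y * (S * j y) * S := by
              noncomm_ring
          _ = j x * j x + j x * j y * S - j y * (j x * S) - j y * (j y * S) * S := by
              rw [hSc, hSc]
          _ = j x * j x + (j x * j y - j y * j x) * S - j y * j y * (S * S) := by noncomm_ring
          _ = _ := by rw [hjc, sub_self, zero_mul, add_zero]
      rw [e1, hSS, hxy, map_sub, map_mul, map_pow, map_pow, AlgHom.commutes, sq, sq,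
        Algebra.commutes]
    rw [h1, mul_assoc, hc, h2, hg, ← mul_assoc, mul_inv_cancel₀ h0', one_mul]
  have hc0 : c ≠ 0 := by
    rintro h
    rw [h, mul_zero] at hkey
    exact hh0 hkey.symm
  refine ⟨t * c⁻¹, mul_ne_zero ht (inv_ne_zero hc0), ?_⟩
  have hsc0 : star c ≠ 0 := star_ne_zero.mpr hc0
  calc e' = (star c)⁻¹ * (star c * e' * c) * c⁻¹ := by
        rw [mul_assoc (star c), inv_mul_cancel_left₀ hsc0, mul_inv_cancel_right₀ hc0]
    _ = (star c)⁻¹ * (star t * e * t) * c⁻¹ := by rw [hkey]
    _ = star (t * c⁻¹) * e * (t * c⁻¹) := by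
        rw [star_mul, star_inv₀]
        simp only [mul_assoc]

end main

section loc

variable {k E D : Type} [Field k] [NumberField k] [Field E] [NumberField E] [Algebra k E]
  [DivisionRing D] [Algebra k D] {N : ℕ} {B : Module.Basis (Fin N) k D} (j : E →ₐ[k] D)
  {d : kˣ}

/-- the good places -/
theorem mem_of_unit {v : HeightOneSpectrum (𝓞 k)} {w : HeightOneSpectrum (𝓞 E)} (hw : Ab w v)
    (h2 : v.valuation k 2 = 1) (hd : v.valuation k (d : k) = 1) (hm : MulC B v) {l : k}
    (hl : l ≠ 0) {u u' : D} (hu : Ing B v u) (hu' : Ing B v u') (γ : Eˣ)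
    (h : u * algebraMap k D l ^ 2 = j γ) (huu : u * u' = 1) :
    γ ∈ NF (inc k E d) ⊔ LSp (.inl w : Pl E) := by
  have hl' : algebraMap k E l ≠ 0 := (_root_.map_ne_zero _).mpr hl
  obtain ⟨y, hy⟩ : ∃ y : E, y = (γ : E) * (algebraMap k E l ^ 2)⁻¹ := ⟨_, rfl⟩
  have hy0 : y ≠ 0 := by rw [hy]; exact mul_ne_zero γ.ne_zero (inv_ne_zero (pow_ne_zero 2 hl'))
  have hyl : y * algebraMap k E l ^ 2 = γ := by
    rw [hy, inv_mul_cancel_right₀ (pow_ne_zero 2 hl')]
  have hlD : algebraMap k D l ≠ 0 := (_root_.map_ne_zero _).mpr hl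
  have hjy : j y = u := by
    have h1 := congrArg j hyl
    rw [map_mul, map_pow, AlgHom.commutes, ← h] at h1
    exact mul_right_cancel₀ (pow_ne_zero 2 hlD) h1
  have hu0 : u ≠ 0 := left_ne_zero_of_mul_eq_one huu
  have hjy' : j y⁻¹ = u' := by
    rw [map_inv₀, hjy]
    exact inv_eq_of_mul_eq_one_right huu
  have hle : ∀ z : E, Ing B v (j z) → w.valuation E z ≤ 1 := fun z hz =>
    val_le_one_of_stable B j hw z fun i => Ing.mul hm hz (Ing.basis i)
  have h1 : w.valuation E y ≤ 1 := hle y (by rw [hjy]; exact hu)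
  have h2' : w.valuation E y⁻¹ ≤ 1 := hle y⁻¹ (by rw [hjy']; exact hu')
  have h3 : w.valuation E y = 1 := by
    refine le_antisymm h1 ?_
    rw [map_inv₀] at h2'
    have hv0 : w.valuation E y ≠ 0 := (Valuation.ne_zero_iff _).mpr hy0
    exact (inv_le_one₀ (zero_lt_iff.mpr hv0)).mp h2'
  have hw2 : w.valuation E 2 = 1 := by
    have := (val_eq_one_iff hw (2 : k)).mpr h2
    rwa [map_ofNat] at this
  have hwd : w.valuation E ((inc k E d : Eˣ) : E) = 1 := (val_eq_one_iff hw (d : k)).mpr hd
  have h4 := unit_norm w hw2 (inc k E d) (Units.mk0 y hy0) hwd h3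
  have h5 : γ = Units.mk0 y hy0 * (Units.mk0 _ hl') ^ 2 := by
    ext
    rw [Units.val_mul, Units.val_pow_eq_pow_val, Units.val_mk0, Units.val_mk0, hyl]
  rw [h5]
  refine mul_mem h4 (Subgroup.mem_sup_left (Sq_le_NF _ ?_))
  exact ⟨_, rfl⟩

/-- near places, finite -/
theorem mem_of_near {w : HeightOneSpectrum (𝓞 E)} (γ : Eˣ)
    (h : w.valuation E ((γ : E) - 1) < w.valuation E (algebraMap k E 4)) :
    γ ∈ NF (inc k E d) ⊔ LSp (.inl w : Pl E) := by
  refine Subgroup.mem_sup_right ⟨1, ?_⟩
  rw [Units.val_one, one_pow, div_one]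
  rwa [map_ofNat] at h

/-- near places, real -/
theorem mem_of_near_real {ψ : E →+* ℝ} (γ : Eˣ) {l : k} (hl : l ≠ 0)
    (h : |ψ ((γ : E) * (algebraMap k E l ^ 2)⁻¹ - 1)| < 1) :
    γ ∈ NF (inc k E d) ⊔ LSp (.inr ψ : Pl E) := by
  refine Subgroup.mem_sup_right ?_
  change 0 < ψ γ
  have hl' : ψ (algebraMap k E l) ≠ 0 :=
    (_root_.map_ne_zero _).mpr ((_root_.map_ne_zero _).mpr hl)
  rw [abs_lt, map_sub, map_mul, map_inv₀, map_pow, map_one] at h
  have h1 : 0 < ψ γ * (ψ (algebraMap k E l) ^ 2)⁻¹ := by linarith [h.1]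
  have h2 : 0 < (ψ (algebraMap k E l) ^ 2)⁻¹ := by positivity
  exact (pos_iff_pos_of_mul_pos h1).mpr h2

end loc

end Vale.Agent.P011.Even
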