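import Vale.Agent.P011.Even.GLat

/-!
Inverses with integral coordinates, from a Bezout relation between a polynomial and its conjugate.
-/

open NumberField IsDedekindDomain Polynomial

set_option linter.unusedSectionVars false

namespace Vale.Agent.P011.Even

open Arith

section two

variable {k : Type} [Field k] [NumberField k]

/-- At a nonsplit place the norm form is anisotropic modulo the prime. -/
theorem small_of_norm_small {d : kˣ} {v : HeightOneSpectrum (𝓞 k)} (hns : d ∉ LS (v.valuation k))
    (h2 : v.valuation k 2 = 1) (hd : v.valuation k (d : k) = 1) {x y : k}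
    (hx : v.valuation k x ≤ 1) (hy : v.valuation k y ≤ 1)
    (h : v.valuation k (x ^ 2 - d * y ^ 2) < 1) : v.valuation k x < 1 ∧ v.valuation k y < 1 := by
  have h4 : v.valuation k 4 = 1 := by
    have : (4 : k) = 2 * 2 := by norm_num
    rw [this, map_mul, h2, one_mul]
  have hy1 : v.valuation k y < 1 := by
    by_contra hc
    have hy' : v.valuation k y = 1 := le_antisymm hy (not_lt.mp hc)
    have hdy : v.valuation k (d * y ^ 2) = 1 := by rw [map_mul, map_pow, hd, hy', one_pow, one_mul]
    have hx2 : v.valuation k (x ^ 2) = 1 := by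
      have e : x ^ 2 = (x ^ 2 - d * y ^ 2) + d * y ^ 2 := by ring
      rw [e, Valuation.map_add_eq_of_lt_right]
      · exact hdy
      · rw [hdy]; exact h
    have hx0 : x ≠ 0 := by
      rintro rfl
      rw [zero_pow two_ne_zero, map_zero] at hx2
      exact zero_ne_one hx2
    have hy0 : y ≠ 0 := by
      rintro rfl
      rw [map_zero] at hy'
      exact zero_ne_one hy'
    apply hns
    refine ⟨Units.mk0 (x / y) (div_ne_zero hx0 hy0), ?_⟩
    rw [Units.val_mk0, h4]
    have e : (d : k) / (x / y) ^ 2 - 1 = -(x ^ 2 - d * y ^ 2) / x ^ 2 := by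
      field_simp
      ring
    rw [e, map_div₀, Valuation.map_neg, hx2, div_one]
    exact h
  refine ⟨?_, hy1⟩
  by_contra hc
  have hx' : v.valuation k x = 1 := le_antisymm hx (not_lt.mp hc)
  have hdy : v.valuation k (d * y ^ 2) < 1 := by
    rw [map_mul, map_pow, hd, one_mul]
    exact pow_lt_one₀ zero_le hy1 two_ne_zero
  have e : x ^ 2 = (x ^ 2 - d * y ^ 2) + d * y ^ 2 := by ring
  have h1 : v.valuation k (x ^ 2) < 1 := by
    rw [e]
    exact (Valuation.map_add _ _ _).trans_lt (max_lt h hdy)
  rw [map_pow, hx', one_pow] at h1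
  exact lt_irrefl _ h1

end two

section quad

variable {k K : Type} [Field k] [NumberField k] [Field K] [StarRing K] [Algebra k K]
  {d : kˣ} {s : K}

/-- The elements of `K` with integral coordinates. -/
def KR (hs : s ^ 2 = algebraMap k K d) (v : HeightOneSpectrum (𝓞 k))
    (hd : v.valuation k (d : k) = 1) : Subring K where
  carrier := {c | ∃ x y : k, v.valuation k x ≤ 1 ∧ v.valuation k y ≤ 1 ∧
    c = algebraMap k K x + algebraMap k K y * s}
  mul_mem' := by
    rintro _ _ ⟨x, y, hx, hy, rfl⟩ ⟨z, t, hz, ht, rfl⟩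
    refine ⟨x * z + d * (y * t), x * t + y * z, ?_, ?_, ?_⟩
    · refine (Valuation.map_add _ _ _).trans (max_le ?_ ?_)
      · rw [map_mul]; exact mul_le_one' hx hz
      · rw [map_mul, map_mul, hd, one_mul]; exact mul_le_one' hy ht
    · refine (Valuation.map_add _ _ _).trans (max_le ?_ ?_)
      · rw [map_mul]; exact mul_le_one' hx ht
      · rw [map_mul]; exact mul_le_one' hy hz
    · rw [map_add, map_add, map_mul, map_mul, map_mul, map_mul, map_mul, ← hs]
      ring
  one_mem' := ⟨1, 0, by rw [map_one], by rw [map_zero]; exact zero_le_one, by simp⟩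
  add_mem' := by
    rintro _ _ ⟨x, y, hx, hy, rfl⟩ ⟨z, t, hz, ht, rfl⟩
    refine ⟨x + z, y + t, ?_, ?_, ?_⟩
    · exact (Valuation.map_add _ _ _).trans (max_le hx hz)
    · exact (Valuation.map_add _ _ _).trans (max_le hy ht)
    · rw [map_add, map_add]
      ring
  zero_mem' := ⟨0, 0, by rw [map_zero]; exact zero_le_one, by rw [map_zero]; exact zero_le_one,
    by simp⟩
  neg_mem' := by
    rintro _ ⟨x, y, hx, hy, rfl⟩
    refine ⟨-x, -y, ?_, ?_, ?_⟩
    · rw [Valuation.map_neg]; exact hx
    · rw [Valuation.map_neg]; exact hy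
    · rw [map_neg, map_neg]
      ring

theorem mem_KR {hs : s ^ 2 = algebraMap k K d} {v : HeightOneSpectrum (𝓞 k)}
    {hd : v.valuation k (d : k) = 1} {c : K} : c ∈ KR hs v hd ↔
      ∃ x y : k, v.valuation k x ≤ 1 ∧ v.valuation k y ≤ 1 ∧
        c = algebraMap k K x + algebraMap k K y * s := Iff.rfl

/-- uniqueness of coordinates -/
theorem coord_unique (hs : s ^ 2 = algebraMap k K d) (hns : ¬ IsSquare (d : k)) {x y z t : k}
    (h : algebraMap k K x + algebraMap k K y * s = algebraMap k K z + algebraMap k K t * s) :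
    x = z ∧ y = t := by
  have h1 : algebraMap k K (x - z) = algebraMap k K (t - y) * s := by
    rw [map_sub, map_sub]
    linear_combination h
  by_cases hty : t - y = 0
  · rw [hty, map_zero, zero_mul, map_eq_zero] at h1
    exact ⟨sub_eq_zero.mp h1, (sub_eq_zero.mp hty).symm⟩
  · exfalso
    apply hns
    refine ⟨(x - z) / (t - y), ?_⟩
    apply (algebraMap k K).injective
    have h2 : algebraMap k K (t - y) ≠ 0 := (_root_.map_ne_zero _).mpr hty
    rw [← hs, map_mul, map_div₀, h1]
    field_simp

end quad

section main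

variable {k K D : Type} [Field k] [NumberField k] [Field K] [StarRing K]
    [DivisionRing D] [StarRing D] [Algebra k K] [Algebra k D] [Algebra K D] [IsScalarTower k K D]
    {d : kˣ} {s : K} {N : ℕ} {B : Module.Basis (Fin N) k D}

theorem star_algebraMap (hS : Setting k K D d s) (x : k) :
    star (algebraMap k K x) = algebraMap k K x := (hS.fix _).mpr ⟨x, rfl⟩

theorem Ing.of_KR (hs : s ^ 2 = algebraMap k K d) {v : HeightOneSpectrum (𝓞 k)}
    {hd : v.valuation k (d : k) = 1} (h1 : Ing B v (1 : D)) (hsI : Ing B v (algebraMap K D s))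
    {c : K} (hc : c ∈ KR hs v hd) : Ing B v (algebraMap K D c) := by
  obtain ⟨x, y, hx, hy, rfl⟩ := mem_KR.mp hc
  have e : algebraMap K D (algebraMap k K x + algebraMap k K y * s) =
      x • (1 : D) + y • algebraMap K D s := by
    rw [map_add, map_mul, ← IsScalarTower.algebraMap_apply, ← IsScalarTower.algebraMap_apply,
      Algebra.smul_def, Algebra.smul_def, mul_one]
  rw [e]
  exact (h1.smul hx).add (hsI.smul hy)

theorem Ing.aeval (hs : s ^ 2 = algebraMap k K d) {v : HeightOneSpectrum (𝓞 k)}
    {hd : v.valuation k (d : k) = 1} (hm : MulC B v) (h1 : Ing B v (1 : D))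
    (hsI : Ing B v (algebraMap K D s)) {a : D} (ha : Ing B v a) (p : (KR hs v hd)[X]) :
    Ing B v (Polynomial.aeval a (p.map (KR hs v hd).subtype)) := by
  rw [Polynomial.aeval_eq_sum_range]
  refine Ing.sum _ fun i _ => ?_
  rw [Polynomial.coeff_map, Algebra.smul_def]
  exact Ing.mul hm (Ing.of_KR hs h1 hsI (p.coeff i).2) (Ing.pow hm h1 ha i)

/-- a polynomial with coefficients in a subring comes from the subring -/
theorem exists_lift {R : Subring K} {p : K[X]} (h : ∀ i, p.coeff i ∈ R) :
    ∃ q : R[X], q.map R.subtype = p := by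
  have h1 : p ∈ Polynomial.lifts R.subtype := by
    rw [Polynomial.lifts_iff_coeff_lifts]
    intro i
    exact ⟨⟨_, h i⟩, rfl⟩
  exact h1

/-- The key step: the inverse of `a + μ` is integral. -/
theorem inv_integral (hS : Setting k K D d s) {v : HeightOneSpectrum (𝓞 k)}
    (hns : d ∉ LS (v.valuation k)) (h2 : v.valuation k 2 = 1)
    (hd : v.valuation k (d : k) = 1) (hm : MulC B v) (h1 : Ing B v (1 : D))
    (hsI : Ing B v (algebraMap K D s)) {a : D} (ha : Ing B v a) {m A A' : K[X]}
    (hroot : aeval a m = 0) (hrel : A * m + A' * m.map (starRingEnd K) = 1)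
    (hmc : ∀ i, m.coeff i ∈ KR hS.sq v hd) (hAc : ∀ i, A.coeff i ∈ KR hS.sq v hd)
    (hAc' : ∀ i, A'.coeff i ∈ KR hS.sq v hd) {μ : k} (hμ : v.valuation k μ ≤ 1)
    : Ing B v (a + algebraMap k D μ)⁻¹ := by
  have hsq := hS.sq
  have hsK : ¬ IsSquare (d : k) := hS.ns
  -- evaluation of integral polynomials
  have hneg : -algebraMap k K μ ∈ KR hS.sq v hd :=
    ⟨-μ, 0, by rw [Valuation.map_neg]; exact hμ, by rw [map_zero]; exact zero_le_one, by simp⟩
  have heval : ∀ p : K[X], (∀ i, p.coeff i ∈ KR hS.sq v hd) →
      p.eval (-algebraMap k K μ) ∈ KR hS.sq v hd := by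
    intro p hp
    rw [Polynomial.eval_eq_sum_range]
    exact Subring.sum_mem _ fun i _ => Subring.mul_mem _ (hp i) (Subring.pow_mem _ hneg i)
  obtain ⟨x, y, hx, hy, hc⟩ := mem_KR.mp (heval m hmc)
  have hstarμ : star (-algebraMap k K μ) = -algebraMap k K μ := by
    rw [star_neg, star_algebraMap hS]
  have hcbar : (m.map (starRingEnd K)).eval (-algebraMap k K μ) =
      algebraMap k K x - algebraMap k K y * s := by
    have e : (-algebraMap k K μ) = starRingEnd K (-algebraMap k K μ) := hstarμ.symm
    conv_lhs => rw [e]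
    rw [Polynomial.eval_map_apply, hc]
    change star (algebraMap k K x + algebraMap k K y * s) = _
    rw [star_add, star_mul, star_algebraMap hS, star_algebraMap hS, hS.star_s]
    ring
  -- the norm is a unit
  have hNle : v.valuation k (x ^ 2 - d * y ^ 2) ≤ 1 := by
    refine (Valuation.map_sub _ _ _).trans (max_le ?_ ?_)
    · rw [map_pow]; exact pow_le_one₀ zero_le hx
    · rw [map_mul, map_pow, hd, one_mul]; exact pow_le_one₀ zero_le hy
  have hN : v.valuation k (x ^ 2 - d * y ^ 2) = 1 := by
    refine le_antisymm hNle ?_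
    by_contra hlt
    rw [not_le] at hlt
    obtain ⟨hx1, hy1⟩ := small_of_norm_small hns h2 hd hx hy hlt
    obtain ⟨p, q, hp, hq, hA⟩ := mem_KR.mp (heval A hAc)
    obtain ⟨p', q', hp', hq', hA'⟩ := mem_KR.mp (heval A' hAc')
    have e := congrArg (fun f => Polynomial.eval (-algebraMap k K μ) f) hrel
    simp only [Polynomial.eval_add, Polynomial.eval_mul, Polynomial.eval_one] at e
    rw [hc, hcbar, hA, hA'] at e
    have e2 : algebraMap k K (p * x + d * (q * y) + (p' * x - d * (q' * y))) +
        algebraMap k K (p * y + q * x + (q' * x - p' * y)) * s =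
        algebraMap k K 1 + algebraMap k K 0 * s := by
      rw [map_one, map_zero, zero_mul, add_zero]
      simp only [map_add, map_sub, map_mul]
      rw [← hsq]
      linear_combination e
    obtain ⟨e3, -⟩ := coord_unique hsq hsK e2
    have h3 : v.valuation k (p * x + d * (q * y) + (p' * x - d * (q' * y))) < 1 := by
      have t1 : v.valuation k (p * x) < 1 := by
        rw [map_mul, mul_comm]; exact mul_lt_one_of_lt_of_le hx1 hp
      have t2 : v.valuation k (d * (q * y)) < 1 := by
        rw [map_mul, map_mul, hd, one_mul, mul_comm]; exact mul_lt_one_of_lt_of_le hy1 hq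
      have t3 : v.valuation k (p' * x) < 1 := by
        rw [map_mul, mul_comm]; exact mul_lt_one_of_lt_of_le hx1 hp'
      have t4 : v.valuation k (d * (q' * y)) < 1 := by
        rw [map_mul, map_mul, hd, one_mul, mul_comm]; exact mul_lt_one_of_lt_of_le hy1 hq'
      refine (Valuation.map_add _ _ _).trans_lt (max_lt ?_ ?_)
      · exact (Valuation.map_add _ _ _).trans_lt (max_lt t1 t2)
      · exact (Valuation.map_sub _ _ _).trans_lt (max_lt t3 t4)
    rw [e3, map_one] at h3
    exact lt_irrefl _ h3
  have hN0 : x ^ 2 - d * y ^ 2 ≠ 0 := by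
    intro h0
    rw [h0, map_zero] at hN
    exact zero_ne_one hN
  -- the inverse of the value
  obtain ⟨c, hcd⟩ : ∃ c : K, c = m.eval (-algebraMap k K μ) := ⟨_, rfl⟩
  rw [← hcd] at hc
  have hcc : c * (algebraMap k K x - algebraMap k K y * s) = algebraMap k K (x ^ 2 - d * y ^ 2) := by
    rw [hc, map_sub, map_mul, map_pow, map_pow, ← hsq]
    ring
  have hc0 : c ≠ 0 := by
    rintro rfl
    rw [zero_mul] at hcc
    exact hN0 ((map_eq_zero _).mp hcc.symm)
  have hcinv : c⁻¹ ∈ KR hS.sq v hd := by
    refine ⟨x / (x ^ 2 - d * y ^ 2), -(y / (x ^ 2 - d * y ^ 2)), ?_, ?_, ?_⟩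
    · rw [map_div₀, hN, div_one]; exact hx
    · rw [Valuation.map_neg, map_div₀, hN, div_one]; exact hy
    · have h3 : algebraMap k K (x ^ 2 - d * y ^ 2) ≠ 0 := (_root_.map_ne_zero _).mpr hN0
      rw [inv_eq_iff_eq_inv, map_neg, map_div₀, map_div₀]
      apply eq_inv_of_mul_eq_one_left
      rw [← mul_left_inj' h3]
      calc c * (algebraMap k K x / algebraMap k K (x ^ 2 - d * y ^ 2) +
            -(algebraMap k K y / algebraMap k K (x ^ 2 - d * y ^ 2)) * s) *
            algebraMap k K (x ^ 2 - d * y ^ 2)
          = c * (algebraMap k K x - algebraMap k K y * s) := by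
            field_simp
            ring
        _ = _ := by rw [hcc, one_mul]
  -- the quotient polynomial
  obtain ⟨m₀, hm₀⟩ := exists_lift hmc
  obtain ⟨q₀, hq₀⟩ : ∃ q₀ : (KR hS.sq v hd)[X],
      q₀ = m₀ /ₘ (X - C ⟨-algebraMap k K μ, hneg⟩) := ⟨_, rfl⟩
  have hq : q₀.map (KR hS.sq v hd).subtype = m /ₘ (X - C (-algebraMap k K μ)) := by
    rw [hq₀, Polynomial.map_divByMonic _ (Polynomial.monic_X_sub_C _), hm₀]
    simp
  have hdiv : m = (X - C (-algebraMap k K μ)) * (m /ₘ (X - C (-algebraMap k K μ))) + C c := by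
    conv_lhs => rw [← Polynomial.modByMonic_add_div m (X - C (-algebraMap k K μ)),
      Polynomial.modByMonic_X_sub_C_eq_C_eval]
    rw [hcd]
    ring
  have hQ : Ing B v (aeval a (m /ₘ (X - C (-algebraMap k K μ)))) := by
    rw [← hq]
    exact Ing.aeval hS.sq hm h1 hsI ha q₀
  have hval : (a + algebraMap k D μ) * aeval a (m /ₘ (X - C (-algebraMap k K μ))) =
      -algebraMap K D c := by
    have e := congrArg (Polynomial.aeval a) hdiv
    rw [hroot, map_add, map_mul, map_sub, Polynomial.aeval_X, Polynomial.aeval_C,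
      Polynomial.aeval_C, map_neg, sub_neg_eq_add, ← IsScalarTower.algebraMap_apply] at e
    exact eq_neg_of_add_eq_zero_left e.symm
  have hinv : (a + algebraMap k D μ)⁻¹ =
      -(aeval a (m /ₘ (X - C (-algebraMap k K μ))) * algebraMap K D c⁻¹) := by
    rw [eq_comm]
    apply eq_inv_of_mul_eq_one_right
    rw [mul_neg, ← mul_assoc, hval, neg_mul, neg_neg, ← map_mul, mul_inv_cancel₀ hc0, map_one]
  rw [hinv]
  exact (Ing.mul hm hQ (Ing.of_KR hS.sq h1 hsI hcinv)).neg

end main

section minpoly

variable {K D : Type} [Field K] [CharZero K] [StarRing K] [DivisionRing D] [Algebra K D]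
  [FiniteDimensional K D]

/-- A polynomial with a nonzero period is constant. -/
theorem const_of_period {p : K[X]} {c : K} (hc : c ≠ 0) (h : p.comp (X + C c) = p) :
    p.natDegree = 0 := by
  have h1 : ∀ n : ℕ, p.eval (n * c) = p.eval 0 := by
    intro n
    induction n with
    | zero => simp
    | succ n ih =>
      have e := congrArg (fun q => Polynomial.eval ((n : K) * c) q) h
      simp only [Polynomial.eval_comp, Polynomial.eval_add, Polynomial.eval_X,
        Polynomial.eval_C] at e
      rw [← ih, ← e]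
      push_cast
      ring_nf
  have h2 : p - C (p.eval 0) = 0 := by
    apply Polynomial.eq_zero_of_infinite_isRoot
    refine Set.Infinite.mono (s := Set.range fun n : ℕ => (n : K) * c) ?_ ?_
    · rintro _ ⟨n, rfl⟩
      change Polynomial.IsRoot _ _
      rw [Polynomial.IsRoot, Polynomial.eval_sub, Polynomial.eval_C, h1, sub_self]
    · apply Set.infinite_range_of_injective
      intro a b hab
      exact Nat.cast_injective (mul_right_cancel₀ hc hab)
  rw [sub_eq_zero.mp h2, Polynomial.natDegree_C]

theorem minpoly_add (a : D) (c : K) :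
    minpoly K (a + algebraMap K D c) = (minpoly K a).comp (X - C c) := by
  have ha : IsIntegral K a := IsIntegral.of_finite K a
  have hb : IsIntegral K (a + algebraMap K D c) := IsIntegral.of_finite K _
  have key : ∀ (b : D) (c : K), aeval (b + algebraMap K D c) ((minpoly K b).comp (X - C c)) = 0 := by
    intro b c
    rw [Polynomial.aeval_comp, map_sub, Polynomial.aeval_X, Polynomial.aeval_C, add_sub_cancel_right,
      minpoly.aeval]
  have hdeg : ∀ (b : D) (c : K), ((minpoly K b).comp (X - C c)).natDegree =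
      (minpoly K b).natDegree := by
    intro b c
    rw [Polynomial.natDegree_comp, Polynomial.natDegree_X_sub_C, mul_one]
  have hmon : ((minpoly K a).comp (X - C c)).Monic :=
    (minpoly.monic ha).comp (Polynomial.monic_X_sub_C c) (by
      rw [Polynomial.natDegree_X_sub_C]; exact one_ne_zero)
  refine (Polynomial.eq_of_monic_of_dvd_of_natDegree_le (minpoly.monic hb) hmon
    (minpoly.dvd _ _ (key a c)) ?_).symm
  rw [hdeg]
  have h2 := key (a + algebraMap K D c) (-c)
  rw [map_neg, add_neg_cancel_right] at h2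
  have h3 := minpoly.dvd _ _ h2
  have h4 := Polynomial.natDegree_le_of_dvd h3 (by
    intro h0
    have := hdeg (a + algebraMap K D c) (-c)
    rw [h0, Polynomial.natDegree_zero] at this
    exact (minpoly.natDegree_pos hb).ne this)
  rwa [hdeg] at h4

/-- The minimal polynomial is coprime to its conjugate after adding a multiple of `s`. -/
theorem exists_shift {s : K} (hs : star s = -s) (hs0 : s ≠ 0) (a : D) {δ : K} (hδ : star δ = δ)
    (hδ0 : δ ≠ 0) : ∃ c : K, (c = 0 ∨ c = δ) ∧
      minpoly K (a + algebraMap K D (c * s)) ≠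
        (minpoly K (a + algebraMap K D (c * s))).map (starRingEnd K) := by
  by_cases h : minpoly K a = (minpoly K a).map (starRingEnd K)
  · refine ⟨δ, Or.inr rfl, fun h' => ?_⟩
    have hadd := minpoly_add a (δ * s)
    rw [hadd] at h'
    have e1 : ((minpoly K a).comp (X - C (δ * s))).map (starRingEnd K) =
        (minpoly K a).comp (X + C (δ * s)) := by
      rw [Polynomial.map_comp, ← h, Polynomial.map_sub, Polynomial.map_X, Polynomial.map_C]
      have : (starRingEnd K) (δ * s) = -(δ * s) := by
        change star (δ * s) = _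
        rw [star_mul, hδ, hs]; ring
      rw [this, map_neg, sub_neg_eq_add]
    rw [e1] at h'
    have e2 := congrArg (fun q => Polynomial.comp q (X + C (δ * s))) h'
    simp only [Polynomial.comp_assoc] at e2
    have e3 : (X - C (δ * s)).comp (X + C (δ * s)) = (X : K[X]) := by simp
    have e4 : (X + C (δ * s)).comp (X + C (δ * s)) = (X : K[X]) + C (2 * (δ * s)) := by
      simp only [Polynomial.add_comp, Polynomial.X_comp, Polynomial.C_comp, two_mul, map_add]
      ring
    rw [e3, e4, Polynomial.comp_X] at e2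
    have e5 := const_of_period (mul_ne_zero two_ne_zero (mul_ne_zero hδ0 hs0)) e2.symm
    have e6 := minpoly.natDegree_pos (IsIntegral.of_finite K a)
    omega
  · exact ⟨0, Or.inl rfl, by rwa [zero_mul, map_zero, add_zero]⟩

theorem coprime_conj {b : D} (h : minpoly K b ≠ (minpoly K b).map (starRingEnd K)) :
    ∃ A A' : K[X], A * minpoly K b + A' * (minpoly K b).map (starRingEnd K) = 1 := by
  have hb : IsIntegral K b := IsIntegral.of_finite K b
  have hirr := minpoly.irreducible hb
  have hmon := minpoly.monic hb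
  have h1 : ¬ minpoly K b ∣ (minpoly K b).map (starRingEnd K) := by
    intro hdvd
    apply h
    symm
    apply Polynomial.eq_of_monic_of_dvd_of_natDegree_le hmon (hmon.map _) hdvd
    rw [Polynomial.natDegree_map]
  exact (hirr.coprime_iff_not_dvd).mpr h1

end minpoly

end Vale.Agent.P011.Even
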