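import Vale.Agent.P011.Even.GNorm
import Vale.Agent.P011.Even.GTrick
import Vale.Agent.P011.Even.GFinish

/-!
The choice of a global element approximating given local ones whose inverse is integral outside a
finite set of places.
-/

open NumberField IsDedekindDomain Polynomial

set_option linter.unusedSectionVars false

namespace Vale.Agent.P011.Even

open Arith

section abv

variable {k : Type} [Field k] [NumberField k]

theorem exists_abv_lt (p : Pl k) {ε : ℝ} (hε : 0 < ε) : ∃ a : k, a ≠ 0 ∧ plAbv p a < ε := by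
  obtain ⟨y, hy0, hy⟩ : ∃ y : k, y ≠ 0 ∧ plAbv p y < 1 := by
    obtain ⟨x, hx0, hx1⟩ := plAbv_nontrivial p
    rcases lt_or_gt_of_ne hx1 with h | h
    · exact ⟨x, hx0, h⟩
    · refine ⟨x⁻¹, inv_ne_zero hx0, ?_⟩
      rw [map_inv₀]
      exact inv_lt_one_of_one_lt₀ h
  obtain ⟨n, hn⟩ := exists_pow_lt_of_lt_one hε hy
  exact ⟨y ^ n, pow_ne_zero n hy0, by rw [map_pow]; exact hn⟩

theorem exists_abv_gt (p : Pl k) (M : ℝ) : ∃ a : k, M < plAbv p a := by
  have hM : 0 < |M| + 1 := by positivity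
  obtain ⟨y, hy0, hy⟩ := exists_abv_lt p (inv_pos.mpr hM)
  refine ⟨y⁻¹, ?_⟩
  have h1 : 0 < plAbv p y := (plAbv p).pos hy0
  have h2 : |M| + 1 < (plAbv p y)⁻¹ := by
    rw [lt_inv_comm₀ hM h1]
    exact hy
  rw [map_inv₀]
  linarith [le_abs_self M]

end abv

section main

variable {k K D : Type} [Field k] [NumberField k] [Field K] [StarRing K]
    [DivisionRing D] [StarRing D] [Algebra k K] [Algebra k D] [Algebra K D] [IsScalarTower k K D]
    {d : kˣ} {s : K} {N : ℕ}

theorem exists_coord (hS : Setting k K D d s) (c : K) :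
    ∃ x y : k, c = algebraMap k K x + algebraMap k K y * s := by
  have h2 : (2 : K) ≠ 0 := by
    have : (2 : K) = algebraMap k K 2 := by rw [map_ofNat]
    rw [this]
    exact (_root_.map_ne_zero _).mpr two_ne_zero
  have hs0 : s ≠ 0 := by
    rintro h
    have := hS.sq
    rw [h, zero_pow two_ne_zero] at this
    exact d.ne_zero ((map_eq_zero _).mp this.symm)
  have h2s : star (2 : K) = 2 := star_ofNat 2
  obtain ⟨x, hx⟩ := (hS.fix ((c + star c) / 2)).mp (by
    rw [star_div₀, star_add, star_star, h2s, add_comm])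
  obtain ⟨y, hy⟩ := (hS.fix ((c - star c) / (2 * s))).mp (by
    rw [star_div₀, star_sub, star_star, star_mul, h2s, hS.star_s]
    field_simp
    ring)
  refine ⟨x, y, ?_⟩
  rw [hx, hy]
  field_simp
  ring

/-- the involution as a linear map -/
def sig (hS : Setting k K D d s) : D →ₗ[k] D where
  toFun := star
  map_add' := star_add
  map_smul' := fun c x => by
    rw [Algebra.smul_def, star_mul, star_alg hS, RingHom.id_apply, Algebra.smul_def,
      Algebra.commutes]

@[simp] theorem sig_apply (hS : Setting k K D d s) (x : D) : sig hS x = star x := rfl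

/-- finitely many bad places -/
theorem exists_fin_bad (hS : Setting k K D d s) (B : Module.Basis (Fin N) k D) (L : Set D)
    (hL : L.Finite) : ∃ S : Set (HeightOneSpectrum (𝓞 k)), S.Finite ∧ ∀ v ∉ S,
      v.valuation k 2 = 1 ∧ v.valuation k (d : k) = 1 ∧ MulC B v ∧
      (∀ x : D, Ing B v x → Ing B v (star x)) ∧ ∀ x ∈ L, Ing B v x := by
  have h2 : {v : HeightOneSpectrum (𝓞 k) | v.valuation k
      ((Units.mk0 (2 : k) two_ne_zero : kˣ) : k) ≠ 1}.Finite := finite_ne_one _
  have hd := finite_ne_one d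
  have hm : (⋃ p : Fin N × Fin N, {v | ¬ Ing B v (B p.1 * B p.2)}).Finite :=
    Set.finite_iUnion fun p => finite_not_ing B _
  have hst : (⋃ p : Fin N, {v | ¬ Ing B v (star (B p))}).Finite :=
    Set.finite_iUnion fun p => finite_not_ing B _
  have hx : (⋃ x ∈ L, {v | ¬ Ing B v x}).Finite := hL.biUnion fun x _ => finite_not_ing B _
  refine ⟨_, ((((h2.union hd).union hm).union hst).union hx), fun v hv => ?_⟩
  simp only [Set.mem_union, not_or, Set.mem_iUnion, Set.mem_ofPred_eq, not_exists, not_not] at hv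
  obtain ⟨⟨⟨⟨h2, hd⟩, hm⟩, hst⟩, hx⟩ := hv
  refine ⟨h2, hd, fun i j => hm (i, j), fun x hx => ?_, fun x hxL => ?_⟩
  · exact Ing.linear (f := sig hS) (fun i => hst i) hx
  · exact hx x hxL

/-- The coefficients are integral at almost all places. -/
theorem finite_not_coord (hS : Setting k K D d s) (c : K) :
    {v : HeightOneSpectrum (𝓞 k) | ¬ ∃ x y : k, v.valuation k x ≤ 1 ∧ v.valuation k y ≤ 1 ∧
      c = algebraMap k K x + algebraMap k K y * s}.Finite := by
  obtain ⟨x, y, h⟩ := exists_coord hS c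
  refine ((finite_not_le x).union (finite_not_le y)).subset fun v hv => ?_
  by_contra hc
  simp only [Set.mem_union, not_or, Set.mem_ofPred_eq, not_not] at hc
  exact hv ⟨x, y, hc.1, hc.2, h⟩

theorem finite_not_poly (hS : Setting k K D d s) (p : K[X]) :
    {v : HeightOneSpectrum (𝓞 k) | ¬ ∀ i, ∃ x y : k, v.valuation k x ≤ 1 ∧ v.valuation k y ≤ 1 ∧
      p.coeff i = algebraMap k K x + algebraMap k K y * s}.Finite := by
  have h1 : (⋃ i ∈ (p.support : Set ℕ), {v : HeightOneSpectrum (𝓞 k) | ¬ ∃ x y : k,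
      v.valuation k x ≤ 1 ∧ v.valuation k y ≤ 1 ∧
      p.coeff i = algebraMap k K x + algebraMap k K y * s}).Finite :=
    (Finset.finite_toSet _).biUnion fun i _ => finite_not_coord hS _
  refine h1.subset fun v hv => ?_
  by_contra hc
  apply hv
  intro i
  by_cases hi : i ∈ p.support
  · by_contra hcon
    exact hc (Set.mem_biUnion (x := i) hi hcon)
  · refine ⟨0, 0, by rw [map_zero]; exact zero_le_one, by rw [map_zero]; exact zero_le_one, ?_⟩
    rw [Polynomial.notMem_support_iff.mp hi]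
    simp

/-- The global element. -/
theorem exists_global (hS : Setting k K D d s) (B : Module.Basis (Fin N) k D)
    (L : Set D) (hL : L.Finite) (tv : Pl k → D) (δv : Pl k → ℝ) (hδv : ∀ p, 0 < δv p)
    {t1 : D} (ht1 : t1 ≠ 0)
    (hreal : ∀ φ : k →+* ℝ, φ d < 0 → nm B (.inr φ) (t1 - tv (.inr φ)) < δv (.inr φ) / 2) :
    ∃ t : D, t ≠ 0 ∧ ∃ S : Set (HeightOneSpectrum (𝓞 k)), S.Finite ∧
      (∀ v ∈ S, d ∉ LS (v.valuation k) → nm B (.inl v) (t - tv (.inl v)) < δv (.inl v)) ∧
      (∀ v ∉ S, v.valuation k 2 = 1 ∧ v.valuation k (d : k) = 1 ∧ MulC B v ∧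
        (∀ x : D, Ing B v x → Ing B v (star x)) ∧ (∀ x ∈ L, Ing B v x) ∧
        (d ∉ LS (v.valuation k) → ∃ l : k, l ≠ 0 ∧ Ing B v (l⁻¹ • t) ∧ Ing B v (l • t⁻¹))) ∧
      (∀ φ : k →+* ℝ, φ d < 0 → ∃ l : k, l ≠ 0 ∧
        nm B (.inr φ) (l⁻¹ • t - tv (.inr φ)) < δv (.inr φ)) := by
  classical
  obtain ⟨Sg, hSg⟩ : ∃ S : D, S = algebraMap K D s := ⟨_, rfl⟩
  have hLL : (L ∪ {1, Sg, t1, t1⁻¹}).Finite := hL.union (by simp)
  obtain ⟨S, hSf, hSgood⟩ := exists_fin_bad hS B (L ∪ {1, Sg, t1, t1⁻¹}) hLL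
  -- the places of approximation
  obtain ⟨P, hPd⟩ : ∃ P : Set (Pl k), P = SP S := ⟨_, rfl⟩
  have hP : P.Finite := hPd ▸ SP_finite hSf
  -- the shift
  have hCS : ∀ p : Pl k, ∃ C : ℝ, 0 < C ∧ ∀ c : k, nm B p (c • (t1 * Sg)) ≤ plAbv p c * C := by
    intro p
    refine ⟨nm B p (t1 * Sg) + 1, by have := nm_nonneg B p (t1 * Sg); linarith, fun c => ?_⟩
    rw [nm_smul]
    exact mul_le_mul_of_nonneg_left (by linarith) (AbsoluteValue.nonneg _ _)
  choose C hC0 hC using hCS
  have hr : ∀ p : Pl k, ∃ a : k, a ≠ 0 ∧ plAbv p a < δv p / 6 / C p := fun p =>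
    exists_abv_lt p (div_pos (by have := hδv p; positivity) (hC0 p))
  choose r hr0 hr1 using hr
  obtain ⟨δ0, hδ00, hδ0⟩ : ∃ δ0 : k, δ0 ≠ 0 ∧ ∀ p ∈ P, plAbv p δ0 * C p < δv p / 3 := by
    obtain ⟨f, hf⟩ := approx P hP r (fun p => plAbv p (r p)) (fun p => (plAbv p).pos (hr0 p))
    rcases P.eq_empty_or_nonempty with hPe | ⟨p0, hp0⟩
    · exact ⟨1, one_ne_zero, fun p hp => by rw [hPe] at hp; exact absurd hp (Set.notMem_empty p)⟩
    · refine ⟨f, ?_, fun p hp => ?_⟩
      · rintro rfl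
        have := hf p0 hp0
        rw [zero_sub, AbsoluteValue.map_neg] at this
        exact lt_irrefl _ this
      · have h1 : plAbv p f ≤ plAbv p (f - r p) + plAbv p (r p) := by
          have := (plAbv p).add_le (f - r p) (r p)
          rwa [sub_add_cancel] at this
        have h2 := hf p hp
        have h3 := hr1 p
        have h4 : plAbv p f < 2 * (δv p / 6 / C p) := by linarith
        calc plAbv p f * C p < 2 * (δv p / 6 / C p) * C p := mul_lt_mul_of_pos_right h4 (hC0 p)
          _ = δv p / 3 := by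
            have := (hC0 p).ne'
            field_simp
            ring
  -- the approximation in `D`
  obtain ⟨τ, hτ⟩ := approxD B P hP tv (fun p => δv p / 3) (fun p => by have := hδv p; positivity)
  have hs0 : s ≠ 0 := by
    rintro h
    have := hS.sq
    rw [h, zero_pow two_ne_zero] at this
    exact d.ne_zero ((map_eq_zero _).mp this.symm)
  have _ : CharZero K := charZero_of_injective_algebraMap (algebraMap k K).injective
  have _ := hS.fin
  obtain ⟨c, hc, hmin⟩ := exists_shift hS.star_s hs0 (t1⁻¹ * τ) (star_algebraMap hS δ0)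
    ((_root_.map_ne_zero (algebraMap k K)).mpr hδ00)
  obtain ⟨δ, hδd, hδc⟩ : ∃ δ : k, (δ = 0 ∨ δ = δ0) ∧ c = algebraMap k K δ := by
    rcases hc with rfl | rfl
    · exact ⟨0, Or.inl rfl, by rw [map_zero]⟩
    · exact ⟨δ0, Or.inr rfl, rfl⟩
  have hδ : ∀ p ∈ P, plAbv p δ * C p < δv p / 3 := by
    intro p hp
    rcases hδd with rfl | rfl
    · rw [map_zero, zero_mul]
      have := hδv p
      positivity
    · exact hδ0 p hp
  obtain ⟨s0, hs0d⟩ : ∃ s0 : D, s0 = t1⁻¹ * τ + algebraMap K D (c * s) := ⟨_, rfl⟩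
  rw [← hs0d] at hmin
  have hts0 : t1 * s0 = τ + δ • (t1 * Sg) := by
    rw [hs0d, mul_add, mul_inv_cancel_left₀ ht1, map_mul, hδc, ← hSg,
      ← IsScalarTower.algebraMap_apply, ← mul_assoc, ← Algebra.commutes, mul_assoc,
      Algebra.smul_def]
  obtain ⟨A, A', hrel⟩ := coprime_conj hmin
  -- the second finite set
  obtain ⟨T, hTf, hT⟩ : ∃ T : Set (HeightOneSpectrum (𝓞 k)), T.Finite ∧ ∀ v ∉ T,
      Ing B v s0 ∧ ∀ q ∈ ({minpoly K s0, A, A'} : Set K[X]), ∀ i, ∃ x y : k,
        v.valuation k x ≤ 1 ∧ v.valuation k y ≤ 1 ∧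
        q.coeff i = algebraMap k K x + algebraMap k K y * s := by
    have h1 : (⋃ q ∈ ({minpoly K s0, A, A'} : Set K[X]), {v : HeightOneSpectrum (𝓞 k) |
        ¬ ∀ i, ∃ x y : k, v.valuation k x ≤ 1 ∧ v.valuation k y ≤ 1 ∧
        q.coeff i = algebraMap k K x + algebraMap k K y * s}).Finite :=
      (by simp : ({minpoly K s0, A, A'} : Set K[X]).Finite).biUnion
        fun q _ => finite_not_poly hS q
    refine ⟨_, (finite_not_ing B s0).union h1, fun v hv => ?_⟩
    rw [Set.mem_union, not_or] at hv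
    refine ⟨not_not.mp hv.1, fun q hq => ?_⟩
    by_contra hcon
    exact hv.2 (Set.mem_biUnion hq hcon)
  -- the scalar
  obtain ⟨Q, hQd⟩ : ∃ Q : Set (Pl k), Q = SP (S ∪ T) := ⟨_, rfl⟩
  have hQ : Q.Finite := hQd ▸ SP_finite (hSf.union hTf)
  obtain ⟨M, hM⟩ : ∃ M : Pl k → ℝ, ∀ p, M p = nm B p s0 + nm B p (t1 * s0) / (δv p / 2) + 1 :=
    ⟨_, fun _ => rfl⟩
  choose b hb using fun p : Pl k => exists_abv_gt p (M p)
  obtain ⟨μ, hμ⟩ := approx Q hQ (fun p => if p ∈ Sum.inl '' S then 0 else b p)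
    (fun p => if p ∈ Sum.inl '' S then δv p / 3 / (nm B p t1 + 1) else plAbv p (b p) - M p)
    (fun p => by
      have h1 := hδv p
      have h2 := nm_nonneg B p t1
      split_ifs
      · positivity
      · have := hb p
        linarith)
  have hμS : ∀ v ∈ S, plAbv (.inl v) μ * nm B (.inl v) t1 < δv (.inl v) / 3 := by
    intro v hv
    have hvQ : (Sum.inl v : Pl k) ∈ Q := by
      rw [hQd, inl_mem_SP]
      exact Or.inl hv
    have h1 := hμ _ hvQ
    have hmem : (Sum.inl v : Pl k) ∈ (Sum.inl '' S : Set (Pl k)) := ⟨v, hv, rfl⟩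
    rw [if_pos hmem, if_pos hmem, sub_zero] at h1
    have h2 := nm_nonneg B (.inl v) t1
    have h3 : 0 < nm B (.inl v) t1 + 1 := by linarith
    have h4 : plAbv (.inl v) μ * (nm B (.inl v) t1 + 1) < δv (.inl v) / 3 := (lt_div_iff₀ h3).mp h1
    have h5 := (plAbv (.inl v : Pl k)).nonneg μ
    nlinarith
  have hμM : ∀ p ∈ Q, p ∉ (Sum.inl '' S : Set (Pl k)) → M p < plAbv p μ := by
    intro p hp hpS
    have h1 := hμ p hp
    rw [if_neg hpS, if_neg hpS] at h1
    have h2 : plAbv p (b p) ≤ plAbv p μ + plAbv p (μ - b p) := by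
      have := (plAbv p).add_le μ (-(μ - b p))
      rw [AbsoluteValue.map_neg] at this
      have e : μ + -(μ - b p) = b p := by ring
      rwa [e] at this
    linarith
  have hMnn : ∀ p, nm B p s0 + 1 ≤ M p := by
    intro p
    rw [hM]
    have := nm_nonneg B p (t1 * s0)
    have h2 := hδv p
    have : 0 ≤ nm B p (t1 * s0) / (δv p / 2) := by positivity
    linarith
  -- the element
  have hs0μ : s0 + algebraMap k D μ ≠ 0 := by
    intro h
    have h1 : s0 = algebraMap K D (-algebraMap k K μ) := by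
      rw [map_neg, ← IsScalarTower.algebraMap_apply]
      exact eq_neg_of_add_eq_zero_left h
    have h2 : (minpoly K s0).eval (-algebraMap k K μ) = 0 := by
      have h3 := minpoly.aeval K s0
      conv_lhs at h3 => rw [h1, Polynomial.aeval_algebraMap_apply, Polynomial.aeval_def]
      rw [map_eq_zero, Algebra.algebraMap_self] at h3
      rw [← h1] at h3
      exact h3
    have h4 : ((minpoly K s0).map (starRingEnd K)).eval (-algebraMap k K μ) = 0 := by
      have e : (-algebraMap k K μ) = starRingEnd K (-algebraMap k K μ) := by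
        rw [map_neg]
        congr 1
        exact (star_algebraMap hS μ).symm
      conv_lhs => rw [e]
      rw [Polynomial.eval_map_apply, h2, map_zero]
    have h5 := congrArg (Polynomial.eval (-algebraMap k K μ)) hrel
    rw [Polynomial.eval_add, Polynomial.eval_mul, Polynomial.eval_mul, h2, h4, mul_zero, mul_zero,
      add_zero, Polynomial.eval_one] at h5
    exact zero_ne_one h5
  obtain ⟨t, htd⟩ : ∃ t : D, t = t1 * (s0 + algebraMap k D μ) := ⟨_, rfl⟩
  have ht0 : t ≠ 0 := htd ▸ mul_ne_zero ht1 hs0μ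
  have ht' : t = t1 * s0 + μ • t1 := by
    rw [htd, mul_add, Algebra.smul_def, Algebra.commutes]
  refine ⟨t, ht0, S, hSf, ?_, ?_, ?_⟩
  · intro v hv _
    have hvP : (Sum.inl v : Pl k) ∈ P := by rw [hPd, inl_mem_SP]; exact hv
    have e : t - tv (.inl v) = (τ - tv (.inl v)) + δ • (t1 * Sg) + μ • t1 := by
      rw [ht', hts0]
      abel
    rw [e]
    have h1 := hτ _ hvP
    have h2 := hδ _ hvP
    have h3 := hμS v hv
    have h4 := hC (.inl v) δ
    have h5 := nm_smul B (.inl v) μ t1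
    calc nm B (.inl v) ((τ - tv (.inl v)) + δ • (t1 * Sg) + μ • t1)
        ≤ nm B (.inl v) ((τ - tv (.inl v)) + δ • (t1 * Sg)) + nm B (.inl v) (μ • t1) :=
          nm_add_le _ _ _ _
      _ ≤ nm B (.inl v) (τ - tv (.inl v)) + nm B (.inl v) (δ • (t1 * Sg)) +
          nm B (.inl v) (μ • t1) := add_le_add (nm_add_le _ _ _ _) le_rfl
      _ < δv (.inl v) := by rw [h5]; linarith
  · intro v hv
    obtain ⟨h2, hd, hm, hst, hall⟩ := hSgood v hv
    refine ⟨h2, hd, hm, hst, fun x hx => hall x (Or.inl hx), fun hns => ?_⟩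
    have hI1 : Ing B v (1 : D) := hall _ (Or.inr (by simp))
    have hIS : Ing B v (algebraMap K D s) := by rw [← hSg]; exact hall _ (Or.inr (by simp))
    have hIt : Ing B v t1 := hall _ (Or.inr (by simp))
    have hIt' : Ing B v t1⁻¹ := hall _ (Or.inr (by simp))
    by_cases hcase : μ ≠ 0 ∧ ∀ l, v.valuation k (B.repr (μ⁻¹ • s0) l) < 1
    · obtain ⟨hμ0, hcase⟩ := hcase
      have e : μ⁻¹ • t = t1 * (1 + μ⁻¹ • s0) := by
        rw [ht', smul_add, smul_smul, inv_mul_cancel₀ hμ0, one_smul, mul_add, mul_one,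
          mul_smul_comm, add_comm]
      refine ⟨μ, hμ0, ?_, ?_⟩
      · rw [e]
        exact hIt.mul hm (hI1.add fun l => (hcase l).le)
      · have e' : μ • t⁻¹ = (1 + μ⁻¹ • s0)⁻¹ * t1⁻¹ := by
          rw [← mul_inv_rev, ← e, Algebra.smul_def, Algebra.smul_def, mul_inv_rev, ← map_inv₀,
            inv_inv, Algebra.commutes]
        rw [e']
        exact (Ing.inv_one_add hm hI1 hcase).mul hm hIt'
    · have hvT : v ∉ T := by
        intro hvT
        have hvQ : (Sum.inl v : Pl k) ∈ Q := by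
          rw [hQd, inl_mem_SP]
          exact Or.inr hvT
        have hvS : (Sum.inl v : Pl k) ∉ (Sum.inl '' S : Set (Pl k)) := by
          rintro ⟨v', hv', h⟩
          exact hv (Sum.inl_injective h ▸ hv')
        have h1 := hμM _ hvQ hvS
        have h3 := hMnn (.inl v)
        have h4 := nm_nonneg B (.inl v) s0
        have hμ0 : μ ≠ 0 := by
          rintro rfl
          rw [map_zero] at h1
          linarith
        refine hcase ⟨hμ0, fun l => ?_⟩
        have h5 : plAbv (.inl v) (B.repr s0 l) < plAbv (.inl v) μ :=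
          nm_lt_coord B (.inl v) (by linarith) l
        rw [plAbv_lt] at h5
        rw [map_smul, Finsupp.smul_apply, smul_eq_mul, map_mul, map_inv₀]
        have hvμ : 0 < v.valuation k μ := zero_lt_iff.mpr ((Valuation.ne_zero_iff _).mpr hμ0)
        rw [mul_comm, ← div_eq_mul_inv]
        exact (div_lt_one₀ hvμ).mpr h5
      obtain ⟨hIs0, hpol⟩ := hT v hvT
      have hvμ1 : v.valuation k μ ≤ 1 := by
        by_contra hlt
        rw [not_le] at hlt
        have hμ0 : μ ≠ 0 := by
          rintro rfl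
          rw [map_zero] at hlt
          exact not_lt_zero hlt
        refine hcase ⟨hμ0, fun l => ?_⟩
        rw [map_smul, Finsupp.smul_apply, smul_eq_mul, map_mul, map_inv₀]
        exact mul_lt_one_of_lt_of_le (inv_lt_one_of_one_lt₀ hlt) (hIs0 l)
      refine ⟨1, one_ne_zero, ?_, ?_⟩
      · rw [inv_one, one_smul, htd]
        refine hIt.mul hm (hIs0.add ?_)
        rw [← mul_one (algebraMap k D μ), ← Algebra.smul_def]
        exact hI1.smul hvμ1
      · rw [one_smul, htd, mul_inv_rev]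
        refine Ing.mul hm ?_ hIt'
        exact inv_integral hS hns h2 hd hm hI1 hIS hIs0 (minpoly.aeval K s0) hrel
          (hpol _ (by simp)) (hpol _ (by simp)) (hpol _ (by simp)) hvμ1
  · intro φ hφ
    have hφQ : (Sum.inr φ : Pl k) ∈ Q := by rw [hQd]; exact inr_mem_SP
    have hφS : (Sum.inr φ : Pl k) ∉ (Sum.inl '' S : Set (Pl k)) := by
      rintro ⟨v', -, h⟩
      exact absurd h Sum.inl_ne_inr
    have h1 := hμM _ hφQ hφS
    have h3 := hMnn (.inr φ)
    have h4 := nm_nonneg B (.inr φ) s0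
    have hμpos : 0 < plAbv (.inr φ : Pl k) μ := by linarith
    have hμ0 : μ ≠ 0 := by
      rintro rfl
      rw [map_zero] at hμpos
      exact lt_irrefl _ hμpos
    refine ⟨μ, hμ0, ?_⟩
    have e : μ⁻¹ • t - tv (.inr φ) = (t1 - tv (.inr φ)) + μ⁻¹ • (t1 * s0) := by
      rw [ht', smul_add, smul_smul, inv_mul_cancel₀ hμ0, one_smul]
      abel
    rw [e]
    have h5 := hreal φ hφ
    have h6 : nm B (.inr φ) (μ⁻¹ • (t1 * s0)) < δv (.inr φ) / 2 := by
      rw [nm_smul, map_inv₀]
      have h7 : nm B (.inr φ) (t1 * s0) / (δv (.inr φ) / 2) < plAbv (.inr φ) μ := by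
        have := hM (.inr φ)
        linarith
      have h8 : 0 < δv (.inr φ) / 2 := by have := hδv (.inr φ); positivity
      rw [div_lt_iff₀ h8] at h7
      rw [inv_mul_lt_iff₀ hμpos]
      exact h7
    calc nm B (.inr φ) ((t1 - tv (.inr φ)) + μ⁻¹ • (t1 * s0))
        ≤ nm B (.inr φ) (t1 - tv (.inr φ)) + nm B (.inr φ) (μ⁻¹ • (t1 * s0)) := nm_add_le _ _ _ _
      _ < δv (.inr φ) := by linarith

end main

end Vale.Agent.P011.Even
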