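import Vale.Agent.P011.Even.GChoice

/-!
The local-global principle for hermitian forms of rank one over a division algebra with an
involution of the second kind.
-/

open NumberField IsDedekindDomain Polynomial

set_option linter.unusedSectionVars false

namespace Vale.Agent.P011.Even

open Arith

variable {k K D : Type} [Field k] [NumberField k] [Field K] [StarRing K]
    [DivisionRing D] [StarRing D] [Algebra k K] [Algebra k D] [Algebra K D] [IsScalarTower k K D]
    {d : kˣ} {s : K} {N : ℕ}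

theorem nm_le_of_coord (B : Module.Basis (Fin N) k D) (p : Pl k) {x : D} {a : ℝ}
    (h : ∀ i, plAbv p (B.repr x i) ≤ a) : nm B p x ≤ N * a := by
  rw [nm]
  refine (Finset.sum_le_sum fun i _ => h i).trans ?_
  rw [Finset.sum_const, Finset.card_univ, Fintype.card_fin, nsmul_eq_mul]

theorem LocF.exists_nm {B : Module.Basis (Fin N) k D} {v : HeightOneSpectrum (𝓞 k)} {e e' : D}
    (h : LocF B v e e') {ε : ℝ} (hε : 0 < ε) :
    ∃ t : D, nm B (.inl v) (star t * e * t - e') < ε := by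
  have hN : (0 : ℝ) < N + 1 := by positivity
  obtain ⟨a, ha0, ha⟩ := exists_abv_lt (.inl v : Pl k) (div_pos hε hN)
  obtain ⟨t, ht⟩ := h (v.valuation k a) ((Valuation.ne_zero_iff _).mpr ha0)
  refine ⟨t, ?_⟩
  refine (nm_le_of_coord B (.inl v) fun i => ((plAbv_lt v _ _).mpr (ht i)).le).trans_lt ?_
  rw [lt_div_iff₀ hN] at ha
  have := (plAbv (.inl v : Pl k)).nonneg a
  nlinarith [(plAbv (.inl v : Pl k)).pos ha0]

theorem LocR.exists_nm {B : Module.Basis (Fin N) k D} {φ : k →+* ℝ} {e e' : D}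
    (h : LocR B φ e e') {ε : ℝ} (hε : 0 < ε) :
    ∃ t : D, nm B (.inr φ) (star t * e * t - e') < ε := by
  have hN : (0 : ℝ) < N + 1 := by positivity
  obtain ⟨t, ht⟩ := h (ε / (N + 1)) (div_pos hε hN)
  refine ⟨t, ?_⟩
  refine (nm_le_of_coord B (.inr φ) (a := ε / (N + 1)) fun i => (ht i).le).trans_lt ?_
  rw [mul_div_assoc', div_lt_iff₀ hN]
  nlinarith

/-- Closeness of `e'⁻¹ * (star x * e * x)` to one. -/
theorem exists_target (hS : Setting k K D d s) (B : Module.Basis (Fin N) k D) (p : Pl k) {e e' : D}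
    (h0' : e' ≠ 0) (h : ∀ ε : ℝ, 0 < ε → ∃ t : D, nm B p (star t * e * t - e') < ε)
    {η : ℝ} (hη : 0 < η) :
    ∃ (t₀ : D) (δ : ℝ), 0 < δ ∧ ∀ x : D, nm B p (x - t₀) < δ →
      nm B p (e'⁻¹ * (star x * e * x) - 1) < η := by
  obtain ⟨C, hC, hCm⟩ := nm_linear B p (LinearMap.mulLeft k e'⁻¹)
  obtain ⟨t₀, ht₀⟩ := h (η / (2 * C)) (by positivity)
  obtain ⟨δ, hδ, hδx⟩ := form_cont B p (sig hS) e t₀ (ε := η / (2 * C)) (by positivity)
  refine ⟨t₀, δ, hδ, fun x hx => ?_⟩
  have h1 := hδx x hx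
  rw [sig_apply, sig_apply] at h1
  have e1 : e'⁻¹ * (star x * e * x) - 1 = LinearMap.mulLeft k e'⁻¹
      ((star x * e * x - star t₀ * e * t₀) + (star t₀ * e * t₀ - e')) := by
    rw [sub_add_sub_cancel, LinearMap.mulLeft_apply, mul_sub, inv_mul_cancel₀ h0']
  rw [e1]
  refine (hCm _).trans_lt ?_
  have h2 := nm_add_le B p (star x * e * x - star t₀ * e * t₀) (star t₀ * e * t₀ - e')
  calc C * nm B p ((star x * e * x - star t₀ * e * t₀) + (star t₀ * e * t₀ - e'))
      < C * (η / (2 * C) + η / (2 * C)) := by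
        refine mul_lt_mul_of_pos_left (h2.trans_lt ?_) hC
        linarith
    _ = η := by field_simp; ring

/-- elements of subfields near zero, finite places -/
theorem near_fin (B : Module.Basis (Fin N) k D) (v : HeightOneSpectrum (𝓞 k)) :
    ∃ η : ℝ, 0 < η ∧ ∀ (E : Type) [Field E] [NumberField E] [Algebra k E] (j : E →ₐ[k] D)
      (w : HeightOneSpectrum (𝓞 E)), Ab w v → ∀ y : E, nm B (.inl v) (j y) < η →
        w.valuation E y < w.valuation E (algebraMap k E 4) := by
  obtain ⟨δ, hδ0, hδ⟩ := exists_small B v 4 (by norm_num)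
  obtain ⟨a, ha⟩ := HeightOneSpectrum.valuation_surjective k v δ
  have ha0 : a ≠ 0 := by
    rintro rfl
    rw [map_zero] at ha
    exact hδ0 ha.symm
  refine ⟨plAbv (.inl v) a, (plAbv (.inl v)).pos ha0, fun E _ _ _ j w hw y hy => ?_⟩
  refine hδ E j w hw y fun i => ?_
  rw [← ha, ← plAbv_lt]
  exact nm_lt_coord B (.inl v) hy i

theorem near_real (B : Module.Basis (Fin N) k D) (φ : k →+* ℝ) :
    ∃ η : ℝ, 0 < η ∧ ∀ (E : Type) [Field E] [NumberField E] [Algebra k E] (j : E →ₐ[k] D)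
      (ψ : E →+* ℝ), ψ.comp (algebraMap k E) = φ → ∀ y : E, nm B (.inr φ) (j y) < η →
        |ψ y| < 1 := by
  obtain ⟨δ, hδ0, hδ⟩ := exists_small_real B φ
  refine ⟨δ, hδ0, fun E _ _ _ j ψ hψ y hy => ?_⟩
  exact hδ E j ψ hψ y fun i => nm_lt_coord B (.inr φ) hy i

theorem nm_pos (B : Module.Basis (Fin N) k D) (p : Pl k) {x : D} (hx : x ≠ 0) : 0 < nm B p x := by
  have h1 : ∃ i, B.repr x i ≠ 0 := by
    by_contra h
    push Not at h
    apply hx
    rw [← B.sum_repr x]
    exact Finset.sum_eq_zero fun i _ => by rw [h i, zero_smul]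
  obtain ⟨i, hi⟩ := h1
  exact ((plAbv p).pos hi).trans_le (Finset.single_le_sum (f := fun i => plAbv p (B.repr x i))
    (fun _ _ => AbsoluteValue.nonneg _ _) (Finset.mem_univ i))

/-- scaling by an element of the ground field -/
theorem scale (hS : Setting k K D d s) {e e' t : D} {l : k} (hl : l ≠ 0) :
    e'⁻¹ * (star (l⁻¹ • t) * e * (l⁻¹ • t)) * algebraMap k D l ^ 2 =
      e'⁻¹ * (star t * e * t) := by
  have hl' : algebraMap k D l ≠ 0 := (_root_.map_ne_zero _).mpr hl
  have h1 : star (l⁻¹ • t) = l⁻¹ • star t := (sig hS).map_smul l⁻¹ t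
  rw [h1, smul_mul_assoc, smul_mul_assoc, mul_smul_comm, mul_smul_comm, mul_smul_comm, smul_smul,
    smul_mul_assoc, ← map_pow, ← Algebra.commutes, ← Algebra.smul_def, smul_smul]
  have h2 : l⁻¹ * l⁻¹ * l ^ 2 = 1 := by field_simp
  rw [h2, one_smul]

/-- **The local-global principle for rank one hermitian forms.** -/
theorem global_rank_one (hS : Setting k K D d s) (B : Module.Basis (Fin N) k D) {e e' : D}
    (he : star e = e) (he' : star e' = e') (h0 : e ≠ 0) (h0' : e' ≠ 0)
    (hF : ∀ v : HeightOneSpectrum (𝓞 k), d ∉ LS (v.valuation k) → LocF B v e e')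
    (hR : ∀ φ : k →+* ℝ, φ d < 0 → LocR B φ e e') :
    ∃ t : D, t ≠ 0 ∧ e' = star t * e * t := by
  classical
  -- the targets
  have hη : ∀ p : Pl k, ∃ η : ℝ, 0 < η ∧
      (∀ v, p = .inl v → ∀ (E : Type) [Field E] [NumberField E] [Algebra k E] (j : E →ₐ[k] D)
        (w : HeightOneSpectrum (𝓞 E)), Ab w v → ∀ y : E, nm B (.inl v) (j y) < η →
        w.valuation E y < w.valuation E (algebraMap k E 4)) ∧
      (∀ φ, p = .inr φ → ∀ (E : Type) [Field E] [NumberField E] [Algebra k E] (j : E →ₐ[k] D)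
        (ψ : E →+* ℝ), ψ.comp (algebraMap k E) = φ → ∀ y : E, nm B (.inr φ) (j y) < η →
        |ψ y| < 1) := by
    rintro (v | φ)
    · obtain ⟨η, h1, h2⟩ := near_fin B v
      refine ⟨η, h1, ?_, ?_⟩
      · rintro v' hv'
        obtain rfl := Sum.inl_injective hv'
        exact h2
      · rintro φ hφ
        exact absurd hφ Sum.inl_ne_inr
    · obtain ⟨η, h1, h2⟩ := near_real B φ
      refine ⟨η, h1, ?_, ?_⟩
      · rintro v hv
        exact absurd hv Sum.inr_ne_inl
      · rintro φ' hφ'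
        obtain rfl := Sum.inr_injective hφ'
        exact h2
  choose η hη0 hηF hηR using hη
  have htar : ∀ p : Pl k, ∃ (t₀ : D) (δ : ℝ), 0 < δ ∧ (d ∉ LSp p → ∀ x : D, nm B p (x - t₀) < δ →
      nm B p (e'⁻¹ * (star x * e * x) - 1) < min (η p) (nm B p 1)) := by
    intro p
    by_cases hp : d ∈ LSp p
    · exact ⟨0, 1, one_pos, fun h => absurd hp h⟩
    · have hloc : ∀ ε : ℝ, 0 < ε → ∃ t : D, nm B p (star t * e * t - e') < ε := by
        rcases p with v | φ
        · exact fun ε hε => (hF v hp).exists_nm hε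
        · exact fun ε hε => (hR φ (notMem_LSR.mp hp)).exists_nm hε
      have h1 : 0 < nm B p (1 : D) := nm_pos B p one_ne_zero
      obtain ⟨t₀, δ, hδ, h⟩ := exists_target hS B p h0' hloc (lt_min (hη0 p) h1)
      exact ⟨t₀, δ, hδ, fun _ => h⟩
  choose tv δv hδv htv using htar
  -- the first approximation
  obtain ⟨t1, ht1, ht1R⟩ : ∃ t1 : D, t1 ≠ 0 ∧
      ∀ φ : k →+* ℝ, φ d < 0 → nm B (.inr φ) (t1 - tv (.inr φ)) < δv (.inr φ) / 2 := by
    by_cases hex : ∃ φ : k →+* ℝ, φ d < 0
    · obtain ⟨t1, ht1⟩ := approxD B (SP ∅ : Set (Pl k)) (SP_finite Set.finite_empty) tv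
        (fun p => δv p / 2) (fun p => by have := hδv p; positivity)
      refine ⟨t1, ?_, fun φ hφ => ht1 _ inr_mem_SP⟩
      rintro rfl
      obtain ⟨φ, hφ⟩ := hex
      have h1 := ht1 (.inr φ) inr_mem_SP
      have h2 := htv (.inr φ) (notMem_LSR.mpr hφ) 0 (by have := hδv (.inr φ); linarith)
      rw [mul_zero, mul_zero, zero_sub, nm_neg] at h2
      exact absurd (h2.trans_le (min_le_right _ _)) (lt_irrefl _)
    · exact ⟨1, one_ne_zero, fun φ hφ => absurd ⟨φ, hφ⟩ hex⟩
  obtain ⟨t, ht0, S, hSf, hnear, hgood, hreal⟩ := exists_global hS B {e, e⁻¹, e', e'⁻¹} (by simp)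
    tv δv hδv ht1 ht1R
  refine finish hS B he he' h0 h0' ht0 ?_
  intro E _ _ _ j γ hγ p
  rcases p with w | ψ
  · obtain ⟨v, hw⟩ := exists_below (F := k) w
    by_cases hd : d ∈ LS (v.valuation k)
    · exact mem_of_split hw hd γ
    · by_cases hv : v ∈ S
      · -- near
        refine mem_of_near γ ?_
        refine hηF (.inl v) v rfl E j w hw _ ?_
        rw [map_sub, map_one, hγ]
        exact (htv (.inl v) hd t (hnear v hv hd)).trans_le (min_le_left _ _)
      · obtain ⟨h2, hdv, hm, hst, hL, hl⟩ := hgood v hv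
        obtain ⟨l, hl0, hu, hu'⟩ := hl hd
        have hl' : algebraMap k D l ≠ 0 := (_root_.map_ne_zero _).mpr hl0
        have he1 : Ing B v e := hL _ (by simp)
        have he2 : Ing B v e⁻¹ := hL _ (by simp)
        have he3 : Ing B v e' := hL _ (by simp)
        have he4 : Ing B v e'⁻¹ := hL _ (by simp)
        have huI := he4.mul hm (((hst _ hu).mul hm he1).mul hm hu)
        have huI' := ((hu'.mul hm he2).mul hm (hst _ hu')).mul hm he3
        refine mem_of_unit j hw h2 hdv hm hl0 huI huI' γ ?_ ?_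
        · rw [hγ]
          exact scale hS hl0
        · have hT0 : l⁻¹ • t ≠ 0 := smul_ne_zero (inv_ne_zero hl0) ht0
          have hT : l • t⁻¹ = (l⁻¹ • t)⁻¹ := by
            rw [eq_comm]
            apply inv_eq_of_mul_eq_one_right
            rw [smul_mul_assoc, mul_smul_comm, smul_smul, inv_mul_cancel₀ hl0, one_smul,
              mul_inv_cancel₀ ht0]
          rw [hT]
          obtain ⟨T, hTd⟩ : ∃ T : D, T = l⁻¹ • t := ⟨_, rfl⟩
          rw [← hTd] at hT0 ⊢
          have hsT : star T ≠ 0 := star_ne_zero.mpr hT0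
          rw [star_inv₀]
          calc e'⁻¹ * (star T * e * T) * (T⁻¹ * e⁻¹ * (star T)⁻¹ * e')
              = e'⁻¹ * (star T * (e * (T * T⁻¹) * e⁻¹) * (star T)⁻¹) * e' := by
                simp only [mul_assoc]
            _ = 1 := by
                rw [mul_inv_cancel₀ hT0, mul_one, mul_inv_cancel₀ h0, mul_one,
                  mul_inv_cancel₀ hsT, mul_one, inv_mul_cancel₀ h0']
  · by_cases hd : 0 < ψ (algebraMap k E d)
    · exact mem_of_split_real hd γ
    · have hφ : (ψ.comp (algebraMap k E)) (d : k) < 0 := by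
        refine lt_of_le_of_ne (not_lt.mp hd) ?_
        exact (_root_.map_ne_zero _).mpr d.ne_zero
      obtain ⟨l, hl0, hl⟩ := hreal _ hφ
      refine mem_of_near_real γ hl0 ?_
      refine hηR (.inr _) _ rfl E j ψ rfl _ ?_
      have h1 := (htv (.inr (ψ.comp (algebraMap k E))) (notMem_LSR.mpr hφ) _ hl).trans_le
        (min_le_left _ _)
      have hl' : algebraMap k D l ≠ 0 := (_root_.map_ne_zero _).mpr hl0
      have h2 : j ((γ : E) * (algebraMap k E l ^ 2)⁻¹ - 1) =
          e'⁻¹ * (star (l⁻¹ • t) * e * (l⁻¹ • t)) - 1 := by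
        rw [map_sub, map_one, map_mul, map_inv₀, map_pow, AlgHom.commutes, hγ, ← scale hS hl0,
          mul_inv_cancel_right₀ (pow_ne_zero 2 hl')]
      rw [h2]
      exact h1

end Vale.Agent.P011.Even
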