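import Vale.Agent.P011.Even.Defs
import Vale.Agent.P011.RP.Iface

/-!
Congruence at a real place implies approximate isometry over the division algebra.
-/

open Module Matrix NumberField
open scoped ComplexOrder

set_option linter.unusedSectionVars false

namespace Vale.Agent.P011.Even

open Vale.Agent.P011.RP (RData)

variable {k K D : Type} [Field k] [NumberField k] [Field K] [StarRing K]
    [DivisionRing D] [StarRing D] [Algebra k K] [Algebra k D] [Algebra K D] [IsScalarTower k K D]
    {d : kˣ} {s : K} {n N : ℕ}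

/-- The real coordinates of an element. -/
noncomputable def rc (B : Module.Basis (Fin N) k D) (φ : k →+* ℝ) (x : D) : Fin N → ℝ :=
  fun i => φ (B.repr x i)

/-- The real linear map from coordinates to matrices. -/
noncomputable def Lam (B : Module.Basis (Fin N) k D) (R : RData K D n) :
    (Fin N → ℝ) →ₗ[ℝ] Matrix (Fin n) (Fin n) ℂ where
  toFun c := ∑ i, c i • R.f (B i)
  map_add' a b := by
    simp only [Pi.add_apply, add_smul, Finset.sum_add_distrib]
  map_smul' r a := by
    simp only [Pi.smul_apply, smul_eq_mul, mul_smul, Finset.smul_sum, RingHom.id_apply]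

theorem Lam_rc (B : Module.Basis (Fin N) k D) (R : RData K D n) {φ : k →+* ℝ}
    (hR : ∀ x : k, R.s (algebraMap k K x) = (φ x : ℂ)) (x : D) :
    Lam B R (rc B φ x) = R.f x := by
  conv_rhs => rw [← B.sum_repr x]
  rw [map_sum]
  change ∑ i, (rc B φ x) i • R.f (B i) = _
  refine Finset.sum_congr rfl fun i _ => ?_
  rw [Algebra.smul_def (B.repr x i) (B i), map_mul, IsScalarTower.algebraMap_apply k K D, R.hf,
    hR]
  ext a b
  simp [rc]

theorem numberField_of_setting (hS : Setting k K D d s) : NumberField K := by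
  have h0 : FiniteDimensional k K := Module.finite_of_finrank_pos (by rw [hS.rank]; norm_num)
  have h1 : CharZero K := charZero_of_injective_algebraMap (algebraMap k K).injective
  have h2 : IsScalarTower ℚ k K := IsScalarTower.of_algebraMap_eq fun q => by simp
  exact { to_finiteDimensional := Module.Finite.trans k K }

theorem Lam_surj (hS : Setting k K D d s) (B : Module.Basis (Fin N) k D) (hn : 0 < n)
    (hdeg : finrank K D = n ^ 2) {φ : k →+* ℝ} (hφ : φ d < 0) (R : RData K D n)
    (hR : ∀ x : k, R.s (algebraMap k K x) = (φ x : ℂ)) : Function.Surjective (Lam B R) := by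
  have _ := hS.fin
  have _ := hS.cen
  have _ := numberField_of_setting hS
  have _ : StarModule K D := ⟨hS.star_smul⟩
  intro X
  obtain ⟨γ, hγ⟩ := R.split_basis hdeg hn X
  -- the image of `s` is a nonzero imaginary number
  have h1 : star (R.s s) = -R.s s := by rw [← R.hs, hS.star_s, map_neg]
  have hre : (R.s s).re = 0 := by
    have := congrArg Complex.re h1
    simp only [Complex.star_def, Complex.conj_re, Complex.neg_re] at this
    linarith
  have hs0 : R.s s ≠ 0 := by
    intro h0
    have h2 : R.s (s ^ 2) = (φ d : ℂ) := by rw [hS.sq, hR]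
    rw [map_pow, h0] at h2
    have h3 : φ d = 0 := by
      have : ((φ d : ℝ) : ℂ) = 0 := by rw [← h2]; simp
      exact_mod_cast this
    linarith
  have him : (R.s s).im ≠ 0 := fun h => hs0 (Complex.ext hre h)
  have hdec : ∀ z : ℂ, z = (z.re : ℂ) + ((z.im / (R.s s).im : ℝ) : ℂ) * R.s s := by
    intro z
    apply Complex.ext
    · simp [hre]
    · simp only [Complex.add_im, Complex.ofReal_im, Complex.mul_im, Complex.ofReal_re, zero_mul,
        add_zero, zero_add]
      field_simp
  have hmem : ∀ x : D, R.f x ∈ LinearMap.range (Lam B R) := fun x => ⟨rc B φ x, Lam_rc B R hR x⟩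
  have key : X ∈ LinearMap.range (Lam B R) := by
    rw [hγ]
    refine Submodule.sum_mem _ fun j _ => ?_
    have h2 : γ j • R.f (finBasis K D j) = (γ j).re • R.f (finBasis K D j) +
        ((γ j).im / (R.s s).im) • R.f (algebraMap K D s * finBasis K D j) := by
      rw [map_mul, R.hf]
      conv_lhs => rw [hdec (γ j)]
      ext a b
      simp only [Matrix.smul_apply, Matrix.add_apply, smul_eq_mul, Matrix.scalar_apply,
        Matrix.diagonal_mul, Complex.real_smul]
      ring
    rw [h2]
    exact Submodule.add_mem _ (Submodule.smul_mem _ _ (hmem _)) (Submodule.smul_mem _ _ (hmem _))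
  exact key

theorem Lam_bij (hS : Setting k K D d s) (B : Module.Basis (Fin N) k D) (hn : 0 < n)
    (hdeg : finrank K D = n ^ 2) {φ : k →+* ℝ} (hφ : φ d < 0) (R : RData K D n)
    (hR : ∀ x : k, R.s (algebraMap k K x) = (φ x : ℂ)) : Function.Bijective (Lam B R) := by
  have _ := hS.fin
  have hsurj := Lam_surj hS B hn hdeg hφ R hR
  refine ⟨?_, hsurj⟩
  have h1 : finrank ℝ (Fin N → ℝ) = finrank ℝ (Matrix (Fin n) (Fin n) ℂ) := by
    have h2 : finrank k K * finrank K D = finrank k D := Module.finrank_mul_finrank k K D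
    rw [hS.rank, hdeg, Module.finrank_eq_card_basis B, Fintype.card_fin] at h2
    rw [Module.finrank_fin_fun, Module.finrank_matrix, Fintype.card_fin,
      Complex.finrank_real_complex, ← h2]
    ring
  exact (LinearMap.injective_iff_surjective_of_finrank_eq_finrank h1).mpr hsurj

/-- Congruence at the place gives approximate isometry. -/
theorem locR_of_congAt (hS : Setting k K D d s) (B : Module.Basis (Fin N) k D) (hn : 0 < n)
    (hdeg : finrank K D = n ^ 2) {φ : k →+* ℝ} (hφ : φ d < 0) (R : RData K D n)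
    (hR : ∀ x : k, R.s (algebraMap k K x) = (φ x : ℂ)) {e e' : D} (h : R.CongAt e e') :
    LocR B φ e e' := by
  intro ε hε
  obtain ⟨Q, -, hQ⟩ := h
  have hdet : IsUnit R.A.det := (Matrix.isUnit_iff_isUnit_det _).mp R.unit
  have hAi : R.A * R.A⁻¹ = 1 := Matrix.mul_nonsing_inv _ hdet
  have hiA : R.A⁻¹ * R.A = 1 := Matrix.nonsing_inv_mul _ hdet
  have hAiH : (R.A⁻¹)ᴴ = R.A⁻¹ := by rw [Matrix.conjTranspose_nonsing_inv, R.hA]
  let Λ := LinearEquiv.ofBijective (Lam B R) (Lam_bij hS B hn hdeg hφ R hR)
  have hΛ : ∀ c, Λ c = Lam B R c := fun _ => rfl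
  have hΛrc : ∀ x, Λ (rc B φ x) = R.f x := Lam_rc B R hR
  let F : (Fin N → ℝ) → (Fin N → ℝ) := fun c =>
    Λ.symm (R.A * (Λ c)ᴴ * R.A⁻¹ * R.f e * Λ c)
  have hcont : Continuous F := by
    have h1 : Continuous Λ := LinearMap.continuous_of_finiteDimensional Λ.toLinearMap
    have h2 : Continuous Λ.symm := LinearMap.continuous_of_finiteDimensional Λ.symm.toLinearMap
    apply h2.comp
    have h3 : Continuous fun c => (Λ c)ᴴ := h1.matrix_conjTranspose
    exact (((continuous_const.matrix_mul h3).matrix_mul continuous_const).matrix_mul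
      continuous_const).matrix_mul h1
  have hF : ∀ t : D, F (rc B φ t) = rc B φ (star t * e * t) := by
    intro t
    apply Λ.injective
    rw [LinearEquiv.apply_symm_apply, hΛrc, hΛrc, map_mul, map_mul]
    have h1 : R.f (star t) = R.A * (R.f t)ᴴ * R.A⁻¹ := by
      rw [← R.star_f, mul_assoc, hAi, mul_one]
    rw [h1]
  let X : Matrix (Fin n) (Fin n) ℂ := R.A * Qᴴ * R.A⁻¹
  have hX : F (Λ.symm X) = rc B φ e' := by
    apply Λ.injective
    rw [LinearEquiv.apply_symm_apply, hΛrc, LinearEquiv.apply_symm_apply]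
    have h1 : Xᴴ = R.A⁻¹ * Q * R.A := by
      simp only [X]
      rw [Matrix.conjTranspose_mul, Matrix.conjTranspose_mul, Matrix.conjTranspose_conjTranspose,
        hAiH, R.hA, mul_assoc]
    rw [h1]
    have h2 : R.f e' = R.f e' * R.A * R.A⁻¹ := by rw [mul_assoc, hAi, mul_one]
    rw [h2, ← hQ]
    calc R.A * (R.A⁻¹ * Q * R.A) * R.A⁻¹ * R.f e * X
        = (R.A * R.A⁻¹) * Q * (R.A * R.A⁻¹) * R.f e * (R.A * Qᴴ * R.A⁻¹) := by
          simp only [X, mul_assoc]
      _ = Q * (R.f e * R.A) * Qᴴ * R.A⁻¹ := by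
          rw [hAi, one_mul, mul_one]
          simp only [mul_assoc]
  have hopen : IsOpen {c : Fin N → ℝ | ∀ i, |F c i - rc B φ e' i| < ε} := by
    have : {c : Fin N → ℝ | ∀ i, |F c i - rc B φ e' i| < ε} =
        ⋂ i, {c : Fin N → ℝ | |F c i - rc B φ e' i| < ε} := by
      ext c; simp
    rw [this]
    refine isOpen_iInter_of_finite fun i => ?_
    apply isOpen_lt _ continuous_const
    exact (((continuous_apply i).comp hcont).sub continuous_const).abs
  have hdense : DenseRange (Pi.map (fun (_ : Fin N) (q : ℚ) => (q : ℝ))) :=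
    DenseRange.piMap fun _ => Rat.denseRange_cast
  obtain ⟨q, hq⟩ := hdense.exists_mem_open hopen ⟨Λ.symm X, fun i => by
    rw [hX, sub_self, abs_zero]; exact hε⟩
  let t : D := ∑ i, (q i : k) • B i
  have ht : rc B φ t = Pi.map (fun (_ : Fin N) (q : ℚ) => (q : ℝ)) q := by
    funext i
    change φ (B.repr (∑ i, (q i : k) • B i) i) = _
    rw [B.repr_sum_self]
    simp
  refine ⟨t, fun i => ?_⟩
  have h1 := hq i
  rw [← ht, hF] at h1
  rw [map_sub, Finsupp.sub_apply, map_sub]
  exact h1

end Vale.Agent.P011.Even
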