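import Vale.Agent.P011.Even.LocFin
import Vale.Agent.P011.Even.RealLoc
import Vale.Agent.P011.Even.Global
import Vale.Agent.P011.RP.Iface

/-!
Rank-one hermitian forms over division algebras of arbitrary degree: elements with the same
discriminant and the same signatures define isometric forms.
-/

open Module Matrix NumberField IsDedekindDomain
open Vale.Agent.P011S

namespace Vale.Agent.P011.Even

/-- The field `Ω` with the structure of algebra twisted by the involution. -/
def Tw (_K Ω : Type) : Type := Ω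

instance {K Ω : Type} [Field Ω] : Field (Tw K Ω) := inferInstanceAs (Field Ω)

noncomputable instance {K Ω : Type} [Field K] [StarRing K] [Field Ω] [Algebra K Ω] :
    Algebra K (Tw K Ω) :=
  (RingHom.comp (algebraMap K Ω) (starRingEnd K) : K →+* Ω).toAlgebra

theorem tw_algebraMap {K Ω : Type} [Field K] [StarRing K] [Field Ω] [Algebra K Ω] (c : K) :
    algebraMap K (Tw K Ω) c = algebraMap K Ω (star c) := rfl

section nrd

variable {K D : Type} [Field K] [CharZero K] [DivisionRing D] [Algebra K D]
  [FiniteDimensional K D] [Algebra.IsCentral K D] {n : ℕ}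

/-- Reduced norms are in the centre. -/
theorem exists_nrd (hn : 0 < n) (hdeg : finrank K D = n ^ 2) {Ω : Type} [Field Ω] [Algebra K Ω]
    (f : D →ₐ[K] Matrix (Fin n) (Fin n) Ω) (x : D) : ∃ ν : K, (f x).det = algebraMap K Ω ν := by
  obtain ⟨N, _, _, _, _, ⟨g⟩⟩ := exists_galois_split' (K := K) (D := D) hdeg
  obtain ⟨ν, hν⟩ : (g x).det ∈ Set.range (algebraMap K N) := by
    rw [IsGalois.mem_range_algebraMap_iff_fixed]
    intro σ
    let g' : D →ₐ[K] Matrix (Fin n) (Fin n) N := σ.mapMatrix.toAlgHom.comp g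
    have h1 := det_compare_gen hn hdeg g g' x (RingHom.id N) (RingHom.id N) rfl
    have h2 : (g' x).det = σ (g x).det := by
      rw [AlgEquiv.map_det]
      rfl
    rw [h2] at h1
    exact h1.symm
  exact ⟨ν, det_compare hn hdeg g f x hν.symm⟩

variable [StarRing K] [StarRing D]

/-- The reduced norm of a symmetric element is symmetric. -/
theorem star_nrd (hn : 0 < n) (hdeg : finrank K D = n ^ 2) {Ω : Type} [Field Ω] [Algebra K Ω]
    (hss : ∀ (c : K), star (algebraMap K D c) = algebraMap K D (star c))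
    (f : D →ₐ[K] Matrix (Fin n) (Fin n) Ω) {x : D} (hx : star x = x) {ν : K}
    (hν : (f x).det = algebraMap K Ω ν) : star ν = ν := by
  let g0 : D →+* Matrix (Fin n) (Fin n) Ω :=
    { toFun := fun y => (f (star y)).transpose
      map_one' := by rw [star_one, map_one, Matrix.transpose_one]
      map_mul' := fun y z => by rw [star_mul, map_mul, Matrix.transpose_mul]
      map_zero' := by rw [star_zero, map_zero, Matrix.transpose_zero]
      map_add' := fun y z => by rw [star_add, map_add, Matrix.transpose_add] }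
  have hg0 : ∀ c : K, g0 (algebraMap K D c) = Matrix.scalar (Fin n) (algebraMap K Ω (star c)) := by
    intro c
    change (f (star (algebraMap K D c))).transpose = _
    rw [hss, AlgHom.commutes]
    change (Matrix.scalar (Fin n) (algebraMap K Ω (star c))).transpose = _
    simp
  let g : D →ₐ[K] Matrix (Fin n) (Fin n) (Tw K Ω) :=
    { (g0 : D →+* Matrix (Fin n) (Fin n) (Tw K Ω)) with
      commutes' := fun c => hg0 c }
  have h1 := det_compare hn hdeg f g x hν
  have h2 : (g x).det = (f x).det := by
    change Matrix.det (f (star x)).transpose = _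
    rw [Matrix.det_transpose, hx]
  rw [h2, hν, tw_algebraMap] at h1
  exact ((algebraMap K Ω).injective h1).symm

end nrd

section setting

variable {K D : Type} [Field K] [NumberField K] [StarRing K] [DivisionRing D] [StarRing D]
  [Algebra K D] [StarModule K D] [FiniteDimensional K D] [Algebra.IsCentral K D]

/-- The algebra structure over the fixed field. -/
@[reducible] noncomputable def algFK : Algebra (FK K) D :=
  Algebra.compHom D (algebraMap (FK K) K)

theorem not_square_sqK {θ : K} (hθ0 : θ ≠ 0) (hθ : star θ = -θ) : ¬ IsSquare (sqK hθ) := by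
  rintro ⟨r, hr⟩
  have h1 : θ * θ = algebraMap (FK K) K r * algebraMap (FK K) K r := by
    rw [← coe_sqK hθ, hr, map_mul]
  have h2 : star θ = θ := by
    rcases mul_self_eq_mul_self_iff.mp h1 with h | h
    · rw [h, star_fixK]
    · rw [h, star_neg, star_fixK]
  rw [hθ] at h2
  have h3 : (2 : K) * θ = 0 := by linear_combination -h2
  exact hθ0 ((mul_eq_zero.mp h3).resolve_left two_ne_zero)

/-- The square of the generator as a unit. -/
noncomputable def sqU {θ : K} (hθ0 : θ ≠ 0) (hθ : star θ = -θ) : (FK K)ˣ :=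
  Units.mk0 (sqK hθ) fun h0 => not_square_sqK hθ0 hθ (by rw [h0]; exact IsSquare.zero)

omit [NumberField K] in
theorem mem_fix [CharZero K] (x : K) : star x = x ↔ x ∈ Set.range (algebraMap (FK K) K) :=
  ⟨fun h => ⟨(⟨x, h⟩ : fixK K), rfl⟩, by rintro ⟨a, rfl⟩; exact star_fixK a⟩

/-- The standing assumptions hold over the fixed field. -/
theorem setting {θ : K} (hθ0 : θ ≠ 0) (hθ : star θ = -θ) :
    letI := algFK (K := K) (D := D)
    letI : IsScalarTower (FK K) K D := IsScalarTower.of_algebraMap_eq fun _ => rfl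
    Setting (FK K) K D (sqU hθ0 hθ) θ := by
  let _ := algFK (K := K) (D := D)
  let _ : IsScalarTower (FK K) K D := IsScalarTower.of_algebraMap_eq fun _ => rfl
  exact
    { sq := by rw [pow_two]; rfl
      star_s := hθ
      ns := not_square_sqK hθ0 hθ
      fix := mem_fix
      rank := finrank_fixK hθ0 hθ
      fin := inferInstance
      cen := inferInstance
      star_smul := star_smul }

omit [NumberField K] [FiniteDimensional K D] [Algebra.IsCentral K D] in
theorem star_algD (c : K) : star (algebraMap K D c) = algebraMap K D (star c) := by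
  rw [Algebra.algebraMap_eq_smul_one, Algebra.algebraMap_eq_smul_one, star_smul, star_one]

open Vale.Agent.P011.RP in
/-- Every nonsplit real place of the fixed field carries signature data. -/
theorem exists_rdata (hK : ∃ k : K, star k ≠ k) {n : ℕ} (hn : 0 < n) (hdeg : finrank K D = n ^ 2)
    {θ : K} (hθ0 : θ ≠ 0) (hθ : star θ = -θ) {φ : FK K →+* ℝ} (hφ : φ (sqK hθ) < 0) :
    ∃ R : RData K D n, ∀ x : FK K, R.s (algebraMap (FK K) K x) = (φ x : ℂ) := by
  obtain ⟨ι, _, R, hc, -⟩ := exists_family (D := D) hK hn hdeg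
  have h1 : ∀ x : FK K, emb hθ0 hθ φ hφ (algebraMap (FK K) K x) = (φ x : ℂ) := by
    intro x
    have := emb_mk hθ0 hθ φ hφ x 0
    rw [map_zero, zero_mul, add_zero, map_zero, Complex.ofReal_zero, zero_mul, add_zero] at this
    exact this
  obtain ⟨i, hi | hi⟩ := hc (emb hθ0 hθ φ hφ) (emb_star hθ0 hθ φ hφ)
  · exact ⟨R i, fun x => by rw [hi, h1]⟩
  · refine ⟨R i, fun x => ?_⟩
    rw [hi, h1]
    exact Complex.conj_ofReal _

open Vale.Agent.P011.RP in
/-- Rank-one forms of the same discriminant and signatures are isometric, in every degree. -/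
theorem hasR1 (hK : ∃ k : K, star k ≠ k) {n : ℕ} (hn : 0 < n) (hdeg : finrank K D = n ^ 2) :
    HasR1 K D n := by
  intro Ω _ _ f c e hc he hc0 he0 hdisc hsig
  obtain ⟨k0, hk0⟩ := hK
  have hθ0 : k0 - star k0 ≠ 0 := sub_ne_zero.mpr (Ne.symm hk0)
  have hθ : star (k0 - star k0) = -(k0 - star k0) := by rw [star_sub, star_star, neg_sub]
  let _ := algFK (K := K) (D := D)
  have _ : IsScalarTower (FK K) K D := IsScalarTower.of_algebraMap_eq fun _ => rfl
  have hS : Setting (FK K) K D (sqU hθ0 hθ) (k0 - star k0) := setting hθ0 hθ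
  have := hS.fin_k
  let B := Module.finBasis (FK K) D
  -- the reduced norms
  have hdet : ∀ x : D, x ≠ 0 → (f x).det ≠ 0 := by
    intro x hx h0
    have h1 : f x * f x⁻¹ = 1 := by rw [← map_mul, mul_inv_cancel₀ hx, map_one]
    have h2 := congrArg Matrix.det h1
    rw [Matrix.det_mul, h0, zero_mul, Matrix.det_one] at h2
    have : NeZero n := ⟨hn.ne'⟩
    exact zero_ne_one h2
  have hnrd : ∀ x : D, x ≠ 0 → star x = x →
      ∃ ν : (FK K)ˣ, (f x).det = algebraMap K Ω (algebraMap (FK K) K ν) := by
    intro x hx0 hx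
    obtain ⟨ν, hν⟩ := exists_nrd hn hdeg f x
    obtain ⟨ν', rfl⟩ := (mem_fix ν).mp (star_nrd hn hdeg star_algD f hx hν)
    refine ⟨Units.mk0 ν' ?_, hν⟩
    rintro rfl
    rw [map_zero, map_zero] at hν
    exact hdet x hx0 hν
  obtain ⟨ν, hν⟩ := hnrd c hc0 hc
  obtain ⟨ν', hν'⟩ := hnrd e he0 he
  have hN : ν * ν' ∈ Arith.NF (sqU hθ0 hθ) := by
    obtain ⟨z, hz0, hz⟩ := hdisc
    rw [hν, hν', ← map_mul] at hz
    have h1 := (algebraMap K Ω).injective hz
    obtain ⟨a, b, hab⟩ := hS.span z
    refine ⟨ν * a, ν * b, (algebraMap (FK K) K).injective ?_⟩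
    have h2 : star z = algebraMap (FK K) K a - algebraMap (FK K) K b * (k0 - star k0) := by
      rw [hab, star_add, star_mul', star_fixK, star_fixK, hθ, mul_neg, ← sub_eq_add_neg]
    have h3 := hS.sq
    rw [Units.val_mul, map_mul, h1, map_sub, map_mul, map_pow, map_pow, map_mul, map_mul, h2]
    nth_rewrite 1 [hab]
    linear_combination (-(algebraMap (FK K) K (ν : FK K)) ^ 2 * algebraMap (FK K) K b ^ 2) * h3
  obtain ⟨t, ht0, ht⟩ := global_rank_one hS B hc he hc0 he0
    (fun v hv => loc_fin hS B f hdeg v hv hc he hν hν' (Subgroup.mem_sup_left hN))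
    (fun φ hφ => by
      obtain ⟨R, hR⟩ := exists_rdata ⟨k0, hk0⟩ hn hdeg hθ0 hθ hφ
      exact locR_of_congAt hS B hn hdeg hφ R hR (hsig R))
  exact ⟨star t, star_ne_zero.mpr ht0, by rw [star_star]; exact ht⟩

end setting

end Vale.Agent.P011.Even
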