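import Vale.Agent.P011.Arith.Schilling

/-!
Definitions for the arithmetic of hermitian forms of arbitrary degree.
-/

open NumberField IsDedekindDomain Polynomial

namespace Vale.Agent.P011.Even

open Arith

section field

variable {F : Type} [Field F] [NumberField F] {E : Type} [Field E] [NumberField E] [Algebra F E]

/-- The places at which `b` is not a norm from `F(√a)`. -/
def bad (a b : Fˣ) : Set (Pl F) := {p | b ∉ NF a ⊔ LSp p}

/-- The places which are not the only bad place of a quaternion algebra. -/
def Jset (F : Type) [Field F] [NumberField F] : Set (Pl F) := {p | ¬ ∃ a b : Fˣ, bad a b = {p}}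

/-- The inclusion of the unit groups. -/
noncomputable def inc (F E : Type) [Field F] [Field E] [Algebra F E] : Fˣ →* Eˣ :=
  Units.map (algebraMap F E : F →* E)

/-- The norm on unit groups. -/
noncomputable def nrm (F E : Type) [Field F] [Field E] [Algebra F E] : Eˣ →* Fˣ :=
  Units.map (Algebra.norm F : E →* F)

/-- The prime `w` lies above `v`. -/
def Ab (w : HeightOneSpectrum (𝓞 E)) (v : HeightOneSpectrum (𝓞 F)) : Prop :=
  w.asIdeal.comap (algebraMap (𝓞 F) (𝓞 E)) = v.asIdeal

/-- The place `w` lies above the place `v` (a complex place above a real one is not a place in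
our sense). -/
def Above : Pl E → Pl F → Prop
  | .inl w, .inl v => Ab w v
  | .inr ψ, .inr φ => ψ.comp (algebraMap F E) = φ
  | _, _ => False

/-- The local norm map is injective on norm classes at `w` above `v`: the projection formula. -/
def ProjAt (w : Pl E) (v : Pl F) : Prop :=
  ∀ (b : Fˣ) (c : Eˣ), (∀ w' : Pl E, Above w' v → w' ≠ w → c ∈ NF (inc F E b) ⊔ LSp w') →
    nrm F E c ∈ NF b ⊔ LSp v → c ∈ NF (inc F E b) ⊔ LSp w

end field

section algebra

variable (k K D : Type) [Field k] [NumberField k] [Field K] [StarRing K]
    [DivisionRing D] [StarRing D] [Algebra k K] [Algebra k D] [Algebra K D] [IsScalarTower k K D]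

/-- The standing assumptions: `K` is a quadratic extension of the number field `k` generated by
the square root `s` of `d`, with the nontrivial automorphism `star`, and `D` is a central
division algebra over `K`, with an involution extending `star`. -/
structure Setting (d : kˣ) (s : K) : Prop where
  sq : s ^ 2 = algebraMap k K d
  star_s : star s = -s
  ns : ¬ IsSquare (d : k)
  fix : ∀ x : K, star x = x ↔ x ∈ Set.range (algebraMap k K)
  rank : Module.finrank k K = 2
  fin : FiniteDimensional K D
  cen : Algebra.IsCentral K D
  star_smul : ∀ (x : K) (y : D), star (x • y) = star x • star y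

variable {k K D}

/-- Closeness of elements of `D` at a finite place of `k`, measured with a basis. -/
def NearF {N : ℕ} (B : Module.Basis (Fin N) k D) (v : HeightOneSpectrum (𝓞 k)) (ε : Z0)
    (x y : D) : Prop :=
  ∀ i, v.valuation k (B.repr (x - y) i) < ε

/-- Closeness of elements of `D` at a real place of `k`, measured with a basis. -/
def NearR {N : ℕ} (B : Module.Basis (Fin N) k D) (φ : k →+* ℝ) (ε : ℝ) (x y : D) : Prop :=
  ∀ i, |φ (B.repr (x - y) i)| < ε

/-- The hermitian forms of rank one `e` and `e'` are isometric at the finite place `v`. -/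
def LocF {N : ℕ} (B : Module.Basis (Fin N) k D) (v : HeightOneSpectrum (𝓞 k)) (e e' : D) : Prop :=
  ∀ ε : Z0, ε ≠ 0 → ∃ t : D, NearF B v ε (star t * e * t) e'

/-- The hermitian forms of rank one `e` and `e'` are isometric at the real place `φ`. -/
def LocR {N : ℕ} (B : Module.Basis (Fin N) k D) (φ : k →+* ℝ) (e e' : D) : Prop :=
  ∀ ε : ℝ, 0 < ε → ∃ t : D, NearR B φ ε (star t * e * t) e'

end algebra

end Vale.Agent.P011.Even
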