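import Mathlib

/-!
Real polynomials close to a product of different linear factors, and square roots modulo such
products.
-/

open Polynomial Filter Topology

namespace Vale.Agent.P011.Even

theorem prod_dvd_of_roots {F : Type} [Field F] {n : ℕ} {ρ : Fin n → F}
    (hρ : Function.Injective ρ) {p : F[X]} (h : ∀ i, p.eval (ρ i) = 0) :
    ∏ i, (X - C (ρ i)) ∣ p := by
  apply Finset.prod_dvd_of_coprime
  · intro i _ j _ hij
    exact pairwise_coprime_X_sub_C hρ hij
  · intro i _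
    exact dvd_iff_isRoot.mpr (h i)

theorem exists_sqrt_mod {n : ℕ} {ρ : Fin n → ℝ} (hρ : Function.Injective ρ) {p : ℝ[X]}
    (h : ∀ i, 0 ≤ p.eval (ρ i)) : ∃ q : ℝ[X], ∏ i, (X - C (ρ i)) ∣ q ^ 2 - p := by
  refine ⟨Lagrange.interpolate Finset.univ ρ (fun i => Real.sqrt (p.eval (ρ i))), ?_⟩
  apply prod_dvd_of_roots hρ
  intro i
  rw [eval_sub, eval_pow, Lagrange.eval_interpolate_at_node _ hρ.injOn (Finset.mem_univ i),
    Real.sq_sqrt (h i), sub_self]

theorem eval_sub_le {m p : ℝ[X]} {n : ℕ} (hm : m.natDegree = n) (hp : p.natDegree = n) {ε : ℝ}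
    (h : ∀ i, |m.coeff i - p.coeff i| < ε) (x : ℝ) :
    |m.eval x - p.eval x| ≤ ε * ∑ j ∈ Finset.range (n + 1), |x| ^ j := by
  rw [eval_eq_sum_range, eval_eq_sum_range, hm, hp, ← Finset.sum_sub_distrib, Finset.mul_sum]
  refine (Finset.abs_sum_le_sum_abs _ _).trans (Finset.sum_le_sum fun j _ => ?_)
  rw [← sub_mul, abs_mul, abs_pow]
  exact mul_le_mul_of_nonneg_right (h j).le (by positivity)

theorem mul_pos_of_abs_sub_lt {a b : ℝ} (h : |a - b| < |b|) : 0 < a * b := by
  rcases lt_trichotomy b 0 with hb | hb | hb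
  · rw [abs_of_neg hb, abs_lt] at h
    nlinarith [h.1, h.2]
  · subst hb
    rw [abs_zero] at h
    exact absurd h (not_lt.mpr (abs_nonneg _))
  · rw [abs_of_pos hb, abs_lt] at h
    nlinarith [h.1, h.2]

theorem natDegree_prod_X_sub_C' {F : Type} [Field F] {n : ℕ} (r : Fin n → F) :
    (∏ i, (X - C (r i))).natDegree = n := by
  rw [natDegree_prod_of_monic _ _ fun i _ => monic_X_sub_C (r i)]
  simp

/-- Stability of real roots. -/
theorem real_roots {n : ℕ} {r : Fin n → ℝ} (hr : Function.Injective r) :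
    ∃ ε : ℝ, 0 < ε ∧ ∀ m : ℝ[X], m.Monic → m.natDegree = n →
      (∀ i, |m.coeff i - (∏ i, (X - C (r i))).coeff i| < ε) →
      ∃ ρ : Fin n → ℝ, Function.Injective ρ ∧ m = ∏ i, (X - C (ρ i)) := by
  classical
  set P : ℝ[X] := ∏ i, (X - C (r i)) with hP
  let Q : Fin n → ℝ[X] := fun i => ∏ j ∈ Finset.univ.erase i, (X - C (r j))
  have hPQ : ∀ i x, P.eval x = (x - r i) * (Q i).eval x := by
    intro i x
    rw [hP, ← Finset.mul_prod_erase Finset.univ _ (Finset.mem_univ i), eval_mul, eval_sub, eval_X,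
      eval_C]
  have hQ : ∀ i, (Q i).eval (r i) ≠ 0 := by
    intro i
    rw [eval_prod, Finset.prod_ne_zero_iff]
    intro j hj
    rw [eval_sub, eval_X, eval_C]
    exact sub_ne_zero.mpr fun h => (Finset.ne_of_mem_erase hj) (hr h).symm
  obtain ⟨η, ⟨hη1, hη2⟩, hη0⟩ : ∃ η : ℝ, ((∀ i, 0 < (Q i).eval (r i + η) * (Q i).eval (r i - η)) ∧
      (∀ p : Fin n × Fin n, p.1 ≠ p.2 → η < |r p.1 - r p.2| / 2)) ∧ 0 < η := by
    have e1 : ∀ᶠ η in 𝓝[>] (0 : ℝ), ∀ i, 0 < (Q i).eval (r i + η) * (Q i).eval (r i - η) := by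
      rw [eventually_all]
      intro i
      have hc : ContinuousAt (fun η : ℝ => (Q i).eval (r i + η) * (Q i).eval (r i - η)) 0 := by
        apply Continuous.continuousAt
        exact ((Q i).continuous.comp (by fun_prop)).mul ((Q i).continuous.comp (by fun_prop))
      have h1 : 0 < (Q i).eval (r i + 0) * (Q i).eval (r i - 0) := by
        rw [add_zero, sub_zero]
        exact mul_self_pos.mpr (hQ i)
      exact (hc.eventually_const_lt h1).filter_mono nhdsWithin_le_nhds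
    have e2 : ∀ᶠ η in 𝓝[>] (0 : ℝ), ∀ p : Fin n × Fin n, p.1 ≠ p.2 →
        η < |r p.1 - r p.2| / 2 := by
      rw [eventually_all]
      intro p
      by_cases hp : p.1 = p.2
      · exact Eventually.of_forall fun η h => absurd hp h
      · have h1 : 0 < |r p.1 - r p.2| / 2 := by
          have : 0 < |r p.1 - r p.2| := abs_pos.mpr (sub_ne_zero.mpr fun h => hp (hr h))
          linarith
        have h2 : ∀ᶠ η in 𝓝 (0 : ℝ), η < |r p.1 - r p.2| / 2 := eventually_lt_nhds h1
        exact (h2.filter_mono nhdsWithin_le_nhds).mono fun η h _ => h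
    exact ((e1.and e2).and self_mem_nhdsWithin).exists
  have hneg : ∀ i, P.eval (r i + η) * P.eval (r i - η) < 0 := by
    intro i
    rw [hPQ i, hPQ i]
    have h1 := hη1 i
    have h2 : (r i + η - r i) * eval (r i + η) (Q i) * ((r i - η - r i) * eval (r i - η) (Q i)) =
        -(η ^ 2 * (eval (r i + η) (Q i) * eval (r i - η) (Q i))) := by ring
    rw [h2, neg_lt_zero]
    positivity
  let Cc : ℝ → ℝ := fun x => ∑ j ∈ Finset.range (n + 1), |x| ^ j
  obtain ⟨ε, ⟨hε1, hε2⟩, hε0⟩ : ∃ ε : ℝ, ((∀ i, ε * Cc (r i + η) < |P.eval (r i + η)|) ∧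
      (∀ i, ε * Cc (r i - η) < |P.eval (r i - η)|)) ∧ 0 < ε := by
    have e : ∀ x : ℝ, P.eval x ≠ 0 → ∀ᶠ ε in 𝓝[>] (0 : ℝ), ε * Cc x < |P.eval x| := by
      intro x hx
      have hc : ContinuousAt (fun ε : ℝ => ε * Cc x) 0 := by fun_prop
      have h1 : (0 : ℝ) * Cc x < |P.eval x| := by
        rw [zero_mul]; exact abs_pos.mpr hx
      exact (hc.eventually_lt_const h1).filter_mono nhdsWithin_le_nhds
    have e1 : ∀ᶠ ε in 𝓝[>] (0 : ℝ), ∀ i, ε * Cc (r i + η) < |P.eval (r i + η)| :=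
      eventually_all.mpr fun i => e _ fun h => by
        have := hneg i
        rw [h, zero_mul] at this
        exact lt_irrefl _ this
    have e2 : ∀ᶠ ε in 𝓝[>] (0 : ℝ), ∀ i, ε * Cc (r i - η) < |P.eval (r i - η)| :=
      eventually_all.mpr fun i => e _ fun h => by
        have := hneg i
        rw [h, mul_zero] at this
        exact lt_irrefl _ this
    exact ((e1.and e2).and self_mem_nhdsWithin).exists
  refine ⟨ε, hε0, fun m hm hmn hcl => ?_⟩
  have hPn : P.natDegree = n := natDegree_prod_X_sub_C' r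
  have hroot : ∀ i, ∃ ρ : ℝ, |ρ - r i| ≤ η ∧ m.eval ρ = 0 := by
    intro i
    have h1 := mul_pos_of_abs_sub_lt
      (lt_of_le_of_lt (eval_sub_le hmn hPn hcl (r i + η)) (hε1 i))
    have h2 := mul_pos_of_abs_sub_lt
      (lt_of_le_of_lt (eval_sub_le hmn hPn hcl (r i - η)) (hε2 i))
    have h3 := hneg i
    have h4 : m.eval (r i + η) * m.eval (r i - η) < 0 := by
      by_contra hcon
      push Not at hcon
      nlinarith [mul_pos h1 h2, mul_nonneg hcon (neg_pos.mpr h3).le]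
    have hle : r i - η ≤ r i + η := by linarith
    rcases mul_neg_iff.mp h4 with ⟨h5, h6⟩ | ⟨h5, h6⟩
    · obtain ⟨x, hx, hx0⟩ := intermediate_value_Icc hle (m.continuous.continuousOn)
        (show (0 : ℝ) ∈ Set.Icc (m.eval (r i - η)) (m.eval (r i + η)) from ⟨h6.le, h5.le⟩)
      exact ⟨x, abs_le.mpr ⟨by linarith [hx.1], by linarith [hx.2]⟩, hx0⟩
    · obtain ⟨x, hx, hx0⟩ := intermediate_value_Icc' hle (m.continuous.continuousOn)
        (show (0 : ℝ) ∈ Set.Icc (m.eval (r i + η)) (m.eval (r i - η)) from ⟨h5.le, h6.le⟩)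
      exact ⟨x, abs_le.mpr ⟨by linarith [hx.1], by linarith [hx.2]⟩, hx0⟩
  choose ρ hρ1 hρ2 using hroot
  have hρi : Function.Injective ρ := by
    intro i j hij
    by_contra hne
    have h1 := hη2 (i, j) hne
    have h2 := abs_sub_le (r i) (ρ i) (r j)
    have h3 := hρ1 i
    have h4 := hρ1 j
    rw [abs_sub_comm] at h3
    rw [hij] at h2 h3
    simp only at h1
    linarith
  refine ⟨ρ, hρi, ?_⟩
  exact eq_of_monic_of_dvd_of_natDegree_le (monic_prod_of_monic _ _ fun i _ => monic_X_sub_C _) hm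
    (prod_dvd_of_roots hρi hρ2) (by rw [hmn, natDegree_prod_X_sub_C'])

end Vale.Agent.P011.Even
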