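import Vale.Agent.P011.Even.DiagPair
import Vale.Agent.P011.Even.RealRoots
import Vale.Agent.P011.Even.Defs

/-!
The real places that do not split, for the representation of elements by hermitian planes.
-/

open Module Matrix Polynomial
open Vale.Agent.P011.T2 (QuadL)
open Vale.Agent.P011.RP (RData)

namespace Vale.Agent.P011.Even

section

variable {K D : Type} [Field K] [StarRing K] [DivisionRing D] [StarRing D] [Algebra K D] {n : ℕ}

theorem cong_symm {R : RData K D n} {c e : D} (h : R.CongAt c e) : R.CongAt e c := by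
  obtain ⟨_, ⟨U, rfl⟩, hQ⟩ := h
  let V : Matrix (Fin n) (Fin n) ℂ := ((U⁻¹ : (Matrix (Fin n) (Fin n) ℂ)ˣ) : _)
  have h1 : V * U = 1 := U.inv_mul
  have h2 : (U : Matrix (Fin n) (Fin n) ℂ)ᴴ * Vᴴ = 1 := by
    rw [← Matrix.conjTranspose_mul, h1, Matrix.conjTranspose_one]
  refine ⟨V, (U⁻¹).isUnit, ?_⟩
  rw [← hQ]
  calc V * (U * (R.f c * R.A) * (U : Matrix (Fin n) (Fin n) ℂ)ᴴ) * Vᴴ
      = (V * U) * (R.f c * R.A) * ((U : Matrix (Fin n) (Fin n) ℂ)ᴴ * Vᴴ) := by
        simp only [mul_assoc]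
    _ = _ := by rw [h1, h2, one_mul, mul_one]

theorem cong_trans {R : RData K D n} {c e g : D} (h : R.CongAt c e) (h' : R.CongAt e g) :
    R.CongAt c g := by
  obtain ⟨Q, hQ, h1⟩ := h
  obtain ⟨Q', hQ', h2⟩ := h'
  refine ⟨Q' * Q, hQ'.mul hQ, ?_⟩
  rw [← h2, ← h1, Matrix.conjTranspose_mul]
  simp only [mul_assoc]

theorem f_unit (R : RData K D n) {x : D} (hx : x ≠ 0) : IsUnit (R.f x) :=
  (IsUnit.mk0 x hx).map R.f

theorem f_herm (R : RData K D n) {x : D} (hx : star x = x) : (R.f x * R.A)ᴴ = R.f x * R.A := by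
  rw [Matrix.conjTranspose_mul, R.hA, ← R.star_f, hx]

end

section

variable {k K D : Type} [Field k] [Field K] [StarRing K]
    [DivisionRing D] [StarRing D] [Algebra k K] [Algebra k D] [Algebra K D] [IsScalarTower k K D]
    {d : kˣ} {s : K} {n : ℕ}

theorem algebraMap_real (x : ℝ) : algebraMap ℝ (Matrix (Fin n) (Fin n) ℂ) x =
    Matrix.scalar (Fin n) (x : ℂ) := by
  rw [Matrix.algebraMap_eq_diagonal]
  rfl

omit [IsScalarTower k K D] [Algebra k D] in
/-- the real place below a place of `K` -/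
theorem exists_phi (hS : Setting k K D d s) (R : RData K D n) :
    ∃ φ : k →+* ℝ, (∀ a, R.s (algebraMap k K a) = ((φ a : ℝ) : ℂ)) ∧ φ d < 0 := by
  have hre : ∀ a : k, ((R.s (algebraMap k K a)).re : ℂ) = R.s (algebraMap k K a) := by
    intro a
    have h1 := R.hs (algebraMap k K a)
    rw [(hS.fix _).mpr ⟨a, rfl⟩] at h1
    exact Complex.conj_eq_iff_re.mp h1.symm
  let φ : k →+* ℝ :=
    { toFun := fun a => (R.s (algebraMap k K a)).re
      map_one' := by simp
      map_zero' := by simp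
      map_add' := fun a b => by simp
      map_mul' := fun a b => by
        rw [map_mul, map_mul, ← hre a, ← hre b, ← Complex.ofReal_mul, Complex.ofReal_re,
          Complex.ofReal_re, Complex.ofReal_re] }
  have hφ : ∀ a, R.s (algebraMap k K a) = ((φ a : ℝ) : ℂ) := fun a => (hre a).symm
  refine ⟨φ, hφ, ?_⟩
  have h1 : (R.s s).re = 0 := by
    have h2 := R.hs s
    rw [hS.star_s, map_neg] at h2
    have h3 := congrArg Complex.re h2
    simp only [Complex.neg_re, Complex.star_def, Complex.conj_re] at h3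
    linarith
  have h2 : ((φ d : ℝ) : ℂ) = R.s s ^ 2 := by rw [← hφ, ← hS.sq, map_pow]
  have h3 := congrArg Complex.re h2
  rw [Complex.ofReal_re, pow_two, Complex.mul_re, h1, zero_mul, zero_sub] at h3
  have h4 : φ d ≠ 0 := (_root_.map_ne_zero φ).mpr d.ne_zero
  rcases lt_trichotomy (φ d) 0 with h | h | h
  · exact h
  · exact absurd h h4
  · nlinarith [mul_self_nonneg (R.s s).im]

theorem quadL (hS : Setting k K D d s) : QuadL k K (d : k) where
  fix x hx := (hS.fix x).mp hx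
  fix' e := (hS.fix _).mpr ⟨e, rfl⟩
  gen := ⟨s, by
    rintro rfl
    have := hS.sq
    rw [zero_pow two_ne_zero] at this
    exact (_root_.map_ne_zero (algebraMap k K)).mpr d.ne_zero this.symm, hS.star_s, hS.sq⟩

theorem exists_rdata_of [NumberField K] (hS : Setting k K D d s) (hn : 0 < n)
    (hdeg : finrank K D = n ^ 2)
    {φ : k →+* ℝ} (hφ : φ d < 0) :
    ∃ R : RData K D n, ∀ a, R.s (algebraMap k K a) = ((φ a : ℝ) : ℂ) := by
  have : FiniteDimensional k K := Module.finite_of_finrank_pos (by rw [hS.rank]; norm_num)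
  have := hS.fin
  have := hS.cen
  have : StarModule K D := ⟨hS.star_smul⟩
  obtain ⟨ψ, hψ1, hψ2⟩ := RP.exists_psi (quadL hS) hφ
  obtain ⟨R, hR⟩ := RData.exists_of (D := D) hn hdeg ψ hψ2
  exact ⟨R, by rw [hR]; exact hψ1⟩

theorem f_alg (R : RData K D n) {φ : k →+* ℝ}
    (hφ : ∀ a, R.s (algebraMap k K a) = ((φ a : ℝ) : ℂ)) (a : k) :
    R.f (algebraMap k D a) = algebraMap ℝ _ (φ a) := by
  rw [IsScalarTower.algebraMap_apply k K D, R.hf, hφ, algebraMap_real]

theorem f_smul (R : RData K D n) {φ : k →+* ℝ}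
    (hφ : ∀ a, R.s (algebraMap k K a) = ((φ a : ℝ) : ℂ)) (a : k) (x : D) :
    R.f (a • x) = φ a • R.f x := by
  rw [Algebra.smul_def, map_mul, f_alg R hφ, Algebra.smul_def]

theorem f_aeval (R : RData K D n) {φ : k →+* ℝ}
    (hφ : ∀ a, R.s (algebraMap k K a) = ((φ a : ℝ) : ℂ)) (z : D) (p : k[X]) :
    R.f (aeval z p) = aeval (R.f z) (p.map φ) := by
  induction p using Polynomial.induction_on' with
  | add p q hp hq => rw [map_add, map_add, hp, hq, Polynomial.map_add, map_add]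
  | monomial m a =>
    rw [aeval_monomial, map_mul, f_alg R hφ, Polynomial.map_monomial, aeval_monomial, map_pow]

/-- Multiplication by an element which is positive at the real places does not change the
signature. -/
theorem cong_mul (R : RData K D n) {φ : k →+* ℝ}
    (hφ : ∀ a, R.s (algebraMap k K a) = ((φ a : ℝ) : ℂ)) {c0 z : D} (hc0 : star c0 = c0)
    (h0 : c0 ≠ 0) (hz : star z = c0 * z * c0⁻¹) {m : k[X]} (hm : aeval z m = 0) {n' : ℕ}
    {ρ : Fin n' → ℝ} (hρ : Function.Injective ρ) (hmρ : m.map φ = ∏ i, (X - C (ρ i)))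
    {p : k[X]} (hp : ∀ i, 0 < (p.map φ).eval (ρ i)) (hpz : aeval z p ≠ 0) :
    R.CongAt (c0 * aeval z p) c0 := by
  obtain ⟨q, hq⟩ := exists_sqrt_mod hρ fun i => (hp i).le
  set M := aeval (R.f z) q with hM
  have hMM : M * M = R.f (aeval z p) := by
    obtain ⟨t, ht⟩ := hq
    have h1 := congrArg (aeval (R.f z)) ht
    rw [map_mul, ← hmρ, ← f_aeval R hφ, hm, map_zero, zero_mul, map_sub, map_pow, ← hM,
      ← f_aeval R hφ, sub_eq_zero, pow_two] at h1
    exact h1
  have hMu : IsUnit M := by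
    rw [Matrix.isUnit_iff_isUnit_det]
    have h1 := (Matrix.isUnit_iff_isUnit_det _).mp (f_unit R hpz)
    rw [← hMM, Matrix.det_mul] at h1
    exact isUnit_of_mul_isUnit_left h1
  set Gi := R.f c0⁻¹ with hGi
  have hci : star c0⁻¹ = c0⁻¹ := by rw [star_inv₀, hc0]
  have e1 : Gi * R.f c0 = 1 := by rw [hGi, ← map_mul, inv_mul_cancel₀ h0, map_one]
  have e2 : R.f c0 * Gi = 1 := by rw [hGi, ← map_mul, mul_inv_cancel₀ h0, map_one]
  have e3 : Gi * R.A = R.A * Giᴴ := by rw [hGi, ← R.star_f, hci]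
  have e4 : R.f c0 * R.A = R.A * (R.f c0)ᴴ := by rw [← R.star_f, hc0]
  have base : (Gi * R.A) * (R.f z)ᴴ = R.f z * (Gi * R.A) := by
    rw [mul_assoc, ← R.star_f, hz, map_mul, map_mul, ← hGi]
    calc Gi * (R.f c0 * R.f z * Gi * R.A) = (Gi * R.f c0) * (R.f z * (Gi * R.A)) := by
          simp only [mul_assoc]
      _ = _ := by rw [e1, one_mul]
  have step : ∀ q : ℝ[X], (Gi * R.A) * (aeval (R.f z) q)ᴴ = aeval (R.f z) q * (Gi * R.A) := by
    intro q
    induction q using Polynomial.induction_on' with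
    | add p q hp hq => rw [map_add, Matrix.conjTranspose_add, mul_add, add_mul, hp, hq]
    | monomial m a =>
      have h1 : (Gi * R.A) * ((R.f z) ^ m)ᴴ = (R.f z) ^ m * (Gi * R.A) := by
        rw [Matrix.conjTranspose_pow]
        induction m with
        | zero => simp
        | succ m ih =>
          rw [pow_succ, ← mul_assoc, ih, mul_assoc, base, ← mul_assoc, ← pow_succ]
      have h2 : (algebraMap ℝ (Matrix (Fin n) (Fin n) ℂ) a)ᴴ = algebraMap ℝ _ a := by
        rw [algebraMap_real, Matrix.scalar_apply, Matrix.diagonal_conjTranspose]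
        congr 1
        funext i
        exact Complex.conj_ofReal a
      rw [aeval_monomial, Matrix.conjTranspose_mul, h2, ← mul_assoc, h1, ← Algebra.commutes,
        mul_assoc]
  apply cong_symm
  refine ⟨R.f c0 * M * Gi, ((f_unit R h0).mul hMu).mul (f_unit R (inv_ne_zero h0)), ?_⟩
  rw [Matrix.conjTranspose_mul, Matrix.conjTranspose_mul, map_mul]
  calc R.f c0 * M * Gi * (R.f c0 * R.A) * (Giᴴ * (Mᴴ * (R.f c0)ᴴ))
      = R.f c0 * M * (Gi * R.f c0) * (R.A * Giᴴ) * Mᴴ * (R.f c0)ᴴ := by simp only [mul_assoc]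
    _ = R.f c0 * M * ((Gi * R.A) * Mᴴ) * (R.f c0)ᴴ := by
        rw [e1, mul_one, ← e3]; simp only [mul_assoc]
    _ = R.f c0 * (M * M) * Gi * (R.A * (R.f c0)ᴴ) := by
        rw [hM, step q]; simp only [mul_assoc]
    _ = R.f c0 * (M * M) * (Gi * R.f c0) * R.A := by
        rw [← e4]; simp only [mul_assoc]
    _ = _ := by rw [e1, mul_one, hMM]

theorem quadC : QuadL ℝ ℂ (-1) where
  fix x hx := ⟨x.re, by
    change ((x.re : ℝ) : ℂ) = x
    exact Complex.conj_eq_iff_re.mp hx⟩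
  fix' e := Complex.conj_ofReal e
  gen := ⟨Complex.I, Complex.I_ne_zero, Complex.conj_I, by
    rw [Complex.I_sq, map_neg, map_one]⟩

theorem span_real [NumberField K] (hS : Setting k K D d s) (hn : 0 < n)
    (hdeg : finrank K D = n ^ 2) (R : RData K D n) {φ : k →+* ℝ}
    (hφ : ∀ a, R.s (algebraMap k K a) = ((φ a : ℝ) : ℂ)) {N : ℕ} (B : Basis (Fin N) k D)
    (Y : Matrix (Fin n) (Fin n) ℂ) : ∃ b : Fin N → ℝ, ∑ j, b j • R.f (B j) = Y := by
  have := hS.fin
  have := hS.cen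
  have : StarModule K D := ⟨hS.star_smul⟩
  have hmem : ∀ x : D, R.f x ∈ Submodule.span ℝ (Set.range fun j => R.f (B j)) := by
    intro x
    rw [Submodule.mem_span_range_iff_exists_fun]
    refine ⟨fun j => φ (B.repr x j), ?_⟩
    conv_rhs => rw [← B.sum_repr x]
    rw [map_sum]
    exact Finset.sum_congr rfl fun j _ => (f_smul R hφ _ _).symm
  obtain ⟨γ, hγ⟩ := R.split_basis hdeg hn Y
  rw [← Submodule.mem_span_range_iff_exists_fun, hγ]
  refine Submodule.sum_mem _ fun j _ => ?_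
  -- the imaginary unit
  set t := R.s s with ht
  have ht1 : t.re = 0 := by
    have h2 := R.hs s
    rw [hS.star_s, map_neg] at h2
    have h3 := congrArg Complex.re h2
    simp only [Complex.neg_re, Complex.star_def, Complex.conj_re] at h3
    linarith
  have hs0 : s ≠ 0 := by
    rintro rfl
    have := hS.sq
    rw [zero_pow two_ne_zero] at this
    exact (_root_.map_ne_zero (algebraMap k K)).mpr d.ne_zero this.symm
  have ht2 : t.im ≠ 0 := by
    intro h
    have : t = 0 := Complex.ext ht1 h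
    exact hs0 ((map_eq_zero R.s).mp this)
  have hdec : γ j • R.f (finBasis K D j) = (γ j).re • R.f (finBasis K D j) +
      ((γ j).im / t.im) • R.f (algebraMap K D s * finBasis K D j) := by
    rw [map_mul, R.hf, ← ht]
    ext a b
    rw [Matrix.smul_apply, Matrix.add_apply, Matrix.smul_apply, Matrix.smul_apply,
      Matrix.scalar_apply, Matrix.diagonal_mul, smul_eq_mul, Complex.real_smul,
      Complex.real_smul]
    have h1 : γ j = ((γ j).re : ℂ) + (((γ j).im / t.im : ℝ) : ℂ) * t := by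
      apply Complex.ext
      · simp [ht1]
      · simp [ht2]
    conv_lhs => rw [h1]
    ring
  rw [hdec]
  exact Submodule.add_mem _ (Submodule.smul_mem _ _ (hmem _)) (Submodule.smul_mem _ _ (hmem _))

/-- The local statement at a real place. -/
theorem loc_real [NumberField K] (hS : Setting k K D d s) (hn : 0 < n)
    (hdeg : finrank K D = n ^ 2) (R : RData K D n) {φ : k →+* ℝ}
    (hφ : ∀ a, R.s (algebraMap k K a) = ((φ a : ℝ) : ℂ)) {N : ℕ} (B : Basis (Fin N) k D)
    {c0 c2 : D} (h0 : star c0 = c0) (h2 : star c2 = c2) (h00 : c0 ≠ 0) (h20 : c2 ≠ 0)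
    (τ : Matrix (Fin n) (Fin n) ℂ →ₗ[ℝ] Matrix (Fin n) (Fin n) ℂ)
    (hτ : ∀ Y, τ Y * R.A = R.A * Yᴴ) :
    ∃ (r : Fin n → ℝ) (b : Fin N → ℝ), Function.Injective r ∧
      LinearIndependent ℝ (fun i : Fin n =>
        (R.f c0⁻¹ * (∑ j, b j • R.f (B j)) * R.f c2 * τ (∑ j, b j • R.f (B j))) ^ (i : ℕ)) ∧
      aeval (R.f c0⁻¹ * (∑ j, b j • R.f (B j)) * R.f c2 * τ (∑ j, b j • R.f (B j)))
        (∏ i, (X - C (r i))) = 0 := by
  have hdet : ∀ c : D, c ≠ 0 → (R.f c * R.A).det ≠ 0 := fun c hc =>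
    ((Matrix.isUnit_iff_isUnit_det _).mp ((f_unit R hc).mul R.unit)).ne_zero
  obtain ⟨ρ, hρ⟩ := diag_pair quadC (R.f c0 * R.A) (R.f c2 * R.A) (f_herm R h0) (f_herm R h2)
    (hdet c0 h00) (hdet c2 h20)
  have hl : ∀ i : Fin n, ∃ l : ℝˣ, (ρ i : ℝ) * (l : ℝ) ^ 2 = (ρ i : ℝ) / |(ρ i : ℝ)| * (i + 1) := by
    intro i
    have h1 : 0 < |(ρ i : ℝ)| := abs_pos.mpr (ρ i).ne_zero
    have h3 : (0 : ℝ) < ((i : ℕ) + 1) / |(ρ i : ℝ)| := by positivity
    refine ⟨Units.mk0 (Real.sqrt (((i : ℕ) + 1) / |(ρ i : ℝ)|)) (Real.sqrt_pos.mpr h3).ne', ?_⟩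
    rw [Units.val_mk0, Real.sq_sqrt h3.le]
    ring
  choose l hl using hl
  have hinj : Function.Injective fun i => ρ i * l i ^ 2 := by
    intro i j hij
    have h1 : (ρ i : ℝ) * (l i : ℝ) ^ 2 = (ρ j : ℝ) * (l j : ℝ) ^ 2 := by
      have := congrArg (Units.val) hij
      simpa using this
    rw [hl, hl] at h1
    have h3 := congrArg abs h1
    rw [abs_mul, abs_mul, abs_div, abs_div, abs_abs, abs_abs,
      div_self (abs_pos.mpr (ρ i).ne_zero).ne', div_self (abs_pos.mpr (ρ j).ne_zero).ne', one_mul,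
      one_mul, abs_of_pos (by positivity), abs_of_pos (by positivity)] at h3
    have h4 : ((i : ℕ) : ℝ) = ((j : ℕ) : ℝ) := by linarith
    exact Fin.ext (by exact_mod_cast h4)
  obtain ⟨Y, hY1, hY2⟩ := hρ l hinj
  obtain ⟨b, hb⟩ := span_real hS hn hdeg R hφ B Y
  refine ⟨fun i => (ρ i * l i ^ 2 : ℝˣ), b, fun i j hij => hinj (Units.ext hij), ?_⟩
  rw [hb]
  obtain ⟨U, hU⟩ := R.unit
  let V : Matrix (Fin n) (Fin n) ℂ := ((U⁻¹ : (Matrix (Fin n) (Fin n) ℂ)ˣ) : _)
  have hVU : V * R.A = 1 := by rw [← hU]; exact U.inv_mul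
  have hUV : R.A * V = 1 := by rw [← hU]; exact U.mul_inv
  have hτ' : τ Y = R.A * Yᴴ * V := by
    rw [← hτ, mul_assoc, hUV, mul_one]
  have hinv : (R.f c0 * R.A)⁻¹ = V * R.f c0⁻¹ := by
    apply Matrix.inv_eq_left_inv
    calc V * R.f c0⁻¹ * (R.f c0 * R.A) = V * (R.f c0⁻¹ * R.f c0) * R.A := by
          simp only [mul_assoc]
      _ = 1 := by rw [← map_mul, inv_mul_cancel₀ h00, map_one, mul_one, hVU]
  set Z := R.f c0⁻¹ * Y * R.f c2 * τ Y with hZ
  set Z' := (R.f c0 * R.A)⁻¹ * Y * (R.f c2 * R.A) * Yᴴ with hZ'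
  have hconj : Z * R.A = R.A * Z' := by
    rw [hZ, hZ', hτ', hinv]
    calc R.f c0⁻¹ * Y * R.f c2 * (R.A * Yᴴ * V) * R.A
        = R.f c0⁻¹ * Y * R.f c2 * R.A * Yᴴ * (V * R.A) := by simp only [mul_assoc]
      _ = (R.A * V) * (R.f c0⁻¹ * Y * R.f c2 * R.A * Yᴴ) := by
          rw [hVU, hUV, one_mul, mul_one]
      _ = _ := by simp only [mul_assoc]
  constructor
  · have h1 : LinearIndependent ℂ (fun i : Fin n => Z ^ (i : ℕ)) := by
      rw [Fintype.linearIndependent_iff] at hY1 ⊢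
      intro a ha
      apply hY1 a
      have hpow : ∀ m : ℕ, Z ^ m * R.A = R.A * Z' ^ m := by
        intro m
        induction m with
        | zero => simp
        | succ m ih => rw [pow_succ, mul_assoc, hconj, ← mul_assoc, ih, mul_assoc, ← pow_succ]
      apply R.unit.mul_left_cancel
      rw [mul_zero, Finset.mul_sum]
      have h3 : ∑ i : Fin n, R.A * a i • Z' ^ (i : ℕ) = (∑ i : Fin n, a i • Z ^ (i : ℕ)) * R.A := by
        rw [Finset.sum_mul]
        refine Finset.sum_congr rfl fun i _ => ?_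
        rw [smul_mul_assoc, hpow, mul_smul_comm]
      rw [h3, ha, zero_mul]
    exact h1.restrict_scalars (by
      intro x y hxy
      simpa using hxy)
  · have h1 : (∏ i, (X - C ((ρ i * l i ^ 2 : ℝˣ) : ℝ)) : ℝ[X]).map (algebraMap ℝ ℂ) =
        ∏ i, (X - C (algebraMap ℝ ℂ (ρ i * l i ^ 2 : ℝˣ))) := by
      rw [Polynomial.map_prod]
      refine Finset.prod_congr rfl fun i _ => ?_
      rw [Polynomial.map_sub, Polynomial.map_X, Polynomial.map_C]
    rw [← Polynomial.aeval_map_algebraMap ℂ, h1]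
    apply R.unit.mul_right_cancel
    rw [aeval_conj hconj, hY2, mul_zero, zero_mul]

end

end Vale.Agent.P011.Even
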