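import Vale.Agent.P011.Even.R1
import Vale.Agent.P011.Even.RealSide

/-!
The subfield generated by an element symmetric for a scaled involution.
-/

open Module Matrix Polynomial NumberField IsDedekindDomain
open Vale.Agent.P011.RP (RData)

namespace Vale.Agent.P011.Even

section det

variable {W : Type} [Field W] {n : ℕ}

/-- The determinant of a polynomial in a matrix depends only on the characteristic polynomial. -/
theorem det_aeval_eq [IsAlgClosed W] {A C : Matrix (Fin n) (Fin n) W}
    (h : A.charpoly = C.charpoly) (p : W[X]) : (aeval A p).det = (aeval C p).det := by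
  let G : Matrix (Fin n) (Fin n) W → W[X] →* W := fun A =>
    Matrix.detMonoidHom.comp (aeval A : W[X] →ₐ[W] Matrix (Fin n) (Fin n) W).toMonoidHom
  have hG : ∀ (A : Matrix (Fin n) (Fin n) W) (p : W[X]), G A p = (aeval A p).det := fun _ _ => rfl
  have key : ∀ (A : Matrix (Fin n) (Fin n) W) (c : W),
      G A (X - Polynomial.C c) = (-1) ^ n * A.charpoly.eval c := by
    intro A c
    rw [hG, map_sub, aeval_X, aeval_C, Matrix.eval_charpoly, ← neg_sub, Matrix.det_neg,
      Fintype.card_fin]
    rfl
  have keyC : ∀ (A : Matrix (Fin n) (Fin n) W) (c : W), G A (Polynomial.C c) = c ^ n := by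
    intro A c
    rw [hG, aeval_C, Matrix.algebraMap_eq_diagonal, Matrix.det_diagonal]
    simp
  have hsplit := (IsAlgClosed.splits p).eq_prod_roots
  change G A p = G C p
  rw [hsplit, map_mul, map_mul, keyC, keyC, map_multiset_prod, map_multiset_prod,
    Multiset.map_map, Multiset.map_map]
  congr 2
  apply Multiset.map_congr rfl
  intro c _
  rw [Function.comp_apply, Function.comp_apply, key, key, h]

end det

section alg

variable {k K D : Type} [Field k] [NumberField k] [Field K] [StarRing K]
    [DivisionRing D] [StarRing D] [Algebra k K] [Algebra k D] [Algebra K D] [IsScalarTower k K D]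
    {d : kˣ} {s : K} {n : ℕ}

omit [NumberField k] in
theorem star_algk (hS : Setting k K D d s) (a : k) :
    star (algebraMap k D a) = algebraMap k D a := by
  rw [IsScalarTower.algebraMap_apply k K D, hS.star_alg, (hS.fix _).mpr ⟨a, rfl⟩]

omit [Field k] [NumberField k] [Algebra k K] [Algebra k D] [IsScalarTower k K D] [Field K]
  [StarRing K] [StarRing D] [Algebra K D] in
theorem conj_pow' {c0 z : D} (h00 : c0 ≠ 0) (m : ℕ) :
    (c0 * z * c0⁻¹) ^ m = c0 * z ^ m * c0⁻¹ := by
  induction m with
  | zero => rw [pow_zero, pow_zero, mul_one, mul_inv_cancel₀ h00]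
  | succ m ih =>
    rw [pow_succ, ih, pow_succ]
    calc c0 * z ^ m * c0⁻¹ * (c0 * z * c0⁻¹) = c0 * z ^ m * (c0⁻¹ * c0) * z * c0⁻¹ := by
          simp only [mul_assoc]
      _ = _ := by rw [inv_mul_cancel₀ h00, mul_one]; simp only [mul_assoc]

omit [NumberField k] in
theorem star_aeval' (hS : Setting k K D d s) {c0 z : D} (h00 : c0 ≠ 0)
    (hz : star z = c0 * z * c0⁻¹) (p : k[X]) : star (aeval z p) = c0 * aeval z p * c0⁻¹ := by
  induction p using Polynomial.induction_on' with
  | add p q hp hq => rw [map_add, star_add, hp, hq, mul_add, add_mul]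
  | monomial m a =>
    rw [aeval_monomial, star_mul, star_algk hS, star_pow, hz, conj_pow' h00, ← Algebra.commutes,
      ← mul_assoc, ← mul_assoc, Algebra.commutes a c0]
    simp only [mul_assoc]

omit [NumberField k] [Algebra k D] [IsScalarTower k K D] in
theorem star_aevalK (hS : Setting k K D d s) {c0 z : D} (h00 : c0 ≠ 0)
    (hz : star z = c0 * z * c0⁻¹) (p : K[X]) :
    star (aeval z p) = c0 * aeval z (p.map (starRingEnd K)) * c0⁻¹ := by
  induction p using Polynomial.induction_on' with
  | add p q hp hq => rw [map_add, star_add, hp, hq, Polynomial.map_add, map_add, mul_add, add_mul]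
  | monomial m a =>
    rw [aeval_monomial, star_mul, hS.star_alg, star_pow, hz, conj_pow' h00,
      Polynomial.map_monomial, aeval_monomial, ← Algebra.commutes, ← mul_assoc, ← mul_assoc,
      Algebra.commutes (star a) c0]
    simp only [mul_assoc]
    rfl

/-- The minimal polynomial of a symmetric element of maximal degree. -/
theorem minpoly_map (hS : Setting k K D d s) (hn : 0 < n) (hdeg : finrank K D = n ^ 2) {Ω : Type}
    [Field Ω] [Algebra K Ω] (f : D →ₐ[K] Matrix (Fin n) (Fin n) Ω)
    {c0 z : D} (h00 : c0 ≠ 0) (hz : star z = c0 * z * c0⁻¹)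
    (hli : LinearIndependent k (fun i : Fin n => z ^ (i : ℕ))) :
    (minpoly k z).natDegree = n ∧ minpoly K z = (minpoly k z).map (algebraMap k K) := by
  have := hS.fin
  have := hS.cen
  have := hS.fin_k
  have hintK : IsIntegral K z := Algebra.IsIntegral.isIntegral z
  have hintk : IsIntegral k z := Algebra.IsIntegral.isIntegral z
  -- the degree over `K` is at most `n`
  have h1 : (minpoly K z).natDegree ≤ n := by
    have hnot : ¬ LinearIndependent K (fun i : Fin (n + 1) => z ^ (i : ℕ)) := by
      intro h
      have h2 := Vale.Agent.P011S.SF.split_indep hn f _ h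
      rw [Fintype.linearIndependent_iff] at h2
      have hcd : (f z).charpoly.natDegree = n := by
        rw [Matrix.charpoly_natDegree_eq_dim, Fintype.card_fin]
      have h3 := h2 (fun i => (f z).charpoly.coeff (i : ℕ)) (by
        have h4 := Matrix.aeval_self_charpoly (f z)
        rw [aeval_eq_sum_range, hcd, Finset.sum_range] at h4
        rw [← h4]
        exact Finset.sum_congr rfl fun i _ => by rw [map_pow]) (Fin.last n)
      have h5 : (f z).charpoly.coeff n = 1 := by
        have h6 := (f z).charpoly_monic.coeff_natDegree
        rwa [hcd] at h6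
      rw [Fin.val_last, h5] at h3
      exact one_ne_zero h3
    rw [Fintype.linearIndependent_iff] at hnot
    push Not at hnot
    obtain ⟨a, ha, i, hi⟩ := hnot
    let p : K[X] := ∑ i : Fin (n + 1), C (a i) * X ^ (i : ℕ)
    have hp : aeval z p = 0 := by
      rw [← ha, map_sum]
      refine Finset.sum_congr rfl fun i _ => ?_
      rw [map_mul, aeval_C, map_pow, aeval_X, Algebra.smul_def]
    have hcoeff : p.coeff (i : ℕ) = a i := by
      simp only [p, finsetSum_coeff, coeff_C_mul, coeff_X_pow]
      rw [Finset.sum_eq_single i]
      · simp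
      · intro j _ hj
        rw [if_neg (fun h => hj (Fin.ext h.symm)), mul_zero]
      · intro h; exact absurd (Finset.mem_univ i) h
    have hp0 : p ≠ 0 := by
      intro h
      rw [h, coeff_zero] at hcoeff
      exact hi hcoeff.symm
    have hpn : p.natDegree ≤ n :=
      natDegree_sum_le_of_forall_le _ _ fun i _ =>
        (natDegree_C_mul_X_pow_le _ _).trans (by have := i.2; omega)
    exact (natDegree_le_of_degree_le (minpoly.degree_le_of_ne_zero K z hp0 hp |>.trans
      degree_le_natDegree)).trans hpn
  -- the coefficients are symmetric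
  have h2 : (minpoly K z).map (starRingEnd K) = minpoly K z := by
    apply minpoly.unique_of_degree_le_degree_minpoly
    · exact (minpoly.monic hintK).map _
    · have h3 := star_aevalK hS h00 hz (minpoly K z)
      rw [minpoly.aeval, star_zero] at h3
      have h4 := (mul_eq_zero.mp h3.symm).resolve_right (inv_ne_zero h00)
      exact (mul_eq_zero.mp h4).resolve_left h00
    · rw [Polynomial.degree_map]
  have h3 : ∀ i, ∃ a : k, algebraMap k K a = (minpoly K z).coeff i := by
    intro i
    apply (hS.fix _).mp
    conv_rhs => rw [← h2]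
    rw [coeff_map]
    rfl
  have h4 : minpoly K z ∈ lifts (algebraMap k K) := by
    rw [lifts_iff_coeff_lifts]
    exact fun i => h3 i
  obtain ⟨m, hm, hmd, hmm⟩ := lifts_and_natDegree_eq_and_monic h4 (minpoly.monic hintK)
  have hmz : aeval z m = 0 := by
    rw [← aeval_map_algebraMap K, hm, minpoly.aeval]
  -- the degree over `k` is at least `n`
  have h5 : n ≤ (minpoly k z).natDegree := by
    by_contra hcon
    push Not at hcon
    have h6 := minpoly.aeval k z
    rw [aeval_eq_sum_range' hcon, Finset.sum_range] at h6
    have h7 := Fintype.linearIndependent_iff.mp hli _ h6 ⟨_, hcon⟩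
    have h8 : (minpoly k z).coeff (minpoly k z).natDegree = 1 := minpoly.monic hintk
    rw [h8] at h7
    exact one_ne_zero h7
  have h6 : minpoly k z ∣ m := minpoly.dvd k z hmz
  have h7 : m = minpoly k z := by
    refine eq_of_monic_of_dvd_of_natDegree_le (minpoly.monic hintk) hmm h6 ?_
    rw [hmd]
    exact h1.trans h5
  constructor
  · apply le_antisymm _ h5
    rw [← h7, hmd]
    exact h1
  · rw [← h7, hm]

/-- The reduced norm on the subfield. -/
theorem det_sub (hS : Setting k K D d s) (hn : 0 < n) (hdeg : finrank K D = n ^ 2) {Ω : Type}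
    [Field Ω] [IsAlgClosed Ω] [Algebra K Ω] (f : D →ₐ[K] Matrix (Fin n) (Fin n) Ω)
    {c0 z : D} (h00 : c0 ≠ 0) (hz : star z = c0 * z * c0⁻¹)
    (hli : LinearIndependent k (fun i : Fin n => z ^ (i : ℕ))) {E : Type} [Field E] [Algebra k E]
    [FiniteDimensional k E] {g : E} (hE : finrank k E = n) (hg : minpoly k g = minpoly k z)
    (p : k[X]) : (f (aeval z p)).det =
      algebraMap K Ω (algebraMap k K (Algebra.norm k (aeval g p))) := by
  have := hS.fin
  have := hS.cen
  obtain ⟨h1, h2⟩ := minpoly_map hS hn hdeg f h00 hz hli
  have hintK : IsIntegral K z := Algebra.IsIntegral.isIntegral z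
  let ι : k →+* Ω := (algebraMap K Ω).comp (algebraMap k K)
  -- the characteristic polynomial of the image of `z`
  have hKli : LinearIndependent K (fun i : Fin n => z ^ (i : ℕ)) := by
    rw [Fintype.linearIndependent_iff]
    intro a ha i
    let q : K[X] := ∑ i : Fin n, C (a i) * X ^ (i : ℕ)
    have hq : aeval z q = 0 := by
      rw [← ha, map_sum]
      refine Finset.sum_congr rfl fun i _ => ?_
      rw [map_mul, aeval_C, map_pow, aeval_X, Algebra.smul_def]
    have hq0 : q = 0 := by
      by_contra hne
      have h3 := minpoly.degree_le_of_ne_zero K z hne hq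
      have h4 : q.degree < n := by
        refine lt_of_le_of_lt (degree_sum_le _ _) ?_
        rw [Finset.sup_lt_iff (by exact_mod_cast WithBot.bot_lt_coe n)]
        intro i _
        exact lt_of_le_of_lt (degree_C_mul_X_pow_le _ _) (by exact_mod_cast i.2)
      have h5 : (minpoly K z).degree = n := by
        rw [h2, degree_map, degree_eq_natDegree (minpoly.ne_zero (by
          have := hS.fin_k
          exact Algebra.IsIntegral.isIntegral z)), h1]
      rw [h5] at h3
      exact absurd (lt_of_le_of_lt h3 h4) (lt_irrefl _)
    have hcoeff : q.coeff (i : ℕ) = a i := by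
      simp only [q, finsetSum_coeff, coeff_C_mul, coeff_X_pow]
      rw [Finset.sum_eq_single i]
      · simp
      · intro j _ hj
        rw [if_neg (fun h => hj (Fin.ext h.symm)), mul_zero]
      · intro h; exact absurd (Finset.mem_univ i) h
    rw [← hcoeff, hq0, coeff_zero]
  have hcA : (f z).charpoly = (minpoly k z).map ι := by
    apply Vale.Agent.P011S.SF.charpoly_unique
    · have h3 := Vale.Agent.P011S.SF.split_indep hn f _ hKli
      convert h3 using 2 with i
      rw [map_pow]
    · have := hS.fin_k
      exact (minpoly.monic (Algebra.IsIntegral.isIntegral z)).map _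
    · rw [natDegree_map, h1]
    · have h3 : aeval (f z) ((minpoly k z).map ι) = f (aeval z (minpoly K z)) := by
        rw [← Polynomial.aeval_algHom_apply, h2, ← Polynomial.map_map,
          aeval_map_algebraMap]
      rw [h3, minpoly.aeval, map_zero]
  -- the matrix of multiplication by `g`
  let b : Basis (Fin n) k E := Module.finBasisOfFinrankEq k E hE
  let L := Algebra.leftMulMatrix b
  have hcg : (L g).charpoly = minpoly k g := by
    have hint : IsIntegral k g := Algebra.IsIntegral.isIntegral g
    have hgd : (minpoly k g).natDegree = n := by rw [hg, h1]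
    apply Vale.Agent.P011S.SF.charpoly_unique
    · have hli' := linearIndependent_pow (K := k) g
      rw [hgd] at hli'
      have e1 : LinearIndependent k (fun i : Fin n => L (g ^ (i : ℕ))) :=
        hli'.map' L.toLinearMap
          (LinearMap.ker_eq_bot.mpr (Algebra.leftMulMatrix_injective b))
      convert e1 using 2 with i
      rw [map_pow]
    · exact minpoly.monic hint
    · exact hgd
    · rw [Polynomial.aeval_algHom_apply, minpoly.aeval, map_zero]
  have hcC : (ι.mapMatrix (L g)).charpoly = (minpoly k z).map ι := by
    rw [← hg, ← hcg, RingHom.mapMatrix_apply, Matrix.charpoly_map]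
  have e1 : f (aeval z p) = aeval (f z) (p.map ι) := by
    rw [← Polynomial.map_map, aeval_map_algebraMap Ω, Polynomial.aeval_algHom_apply,
      aeval_map_algebraMap]
  have e2 : ι.mapMatrix (L (aeval g p)) = aeval (ι.mapMatrix (L g)) (p.map ι) := by
    rw [← Polynomial.aeval_algHom_apply]
    clear e1 hcC hcg
    induction p using Polynomial.induction_on' with
    | add p q hp hq => rw [map_add, map_add, hp, hq, Polynomial.map_add, map_add]
    | monomial m a =>
      rw [aeval_monomial, Polynomial.map_monomial, aeval_monomial, map_mul, map_pow]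
      congr 1
      rw [Matrix.algebraMap_eq_diagonal, Matrix.algebraMap_eq_diagonal, RingHom.mapMatrix_apply,
        Matrix.diagonal_map (map_zero ι)]
      rfl
  rw [e1, det_aeval_eq (hcA.trans hcC.symm), ← e2, Algebra.norm_eq_matrix_det b,
    ← RingHom.map_det]
  rfl

end alg

end Vale.Agent.P011.Even
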