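import Vale.Agent.P011.Even.Beta
import Vale.Agent.P011.Even.PlaneAlg
import Vale.Agent.P011.Even.PncSign

/-!
Hermitian forms of rank at least two over division algebras of arbitrary degree represent every
element which has the signatures of one of their values.
-/

open Module Matrix Polynomial NumberField IsDedekindDomain
open Vale.Agent.P011.RP (RData HasR1 HasR2)

namespace Vale.Agent.P011.Even

open Arith

section plane

variable {D V : Type} [DivisionRing D] [StarRing D] [AddCommGroup V] [Module D V]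
  (B : T2.HF D V)

theorem plane_value {x0 y0 : V} (h : B.h y0 x0 = 0) (u w : D) :
    B.h (u • x0 + w • y0) (u • x0 + w • y0) =
      u * B.h x0 x0 * star u + w * B.h y0 y0 * star w := by
  have h' : B.h x0 y0 = 0 := by rw [← B.star_h, h, star_zero]
  rw [B.add_left, B.add_right, B.add_right, B.smul_left, B.smul_left, B.smul_left, B.smul_left,
    B.smul_right, B.smul_right, B.smul_right, B.smul_right, h, h']
  simp only [zero_mul, mul_zero, add_zero, zero_add, mul_assoc]

theorem exists_perp [FiniteDimensional D V] (hV : 2 ≤ finrank D V) (x0 : V) :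
    ∃ y0 : V, y0 ≠ 0 ∧ B.h y0 x0 = 0 := by
  have h1 : finrank D (LinearMap.range (B.lin x0)) + finrank D (LinearMap.ker (B.lin x0)) =
      finrank D V := LinearMap.finrank_range_add_finrank_ker (B.lin x0)
  have h2 : finrank D (LinearMap.range (B.lin x0)) ≤ 1 := by
    have := Submodule.finrank_le (LinearMap.range (B.lin x0))
    rwa [Module.finrank_self] at this
  have h3 : 0 < finrank D (LinearMap.ker (B.lin x0)) := by omega
  have h4 : Nontrivial (LinearMap.ker (B.lin x0)) := Module.nontrivial_of_finrank_pos h3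
  obtain ⟨⟨y, hy⟩, hy0⟩ := exists_ne (0 : LinearMap.ker (B.lin x0))
  exact ⟨y, fun h => hy0 (Subtype.ext h), LinearMap.mem_ker.mp hy⟩

end plane

/-- Embeddings attached to real roots. -/
theorem exists_psi_root {k E : Type} [Field k] [Field E] [Algebra k E] {g : E}
    (hgen : ∀ x : E, ∃ p : k[X], x = aeval g p) {φ : k →+* ℝ} {ρ : ℝ}
    (hρ : (minpoly k g).eval₂ φ ρ = 0) :
    ∃ ψ : E →+* ℝ, ψ.comp (algebraMap k E) = φ ∧ ∀ p : k[X], ψ (aeval g p) = p.eval₂ φ ρ := by
  have hsurj : Function.Surjective (aeval g : k[X] →ₐ[k] E).toRingHom := fun x => by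
    obtain ⟨p, hp⟩ := hgen x
    exact ⟨p, hp.symm⟩
  have hker : RingHom.ker (aeval g : k[X] →ₐ[k] E).toRingHom ≤
      RingHom.ker (eval₂RingHom φ ρ) := by
    intro p hp
    have hp' : aeval g p = 0 := hp
    obtain ⟨q, rfl⟩ := minpoly.dvd k g hp'
    rw [RingHom.mem_ker, coe_eval₂RingHom, eval₂_mul, hρ, zero_mul]
  let ψ : E →+* ℝ := RingHom.liftOfSurjective _ hsurj ⟨eval₂RingHom φ ρ, hker⟩
  have hψ : ∀ p : k[X], ψ (aeval g p) = p.eval₂ φ ρ := fun p =>
    RingHom.liftOfRightInverse_comp_apply (aeval g : k[X] →ₐ[k] E).toRingHom _ _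
      ⟨eval₂RingHom φ ρ, hker⟩ p
  refine ⟨ψ, ?_, hψ⟩
  ext a
  have h1 := hψ (C a)
  rw [aeval_C, eval₂_C] at h1
  exact h1

section main

variable {k K D : Type} [Field k] [NumberField k] [Field K] [NumberField K] [StarRing K]
    [DivisionRing D] [StarRing D] [Algebra k K] [Algebra k D] [Algebra K D] [IsScalarTower k K D]
    {d : kˣ} {s : K} {n : ℕ}

omit [NumberField k] in
omit [Algebra k D] [IsScalarTower k K D] in
theorem nrd_pos (hS : Setting k K D d s) (hn : 0 < n) (hdeg : finrank K D = n ^ 2) {Ω : Type}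
    [Field Ω] [Algebra K Ω] (f : D →ₐ[K] Matrix (Fin n) (Fin n) Ω) (R : RData K D n)
    {φ : k →+* ℝ} (hφ : ∀ a, R.s (algebraMap k K a) = ((φ a : ℝ) : ℂ)) {c e : D}
    (h : R.CongAt c e) {ν ν' : kˣ} (hν : (f c).det = algebraMap K Ω (algebraMap k K ν))
    (hν' : (f e).det = algebraMap K Ω (algebraMap k K ν')) : 0 < φ ν' * φ ν := by
  have := hS.fin
  have := hS.cen
  let _ : Algebra K ℂ := R.s.toAlgebra
  let g : D →ₐ[K] Matrix (Fin n) (Fin n) ℂ := { R.f with
    commutes' := fun k => by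
      change R.f (algebraMap K D k) = _
      rw [R.hf, Matrix.algebraMap_eq_diagonal]
      rfl }
  have h1 : (R.f c).det = ((φ ν : ℝ) : ℂ) := by
    rw [← hφ]
    exact det_compare hn hdeg f g c hν
  have h2 : (R.f e).det = ((φ ν' : ℝ) : ℂ) := by
    rw [← hφ]
    exact det_compare hn hdeg f g e hν'
  obtain ⟨Q, hQ, hQe⟩ := h
  have h3 := congrArg Matrix.det hQe
  have hA0 : R.A.det ≠ 0 := ((Matrix.isUnit_iff_isUnit_det _).mp R.unit).ne_zero
  have hQ0 : Q.det ≠ 0 := ((Matrix.isUnit_iff_isUnit_det _).mp hQ).ne_zero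
  rw [Matrix.det_mul, Matrix.det_mul, Matrix.det_mul, Matrix.det_mul, Matrix.det_conjTranspose,
    h1, h2] at h3
  have h4 : ((φ ν' : ℝ) : ℂ) = ((‖Q.det‖ ^ 2 * φ ν : ℝ) : ℂ) := by
    apply mul_right_cancel₀ hA0
    rw [← h3, Complex.ofReal_mul, Complex.ofReal_pow, ← Complex.mul_conj', Complex.star_def]
    ring
  have h5 : φ ν' = ‖Q.det‖ ^ 2 * φ ν := by exact_mod_cast h4
  have h6 : φ ν ≠ 0 := (_root_.map_ne_zero φ).mpr ν.ne_zero
  have h7 := norm_pos_iff.mpr hQ0
  rw [h5]
  have h8 : ‖Q.det‖ ^ 2 * φ ν * φ ν = ‖Q.det‖ ^ 2 * (φ ν) ^ 2 := by ring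
  rw [h8]
  positivity

theorem r2_aux (hS : Setting k K D d s) (hn : 2 ≤ n) (hdeg : finrank K D = n ^ 2)
    (hR1 : HasR1 K D n) : HasR2 K D n := by
  have hn0 : 0 < n := by omega
  have := hS.fin
  have := hS.cen
  have hfk := hS.fin_k
  intro V _ _ _ Bf hB hV x0 hx e he he0 hsig
  -- the plane
  set c0 := Bf.h x0 x0 with hc0def
  have hc0 : star c0 = c0 := Bf.star_h x0 x0
  have h00 : c0 ≠ 0 := fun h => hx (hB x0 h)
  obtain ⟨y0, hy0, hxy⟩ := exists_perp Bf hV x0
  set c2 := Bf.h y0 y0 with hc2def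
  have hc2 : star c2 = c2 := Bf.star_h y0 y0
  have h20 : c2 ≠ 0 := fun h => hy0 (hB y0 h)
  -- reduced norms
  obtain ⟨f⟩ := Vale.Agent.P011S.exists_split (K := K) (D := D) hdeg (AlgebraicClosure K)
  have hdet : ∀ x : D, x ≠ 0 → (f x).det ≠ 0 := by
    intro x hx h0
    have h1 : f x * f x⁻¹ = 1 := by rw [← map_mul, mul_inv_cancel₀ hx, map_one]
    have h2 := congrArg Matrix.det h1
    rw [Matrix.det_mul, h0, zero_mul, Matrix.det_one] at h2
    exact zero_ne_one h2
  have hnrd : ∀ x : D, x ≠ 0 → star x = x →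
      ∃ ν : kˣ, (f x).det = algebraMap K (AlgebraicClosure K) (algebraMap k K ν) := by
    intro x hx0 hx
    obtain ⟨ν, hν⟩ := exists_nrd hn0 hdeg f x
    obtain ⟨ν', rfl⟩ := (hS.fix ν).mp (star_nrd hn0 hdeg hS.star_alg f hx hν)
    refine ⟨Units.mk0 ν' ?_, hν⟩
    rintro rfl
    rw [map_zero, map_zero] at hν
    exact hdet x hx0 hν
  obtain ⟨ν0, hν0⟩ := hnrd c0 h00 hc0
  obtain ⟨νe, hνe⟩ := hnrd e he0 he
  obtain ⟨V0, hV0⟩ := exists_ctrl hS.ns (νe * ν0)
  have hne : V0.Nonempty ∨ ∃ φ : k →+* ℝ, φ d < 0 := by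
    obtain ⟨p, hp, -, hpV⟩ := hV0.jet
    rcases p with v | φ
    · exact Or.inl ⟨v, hpV v rfl⟩
    · exact Or.inr ⟨φ, notMem_LSR.mp hp⟩
  obtain ⟨β, hli, hsplit, hreal⟩ := exists_beta hS hn0 hdeg hc0 hc2 h00 h20 hV0.fin hV0.nonsplit
    hne
  set z := c0⁻¹ * β * c2 * star β with hzdef
  have hc0z : c0 * z = β * c2 * star β := by
    rw [hzdef, ← mul_assoc, ← mul_assoc, ← mul_assoc, mul_inv_cancel₀ h00, one_mul]
  have hz : star z = c0 * z * c0⁻¹ := by
    rw [hc0z, hzdef, star_mul, star_mul, star_mul, star_star, hc2, star_inv₀, hc0]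
    simp only [mul_assoc]
  have hz0 : z ≠ 0 := by
    intro h0
    have h1 := hli.ne_zero ⟨1, by omega⟩
    apply h1
    change z ^ 1 = 0
    rw [h0, pow_one]
  obtain ⟨E, _, _, _, j, g, hjg, hgen⟩ := exists_gen (Module.finBasis k D) z
  obtain ⟨hmn, hmK⟩ := minpoly_map hS hn0 hdeg f h00 hz hli
  have hjinj : Function.Injective j := j.toRingHom.injective
  have hjp : ∀ p : k[X], j (aeval g p) = aeval z p := by
    intro p
    rw [← Polynomial.aeval_algHom_apply, hjg]
  have hgmin : minpoly k g = minpoly k z := by rw [← hjg, minpoly.algHom_eq j hjinj g]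
  have hfinE : FiniteDimensional k E := Module.Finite.of_injective j.toLinearMap hjinj
  have hE : finrank k E = n := by
    have h1 : IntermediateField.adjoin k {g} = ⊤ := by
      rw [eq_top_iff]
      intro l _
      obtain ⟨p, rfl⟩ := hgen l
      exact IntermediateField.algebra_adjoin_le_adjoin k {g} (by
        rw [Algebra.adjoin_singleton_eq_range_aeval]
        exact ⟨p, rfl⟩)
    have h2 : finrank k (IntermediateField.adjoin k {g}) = (minpoly k g).natDegree :=
      IntermediateField.adjoin.finrank (Algebra.IsIntegral.isIntegral g)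
    rw [h1, IntermediateField.finrank_top', hgmin, hmn] at h2
    exact h2
  have hstarj : ∀ x : E, star (j x) = c0 * j x * c0⁻¹ := by
    intro x
    obtain ⟨p, rfl⟩ := hgen x
    rw [hjp]
    exact star_aeval' hS h00 hz p
  -- the central element
  set S := algebraMap K D s with hSdef
  have hSc : ∀ x : D, S * x = x * S := fun x => Algebra.commutes s x
  have hSs : star S = -S := star_S hS
  have hSS : S * S = algebraMap k D d := by
    rw [hSdef, ← map_mul, ← pow_two, hS.sq, ← IsScalarTower.algebraMap_apply]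
  have hS0 : S ≠ 0 := (_root_.map_ne_zero (algebraMap K D)).mpr hS.s_ne
  have hD2 : (2 : D) ≠ 0 := by
    have : CharZero D := charZero_of_injective_algebraMap (algebraMap K D).injective
    exact two_ne_zero
  have hSne : S ≠ -S := by
    intro h
    apply hS0
    have h1 : (2 : D) * S = 0 := by rw [two_mul]; nth_rewrite 1 [h]; exact neg_add_cancel S
    exact (mul_eq_zero.mp h1).resolve_left hD2
  have hdE : ¬ IsSquare (algebraMap k E (d : k)) := by
    rintro ⟨r, hr⟩
    have h1 : (j r - S) * (j r + S) = 0 := by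
      have h2 : j r * j r = S * S := by
        rw [← map_mul, ← hr, AlgHom.commutes, hSS]
      rw [sub_mul, mul_add, mul_add, h2, hSc (j r)]
      abel
    have h3 : ∀ x : D, (x = S ∨ x = -S) → star x ≠ c0 * x * c0⁻¹ := by
      rintro x (rfl | rfl)
      · rw [hSs, ← hSc, mul_assoc, mul_inv_cancel₀ h00, mul_one]
        exact fun h => hSne h.symm
      · rw [star_neg, hSs, neg_neg, mul_neg, ← hSc, neg_mul, mul_assoc, mul_inv_cancel₀ h00,
          mul_one]
        exact hSne
    rcases mul_eq_zero.mp h1 with h | h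
    · exact h3 _ (Or.inl (sub_eq_zero.mp h)) (hstarj r)
    · exact h3 _ (Or.inr (eq_neg_of_add_eq_zero_left h)) (hstarj r)
  have hmonic : (minpoly k z).Monic := minpoly.monic (Algebra.IsIntegral.isIntegral z)
  have hroots : ∀ φ : k →+* ℝ, φ d < 0 → ∃ ρ : Fin n → ℝ, Function.Injective ρ ∧
      (minpoly k z).map φ = ∏ i, (X - C (ρ i)) := fun φ hφ =>
    hreal φ hφ _ hmonic hmn (minpoly.aeval k z)
  have hpsi : ∀ (φ : k →+* ℝ) (ρ : Fin n → ℝ), (minpoly k z).map φ = ∏ i, (X - C (ρ i)) →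
      ∀ i, ∃ ψ : E →+* ℝ, ψ.comp (algebraMap k E) = φ ∧
        ∀ p : k[X], ψ (aeval g p) = p.eval₂ φ (ρ i) := by
    intro φ ρ hρ i
    apply exists_psi_root hgen
    rw [hgmin, ← Polynomial.eval_map, hρ, eval_prod]
    apply Finset.prod_eq_zero (Finset.mem_univ i)
    rw [eval_sub, eval_X, eval_C, sub_self]
  obtain ⟨μ, hμN, hμpos⟩ := pnc (E := E) hdE hV0
    (fun v hv => hsplit v hv E g hE (by rw [hgmin]; exact hmn) (by rw [hgmin]; exact minpoly.aeval k z))
    (fun φ hφ => by
      obtain ⟨ρ, -, hρ⟩ := hroots φ hφ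
      obtain ⟨ψ, hψ, -⟩ := hpsi φ ρ hρ ⟨0, hn0⟩
      exact ⟨ψ, hψ⟩) 1
    (fun φ hφ => by
      rw [Units.val_one, map_one, map_one, one_mul, Units.val_mul, map_mul]
      obtain ⟨R, hR⟩ := exists_rdata_of (D := D) hS hn0 hdeg hφ
      exact nrd_pos hS hn0 hdeg f R hR (hsig R) hν0 hνe)
  have hμpos' : ∀ ψ : E →+* ℝ, ψ (algebraMap k E d) < 0 → 0 < ψ (μ : E) := by
    intro ψ hψ
    have := hμpos ψ hψ
    rwa [Units.val_one, map_one, mul_one] at this
  -- the plane represents `c0 * μ`
  have hg0 : g ≠ 0 := by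
    rintro rfl
    exact hz0 (by rw [← hjg, map_zero])
  obtain ⟨x, y, z', t, hμeq⟩ := Sch.quaternion_norm (F := E) (inc k E d)
    (Units.mk0 (-g) (neg_ne_zero.mpr hg0)) μ (fun ψ h1 _ => hμpos' ψ h1)
  rw [Units.val_mk0] at hμeq
  have hμeq' : (μ : E) = (x ^ 2 - algebraMap k E d * y ^ 2) +
      g * (z' ^ 2 - algebraMap k E d * t ^ 2) := by
    rw [hμeq]
    change x ^ 2 - algebraMap k E d * y ^ 2 - (-g) * z' ^ 2 + algebraMap k E d * (-g) * t ^ 2 = _
    ring
  have hnorm : ∀ a b : E, (j a + j b * S) * (j a - j b * S) =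
      j (a ^ 2 - algebraMap k E d * b ^ 2) := by
    intro a b
    have h1 : j b * S * (j b * S) = j (algebraMap k E d * b ^ 2) := by
      rw [map_mul, AlgHom.commutes, ← hSS, pow_two, map_mul]
      calc j b * S * (j b * S) = j b * (S * j b) * S := by simp only [mul_assoc]
        _ = j b * j b * (S * S) := by rw [hSc]; simp only [mul_assoc]
        _ = S * S * (j b * j b) := by rw [hSS, Algebra.commutes]
    have h2 : j a * (j b * S) = j b * S * j a := by
      rw [mul_assoc (j b), hSc, ← mul_assoc, ← mul_assoc, ← map_mul, ← map_mul, mul_comm a b]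
    rw [add_mul, mul_sub, mul_sub, h1, h2, map_sub, pow_two a, map_mul j a a]
    abel
  have hstarP : ∀ a b : E, star (j a + j b * S) = c0 * (j a - j b * S) * c0⁻¹ := by
    intro a b
    rw [star_add, star_mul, hstarj, hstarj, hSs, mul_sub, sub_mul, sub_eq_add_neg]
    congr 1
    rw [neg_mul, hSc]
    simp only [mul_assoc]
    rw [← hSc c0⁻¹]
  set P := j x + j y * S with hP
  set P' := j x - j y * S with hP'
  set Q := j z' + j t * S with hQ
  set Q' := j z' - j t * S with hQ'
  have hinvc : c0⁻¹ * c0 = 1 := inv_mul_cancel₀ h00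
  have hstarU : ∀ A A' : D, star A = c0 * A' * c0⁻¹ → star (c0 * A * c0⁻¹) = A' := by
    intro A A' hA
    rw [star_mul, star_mul, hA, star_inv₀, hc0]
    calc c0⁻¹ * (c0 * A' * c0⁻¹ * c0) = (c0⁻¹ * c0) * A' * (c0⁻¹ * c0) := by
          simp only [mul_assoc]
      _ = A' := by rw [hinvc, one_mul, mul_one]
  have hval : Bf.h ((c0 * P * c0⁻¹) • x0 + (c0 * Q * c0⁻¹ * β) • y0)
      ((c0 * P * c0⁻¹) • x0 + (c0 * Q * c0⁻¹ * β) • y0) = c0 * j μ := by
    rw [plane_value Bf hxy, ← hc0def, ← hc2def, hstarU P P' (hstarP x y), star_mul,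
      hstarU Q Q' (hstarP z' t), hμeq', map_add, map_mul, ← hnorm, ← hnorm, hjg]
    rw [← hP, ← hP', ← hQ, ← hQ', mul_add c0 (P * P') (z * (Q * Q'))]
    congr 1
    · calc c0 * P * c0⁻¹ * c0 * P' = c0 * P * (c0⁻¹ * c0) * P' := by simp only [mul_assoc]
        _ = c0 * (P * P') := by rw [hinvc, mul_one, mul_assoc]
    · have hzQ : z * Q = Q * z := by
        rw [← hjg, hQ, mul_add, add_mul, ← map_mul, mul_comm g z', map_mul]
        congr 1
        rw [← mul_assoc, ← map_mul, mul_comm g t, map_mul, mul_assoc, mul_assoc, hSc]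
      calc c0 * Q * c0⁻¹ * β * c2 * (star β * Q')
          = c0 * Q * (c0⁻¹ * β * c2 * star β) * Q' := by simp only [mul_assoc]
        _ = c0 * (Q * z) * Q' := by rw [← hzdef]; simp only [mul_assoc]
        _ = c0 * (z * (Q * Q')) := by rw [← hzQ]; simp only [mul_assoc]
  -- the comparison with `e`
  have hμ0 : j (μ : E) ≠ 0 := (_root_.map_ne_zero j).mpr μ.ne_zero
  obtain ⟨p, hp⟩ := hgen (μ : E)
  have hjμ : j (μ : E) = aeval z p := by rw [hp, hjp]
  have hsym : star (c0 * j (μ : E)) = c0 * j (μ : E) := by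
    rw [star_mul, hstarj, hc0, mul_assoc, hinvc, mul_one]
  have hdetμ : (f (c0 * j (μ : E))).det = algebraMap K (AlgebraicClosure K)
      (algebraMap k K (ν0 * Algebra.norm k (μ : E))) := by
    rw [map_mul, Matrix.det_mul, hν0, hjμ, det_sub hS hn0 hdeg f h00 hz hli hE hgmin p, ← hp,
      map_mul, map_mul]
  have hcongμ : ∀ R : RData K D n, R.CongAt (c0 * j (μ : E)) e := by
    intro R
    obtain ⟨φ, hφ, hφd⟩ := exists_phi hS R
    obtain ⟨ρ, hρi, hρ⟩ := hroots φ hφd
    refine cong_trans ?_ (hsig R)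
    rw [hjμ]
    refine cong_mul R hφ hc0 h00 hz (minpoly.aeval k z) hρi hρ (fun i => ?_) ?_
    · obtain ⟨ψ, hψ, hψp⟩ := hpsi φ ρ hρ i
      rw [eval_map, ← hψp, ← hp]
      apply hμpos'
      have h1 : ψ (algebraMap k E d) = φ d := RingHom.congr_fun hψ _
      rw [h1]
      exact hφd
    · rw [← hjμ]
      exact hμ0
  obtain ⟨t', ht'0, ht'⟩ := hR1 (AlgebraicClosure K) f (c0 * j (μ : E)) e hsym he
    (mul_ne_zero h00 hμ0) he0 (by
      obtain ⟨X', Y', hXY⟩ := hμN
      have hNμ : Algebra.norm k (μ : E) ≠ 0 := Algebra.norm_ne_zero_iff.mpr μ.ne_zero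
      have hXY' : Algebra.norm k (μ : E) * ((νe : k) * ν0) = X' ^ 2 - d * Y' ^ 2 := by
        rw [← hXY]
        rfl
      set w : K := (algebraMap k K X' + algebraMap k K Y' * s) *
        (algebraMap k K (ν0 * Algebra.norm k (μ : E)))⁻¹ with hw
      have hfixk : ∀ a : k, star (algebraMap k K a) = algebraMap k K a := fun a =>
        (hS.fix _).mpr ⟨a, rfl⟩
      have hD0 : algebraMap k K (ν0 * Algebra.norm k (μ : E)) ≠ 0 :=
        (_root_.map_ne_zero _).mpr (mul_ne_zero ν0.ne_zero hNμ)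
      have hws : w * star w = algebraMap k K νe *
          (algebraMap k K (ν0 * Algebra.norm k (μ : E)))⁻¹ := by
        have h1 : star w = (algebraMap k K X' - algebraMap k K Y' * s) *
            (algebraMap k K (ν0 * Algebra.norm k (μ : E)))⁻¹ := by
          rw [hw, star_mul', star_inv₀, star_add, star_mul', hfixk, hfixk, hfixk, hS.star_s,
            mul_neg, sub_eq_add_neg]
        have h2 : (algebraMap k K X' + algebraMap k K Y' * s) *
            (algebraMap k K X' - algebraMap k K Y' * s) =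
            algebraMap k K (Algebra.norm k (μ : E) * ((νe : k) * ν0)) := by
          rw [hXY', map_sub, map_mul, map_pow, map_pow, ← hS.sq]
          ring
        rw [h1, hw]
        field_simp
        rw [h2, map_mul, map_mul, map_mul]
        ring
      refine ⟨w, ?_, ?_⟩
      · intro h0
        rw [h0, zero_mul] at hws
        exact mul_ne_zero ((_root_.map_ne_zero _).mpr νe.ne_zero) (inv_ne_zero hD0) hws.symm
      · rw [hνe, hdetμ, ← map_mul, hws, mul_assoc, inv_mul_cancel₀ hD0, mul_one]) hcongμ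
  refine ⟨t' • ((c0 * P * c0⁻¹) • x0 + (c0 * Q * c0⁻¹ * β) • y0), ?_⟩
  rw [Bf.smul_left, Bf.smul_right, hval, ht']
  simp only [mul_assoc]

end main

section final

variable {K D : Type} [Field K] [NumberField K] [StarRing K] [DivisionRing D] [StarRing D]
  [Algebra K D] [StarModule K D] [FiniteDimensional K D] [Algebra.IsCentral K D]

open Vale.Agent.P011S in
/-- Anisotropic hermitian forms of rank at least two over a division algebra of arbitrary degree
represent every element which has the signatures of one of their values. -/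
theorem hasR2 (hK : ∃ k : K, star k ≠ k) {n : ℕ} (hn : 0 < n) (hdeg : finrank K D = n ^ 2) :
    HasR2 K D n := by
  rcases Nat.lt_or_ge 1 n with h1 | h1
  · have hR1 : HasR1 K D n := hasR1 hK hn hdeg
    obtain ⟨k0, hk0⟩ := hK
    have hθ0 : k0 - star k0 ≠ 0 := sub_ne_zero.mpr (Ne.symm hk0)
    have hθ : star (k0 - star k0) = -(k0 - star k0) := by rw [star_sub, star_star, neg_sub]
    let _ := algFK (K := K) (D := D)
    have _ : IsScalarTower (FK K) K D := IsScalarTower.of_algebraMap_eq fun _ => rfl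
    have hS : Setting (FK K) K D (sqU hθ0 hθ) (k0 - star k0) := setting hθ0 hθ
    exact r2_aux hS h1 hdeg hR1
  · have h2 : n = 1 := by omega
    subst h2
    exact RP.hasR2_odd hK odd_one hdeg

end final

end Vale.Agent.P011.Even
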