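import Vale.Agent.P011.RP.Odd

/-!
Pairs of hermitian matrices over a quadratic extension.
-/

open Module Matrix Polynomial
open Vale.Agent.P011.T2

namespace Vale.Agent.P011.Even

section

variable {L : Type} [Field L] [StarRing L]

/-- the hermitian form attached to a matrix -/
def rowHF {n : ℕ} (H : Matrix (Fin n) (Fin n) L) (hH : Hᴴ = H) : HF L (Fin n → L) where
  h x y := ∑ i, ∑ j, x i * H i j * star (y j)
  add_left x y z := by
    simp only [Pi.add_apply, add_mul, Finset.sum_add_distrib]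
  smul_left c x y := by
    simp only [Pi.smul_apply, smul_eq_mul, Finset.mul_sum, mul_assoc]
  star_h x y := by
    rw [star_sum]
    simp only [star_sum]
    rw [Finset.sum_comm]
    refine Finset.sum_congr rfl fun i _ => Finset.sum_congr rfl fun j _ => ?_
    have h1 : star (H j i) = H i j := by
      conv_rhs => rw [← hH]
      rfl
    rw [star_mul', star_mul', star_star, h1]
    ring

theorem rowHF_nondeg {n : ℕ} (H : Matrix (Fin n) (Fin n) L) (hH : Hᴴ = H) (hd : H.det ≠ 0) :
    (rowHF H hH).Nondeg := by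
  intro x hx
  apply Matrix.eq_zero_of_vecMul_eq_zero hd
  ext j
  have h1 := hx (Pi.single j 1)
  change ∑ i, ∑ l, x i * H i l * star ((Pi.single j 1 : Fin n → L) l) = 0 at h1
  rw [Matrix.vecMul, dotProduct, Pi.zero_apply, ← h1]
  refine Finset.sum_congr rfl fun i _ => ?_
  rw [Finset.sum_eq_single j]
  · rw [Pi.single_eq_same, star_one, mul_one]
  · intro k _ hk
    rw [Pi.single_eq_of_ne hk, star_zero, mul_zero]
  · intro h; exact absurd (Finset.mem_univ _) h

variable {F : Type} [Field F] [CharZero L] [Algebra F L] {d : F}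

theorem exists_diag (hQ : QuadL F L d) {n : ℕ} (H : Matrix (Fin n) (Fin n) L) (hH : Hᴴ = H)
    (hd : H.det ≠ 0) : ∃ (P : Matrix (Fin n) (Fin n) L) (δ : Fin n → Fˣ), IsUnit P ∧
      P * H * Pᴴ = Matrix.diagonal (fun i => algebraMap F L (δ i)) := by
  obtain ⟨w, hw1, hw2⟩ := RP.exists_orth_basis hQ n (Fin n → L) (rowHF H hH)
    (rowHF_nondeg H hH hd) (Module.finrank_fin_fun L)
  choose δ hδ using fun i => hQ.fix _ ((rowHF H hH).star_h (w i) (w i))
  have hδ0 : ∀ i, δ i ≠ 0 := by
    intro i h0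
    apply hw2 i
    rw [← hδ, h0, map_zero]
  let P : Matrix (Fin n) (Fin n) L := Matrix.of fun i => w i
  refine ⟨P, fun i => Units.mk0 (δ i) (hδ0 i), ?_, ?_⟩
  · have h1 : P.transpose = (Pi.basisFun L (Fin n)).toMatrix w := by
      ext i j
      rw [Matrix.transpose_apply, Basis.toMatrix_apply, Pi.basisFun_repr]
      rfl
    rw [← Matrix.isUnit_transpose, h1]
    exact ⟨⟨_, _, (Pi.basisFun L (Fin n)).toMatrix_mul_toMatrix_flip w,
      w.toMatrix_mul_toMatrix_flip (Pi.basisFun L (Fin n))⟩, rfl⟩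
  · ext i j
    have h1 : (P * H * Pᴴ) i j = (rowHF H hH).h (w i) (w j) := by
      rw [Matrix.mul_apply]
      simp only [Matrix.mul_apply, Finset.sum_mul, Matrix.conjTranspose_apply]
      rw [Finset.sum_comm]
      rfl
    rw [h1, Matrix.diagonal_apply]
    split_ifs with hij
    · subst hij
      rw [← hδ]
      rfl
    · exact hw1 i j hij

omit [StarRing L] [CharZero L] in
theorem aeval_diagonal {n : ℕ} (e : Fin n → L) (p : L[X]) :
    aeval (Matrix.diagonal e) p = Matrix.diagonal fun i => p.eval (e i) := by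
  induction p using Polynomial.induction_on' with
  | add p q hp hq =>
    rw [map_add, hp, hq, Matrix.diagonal_add]
    congr 1
    funext i
    rw [eval_add]
  | monomial m a =>
    rw [aeval_monomial, Matrix.diagonal_pow, Matrix.algebraMap_eq_diagonal,
      Matrix.diagonal_mul_diagonal]
    congr 1
    funext i
    rw [eval_monomial]
    rfl

omit [StarRing L] [CharZero L] in
theorem aeval_conj {n : ℕ} {Z Q Δ : Matrix (Fin n) (Fin n) L} (h : Z * Q = Q * Δ) (p : L[X]) :
    aeval Z p * Q = Q * aeval Δ p := by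
  induction p using Polynomial.induction_on' with
  | add p q hp hq => rw [map_add, map_add, add_mul, mul_add, hp, hq]
  | monomial m a =>
    have h1 : Z ^ m * Q = Q * Δ ^ m := by
      induction m with
      | zero => simp
      | succ m ih => rw [pow_succ, mul_assoc, h, ← mul_assoc, ih, mul_assoc, ← pow_succ]
    rw [aeval_monomial, aeval_monomial, mul_assoc, h1, ← mul_assoc, ← mul_assoc,
      Algebra.commutes a Q]

omit [StarRing L] [CharZero L] in
/-- A matrix with different eigenvalues. -/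
theorem of_conj_diagonal {n : ℕ} {Z Q : Matrix (Fin n) (Fin n) L} {e : Fin n → L}
    (he : Function.Injective e) (hQ : IsUnit Q) (h : Z * Q = Q * Matrix.diagonal e) :
    LinearIndependent L (fun i : Fin n => Z ^ (i : ℕ)) ∧
      aeval Z (∏ i, (X - C (e i))) = 0 := by
  constructor
  · rw [Fintype.linearIndependent_iff]
    intro a ha
    let p : L[X] := ∑ i : Fin n, C (a i) * X ^ (i : ℕ)
    have hp : aeval Z p = 0 := by
      rw [← ha, map_sum]
      refine Finset.sum_congr rfl fun i _ => ?_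
      rw [map_mul, aeval_C, map_pow, aeval_X, Algebra.smul_def]
    have h1 : Q * aeval (Matrix.diagonal e) p = 0 := by
      rw [← aeval_conj h, hp, zero_mul]
    have h2 : aeval (Matrix.diagonal e) p = 0 := hQ.mul_left_cancel (by rw [h1, mul_zero])
    rw [aeval_diagonal] at h2
    have hp0 : p = 0 := by
      rcases Nat.eq_zero_or_pos n with h0 | h0
      · subst h0
        exact Finset.sum_empty
      apply Polynomial.eq_zero_of_natDegree_lt_card_of_eval_eq_zero p he
      · intro i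
        have h3 := congrFun (congrFun h2 i) i
        rwa [Matrix.diagonal_apply_eq, Matrix.zero_apply] at h3
      · rw [Fintype.card_fin]
        refine lt_of_le_of_lt (natDegree_sum_le_of_forall_le (n := n - 1) _ _ fun i _ => ?_)
          (Nat.sub_lt h0 one_pos)
        exact (natDegree_C_mul_X_pow_le _ _).trans (by omega)
    intro i
    have h3 := congrArg (fun q : L[X] => q.coeff (i : ℕ)) hp0
    simp only [p, finsetSum_coeff, coeff_C_mul, coeff_X_pow, coeff_zero] at h3
    rw [Finset.sum_eq_single i] at h3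
    · simpa using h3
    · intro j _ hj
      rw [if_neg (fun h => hj (Fin.ext h.symm)), mul_zero]
    · intro h; exact absurd (Finset.mem_univ i) h
  · apply hQ.mul_right_cancel
    rw [aeval_conj h, aeval_diagonal, zero_mul]
    have h1 : (fun i => eval (e i) (∏ i, (X - C (e i)))) = 0 := by
      funext i
      rw [eval_prod]
      apply Finset.prod_eq_zero (Finset.mem_univ i)
      rw [eval_sub, eval_X, eval_C, sub_self]
    rw [h1]
    have h2 : Matrix.diagonal (0 : Fin n → L) = 0 := Matrix.diagonal_zero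
    rw [h2, mul_zero]

/-- Two hermitian matrices can be brought into a position where the quotient has prescribed
different eigenvalues. -/
theorem diag_pair (hQ : QuadL F L d) {n : ℕ} (H0 H2 : Matrix (Fin n) (Fin n) L) (h0 : H0ᴴ = H0)
    (h2 : H2ᴴ = H2) (hd0 : H0.det ≠ 0) (hd2 : H2.det ≠ 0) :
    ∃ ρ : Fin n → Fˣ, ∀ l : Fin n → Fˣ, Function.Injective (fun i => ρ i * l i ^ 2) →
      ∃ Y : Matrix (Fin n) (Fin n) L,
        LinearIndependent L (fun i : Fin n => (H0⁻¹ * Y * H2 * Yᴴ) ^ (i : ℕ)) ∧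
        aeval (H0⁻¹ * Y * H2 * Yᴴ)
          (∏ i, (X - C (algebraMap F L (ρ i * l i ^ 2 : Fˣ)))) = 0 := by
  obtain ⟨P0, δ0, ⟨U0, rfl⟩, hδ0⟩ := exists_diag hQ H0 h0 hd0
  obtain ⟨P2, δ2, ⟨U2, rfl⟩, hδ2⟩ := exists_diag hQ H2 h2 hd2
  refine ⟨fun i => δ2 i / δ0 i, fun l hl => ?_⟩
  let Λ : Matrix (Fin n) (Fin n) L := Matrix.diagonal fun i => algebraMap F L (l i)
  have hΛ : Λᴴ = Λ := by
    rw [Matrix.diagonal_conjTranspose]
    congr 1
    funext i
    exact hQ.fix' _
  let V0 : Matrix (Fin n) (Fin n) L := ((U0⁻¹ : (Matrix (Fin n) (Fin n) L)ˣ) : _)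
  have hV0 : V0 * U0 = 1 := U0.inv_mul
  have hV0' : (U0 : Matrix (Fin n) (Fin n) L) * V0 = 1 := U0.mul_inv
  have hV0h : (U0 : Matrix (Fin n) (Fin n) L)ᴴ * V0ᴴ = 1 := by
    rw [← Matrix.conjTranspose_mul, hV0, Matrix.conjTranspose_one]
  have hV0h' : V0ᴴ * (U0 : Matrix (Fin n) (Fin n) L)ᴴ = 1 := by
    rw [← Matrix.conjTranspose_mul, hV0', Matrix.conjTranspose_one]
  let Δ0i : Matrix (Fin n) (Fin n) L := Matrix.diagonal fun i => (algebraMap F L (δ0 i))⁻¹
  have hne : ∀ u : Fˣ, algebraMap F L u ≠ 0 := fun u => (_root_.map_ne_zero _).mpr u.ne_zero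
  have hΔ0 : Δ0i * Matrix.diagonal (fun i => algebraMap F L (δ0 i)) = 1 := by
    rw [Matrix.diagonal_mul_diagonal, ← Matrix.diagonal_one]
    congr 1
    funext i
    exact inv_mul_cancel₀ (hne _)
  have hinv : H0⁻¹ = (U0 : Matrix (Fin n) (Fin n) L)ᴴ * Δ0i * U0 := by
    apply Matrix.inv_eq_left_inv
    have h1 : H0 = V0 * Matrix.diagonal (fun i => algebraMap F L (δ0 i)) * V0ᴴ := by
      rw [← hδ0]
      calc H0 = (V0 * U0) * H0 * ((U0 : Matrix (Fin n) (Fin n) L)ᴴ * V0ᴴ) := by
            rw [hV0, hV0h, one_mul, mul_one]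
        _ = _ := by simp only [mul_assoc]
    rw [h1]
    calc (U0 : Matrix (Fin n) (Fin n) L)ᴴ * Δ0i * U0 *
          (V0 * Matrix.diagonal (fun i => algebraMap F L (δ0 i)) * V0ᴴ)
        = (U0 : Matrix (Fin n) (Fin n) L)ᴴ * (Δ0i * ((U0 * V0) *
          Matrix.diagonal (fun i => algebraMap F L (δ0 i)))) * V0ᴴ := by simp only [mul_assoc]
      _ = 1 := by rw [hV0', one_mul, hΔ0, mul_one, hV0h]
  refine ⟨V0 * Λ * U2, of_conj_diagonal (Q := (U0 : Matrix (Fin n) (Fin n) L)ᴴ) ?_ ?_ ?_⟩
  · intro i j hij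
    exact hl (Units.ext ((algebraMap F L).injective hij))
  · exact ⟨⟨_, _, hV0h, hV0h'⟩, rfl⟩
  · rw [hinv, Matrix.conjTranspose_mul, Matrix.conjTranspose_mul, hΛ]
    calc (U0 : Matrix (Fin n) (Fin n) L)ᴴ * Δ0i * U0 * (V0 * Λ * U2) * H2 *
          ((U2 : Matrix (Fin n) (Fin n) L)ᴴ * (Λ * V0ᴴ)) * (U0 : Matrix (Fin n) (Fin n) L)ᴴ
        = (U0 : Matrix (Fin n) (Fin n) L)ᴴ * (Δ0i * ((U0 * V0) * (Λ * (U2 * H2 *
          (U2 : Matrix (Fin n) (Fin n) L)ᴴ) * (Λ * (V0ᴴ *
            (U0 : Matrix (Fin n) (Fin n) L)ᴴ))))) := by simp only [mul_assoc]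
      _ = _ := by
        rw [hV0', one_mul, hV0h', mul_one, hδ2, Matrix.diagonal_mul_diagonal,
          Matrix.diagonal_mul_diagonal, Matrix.diagonal_mul_diagonal]
        congr 2
        funext i
        rw [Units.val_mul, Units.val_div_eq_div_val, Units.val_pow_eq_pow_val, map_mul, map_div₀,
          map_pow]
        have := hne (δ0 i)
        field_simp

end

end Vale.Agent.P011.Even
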