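import Vale.Agent.P011.Even.LocFin
import Vale.Agent.P011.Even.DiagPair

/-!
The local matrix model of a division algebra with an involution of the second kind, and values of
hermitian forms with split minimal polynomials.
-/

namespace Vale.Agent.P011.Even

open Polynomial Matrix TensorProduct NumberField IsDedekindDomain

/-- The local model at a nonsplit finite place. -/
theorem exists_local_model {k K D : Type} [Field k] [NumberField k] [Field K] [StarRing K]
    [DivisionRing D] [StarRing D] [Algebra k K] [Algebra k D] [Algebra K D] [IsScalarTower k K D]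
    {d : kˣ} {s : K} (hS : Setting k K D d s) {n : ℕ}
    (hn : Module.finrank K D = n ^ 2)
    (v : HeightOneSpectrum (𝓞 k)) (hv : d ∉ Arith.LS (v.valuation k)) :
    ∃ (L : Type) (_ : Field L) (_ : Algebra (v.adicCompletion k) L) (_ : StarRing L)
      (ρ : v.adicCompletion k ⊗[k] D ≃ₐ[v.adicCompletion k] Matrix (Fin n) (Fin n) L)
      (G : Matrix (Fin n) (Fin n) L),
      (∀ x : L, star x = x ↔ x ∈ Set.range (algebraMap (v.adicCompletion k) L)) ∧
      Module.finrank (v.adicCompletion k) L = 2 ∧ IsUnit G ∧ Gᴴ = G ∧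
      ∀ T, G * ρ (hS.sig.baseChange (v.adicCompletion k) T) = (ρ T)ᴴ * G := by
  have := hS.fin
  have := hS.cen
  have : CharZero K := charZero_of_injective_algebraMap (algebraMap k K).injective
  have hfk := hS.fin_k
  have hd : ¬ IsSquare (algebraMap k (v.adicCompletion k) (d : k)) := fun h0 =>
    hv ((isSquare_iff v d).mp h0)
  let _ := nnf v
  have := isUltra v
  let F := v.adicCompletion k
  have hσ : ∀ x, hS.sig x = star x := fun x => rfl
  have hss : star (algebraMap K D s) = -algebraMap K D s := by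
    rw [hS.star_alg, hS.star_s, map_neg]
  have SK := LocSimple.secondKind_tensor (F := F) hS.sq hS.span hd hS.sig hσ hss
  have : IsSimpleRing (F ⊗[k] D) := LocSimple.simple_tensor hS.sq hS.span hd
  let dF : F := algebraMap k F (d : k)
  have := fact_of_not_square hd
  let L := QuadraticAlgebra F dF 0
  let sL : L := ⟨0, 1⟩
  have hsL : sL ^ 2 = algebraMap F L dF := omega_sq' dF
  have hL2 : Module.finrank F L = 2 := QuadraticAlgebra.finrank_eq_two _ _
  obtain ⟨m, ρ, hρ⟩ := SK.split (indexTwo v) L sL hL2 hsL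
  -- the degree
  have hmn : m = n := by
    have h1 := ρ.toLinearEquiv.finrank_eq
    have h2 : Module.finrank k D = 2 * n ^ 2 := by
      have := hS.rank
      have h3 := Module.finrank_mul_finrank k K D
      rw [hS.rank, hn] at h3
      exact h3.symm
    rw [Module.finrank_baseChange, h2, Module.finrank_matrix, Fintype.card_fin, hL2] at h1
    have h4 : m ^ 2 = n ^ 2 := by
      have : m ^ 2 = m * m := pow_two m
      omega
    exact Nat.pow_left_injective two_ne_zero h4
  subst hmn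
  have SK' := SK.transport ρ
  rw [hρ] at SK'
  have hstarF : ∀ a : F, star (algebraMap F L a) = algebraMap F L a := fun a =>
    (fix_qa _).mpr ⟨a, rfl⟩
  have hsc : ∀ c : L, (ρ.toLinearMap ∘ₗ hS.sig.baseChange F ∘ₗ ρ.symm.toLinearMap)
      (Matrix.scalar (Fin m) c) = Matrix.scalar (Fin m) (star c) := by
    intro c
    have hscal : ∀ a : F, Matrix.scalar (Fin m) (algebraMap F L a) =
      algebraMap F (Matrix (Fin m) (Fin m) L) a := fun a => rfl
    obtain ⟨a, b, hab⟩ := span_qa c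
    have h1 : c = algebraMap F L a + algebraMap F L b * sL := hab
    rw [h1, map_add, map_mul, hscal, hscal, map_add, SK'.mul, SK'.map_alg, SK'.map_alg, SK'.neg,
      star_add, star_mul', hstarF, hstarF, star_omega, map_add, map_mul, hscal, hscal,
      map_neg, neg_mul, ← Algebra.commutes b, mul_neg]
  obtain ⟨G, hGu, hGs, hG⟩ := exists_gram F L fix_qa hL2
    (ρ.toLinearMap ∘ₗ hS.sig.baseChange F ∘ₗ ρ.symm.toLinearMap) SK'.mul SK'.invol hsc
  refine ⟨L, inferInstance, inferInstance, inferInstance, ρ, G, fix_qa, hL2, hGu, hGs, ?_⟩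
  intro T
  have := hG (ρ T)
  simp only [LinearMap.comp_apply, AlgEquiv.toLinearMap_apply, AlgEquiv.symm_apply_apply] at this
  exact this

theorem exists_quadL {F L : Type} [Field F] [CharZero F] [Field L] [Algebra F L] [StarRing L]
    (hfix : ∀ x : L, star x = x ↔ x ∈ Set.range (algebraMap F L))
    (hL : Module.finrank F L = 2) : ∃ d : F, T2.QuadL F L d := by
  have : CharZero L := charZero_of_injective_algebraMap (algebraMap F L).injective
  obtain ⟨s, hs0, hs⟩ : ∃ s : L, s ≠ 0 ∧ star s = -s := by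
    by_contra hcon
    push Not at hcon
    have h1 : ∀ x : L, star x = x := by
      intro x
      by_contra hx
      apply hcon (x - star x) (fun h => hx (sub_eq_zero.mp h).symm)
      rw [star_sub, star_star, neg_sub]
    have h2 : Function.Surjective (algebraMap F L) := fun x => (hfix x).mp (h1 x)
    have h3 : Module.finrank F L = 1 := by
      rw [finrank_eq_one_iff']
      refine ⟨1, one_ne_zero, fun w => ?_⟩
      obtain ⟨c, rfl⟩ := h2 w
      exact ⟨c, by rw [Algebra.smul_def, mul_one]⟩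
    omega
  obtain ⟨d, hd⟩ := (hfix (s ^ 2)).mp (by rw [star_pow, hs, neg_sq])
  exact ⟨d, fun x hx => (hfix x).mp hx, fun e => (hfix _).mpr ⟨e, rfl⟩, s, hs0, hs, hd.symm⟩

/-- Injective choice from infinite sets. -/
theorem exists_injective_choice {α : Type} : ∀ (n : ℕ) (S : Fin n → Set α), (∀ i, (S i).Infinite) →
    ∃ r : Fin n → α, Function.Injective r ∧ ∀ i, r i ∈ S i := by
  intro n
  induction n with
  | zero => exact fun S _ => ⟨fun i => i.elim0, fun i => i.elim0, fun i => i.elim0⟩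
  | succ n ih =>
    intro S hS
    obtain ⟨r, hr, hrS⟩ := ih (fun i => S i.succ) fun i => hS i.succ
    obtain ⟨a, ha, har⟩ := ((hS 0).sdiff (Set.finite_range r)).nonempty
    refine ⟨Fin.cons a r, ?_, ?_⟩
    · rw [Fin.cons_injective_iff]
      exact ⟨har, hr⟩
    · intro i
      refine Fin.cases ?_ (fun j => ?_) i
      · exact ha
      · exact hrS j

theorem infinite_sq {k : Type} [Field k] [CharZero k] (a : kˣ) :
    (Set.range fun m : kˣ => a * m ^ 2).Infinite := by
  let g : ℕ → kˣ := fun i => a * (Units.mk0 ((i : k) + 1) (by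
    have : ((i + 1 : ℕ) : k) ≠ 0 := Nat.cast_ne_zero.mpr (Nat.succ_ne_zero i)
    rwa [Nat.cast_succ] at this)) ^ 2
  refine Set.Infinite.mono (s := Set.range g) ?_ (Set.infinite_range_of_injective ?_)
  · rintro _ ⟨i, rfl⟩
    exact ⟨_, rfl⟩
  · intro i j hij
    have h1 := congrArg Units.val (mul_left_cancel hij)
    rw [Units.val_pow_eq_pow_val, Units.val_pow_eq_pow_val, Units.val_mk0, Units.val_mk0] at h1
    have h2 : (((i + 1) ^ 2 : ℕ) : k) = (((j + 1) ^ 2 : ℕ) : k) := by
      push_cast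
      exact h1
    have h3 := Nat.cast_injective h2
    have h4 := Nat.pow_left_injective two_ne_zero h3
    omega

/-- Values of hermitian forms with split minimal polynomials at a nonsplit finite place. -/
theorem loc_split {k K D : Type} [Field k] [NumberField k] [Field K] [StarRing K]
    [DivisionRing D] [StarRing D] [Algebra k K] [Algebra k D] [Algebra K D] [IsScalarTower k K D]
    {d : kˣ} {s : K} (hS : Setting k K D d s) {n : ℕ}
    (hn : Module.finrank K D = n ^ 2)
    (v : HeightOneSpectrum (𝓞 k)) (hv : d ∉ Arith.LS (v.valuation k)) {c0 c2 : D}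
    (h0 : star c0 = c0) (h2 : star c2 = c2) (h00 : c0 ≠ 0) (h20 : c2 ≠ 0) :
    ∃ (r : Fin n → k) (T : v.adicCompletion k ⊗[k] D), Function.Injective r ∧
      LinearIndependent (v.adicCompletion k) (fun i : Fin n => ((1 ⊗ₜ c0⁻¹) * T * (1 ⊗ₜ c2) *
        hS.sig.baseChange (v.adicCompletion k) T) ^ (i : ℕ)) ∧
      Polynomial.aeval ((1 ⊗ₜ c0⁻¹) * T * (1 ⊗ₜ c2) *
        hS.sig.baseChange (v.adicCompletion k) T)
          (∏ i, (X - C (algebraMap k (v.adicCompletion k) (r i)))) = 0 := by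
  let F := v.adicCompletion k
  obtain ⟨L, _, _, _, ρ, G, hfix, hL2, hGu, hGs, hG⟩ := exists_local_model hS hn v hv
  have hσ : ∀ x, hS.sig x = star x := fun x => rfl
  have hGd : IsUnit G.det := (Matrix.isUnit_iff_isUnit_det G).mp hGu
  have hGG : G * G⁻¹ = 1 := Matrix.mul_nonsing_inv _ hGd
  have hGG' : G⁻¹ * G = 1 := Matrix.nonsing_inv_mul _ hGd
  have hGis : (G⁻¹)ᴴ = G⁻¹ := by rw [Matrix.conjTranspose_nonsing_inv, hGs]
  have hunit : ∀ c : D, c ≠ 0 → ρ (1 ⊗ₜ c) * ρ (1 ⊗ₜ c⁻¹) = 1 := by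
    intro c hc
    rw [← map_mul, Algebra.TensorProduct.tmul_mul_tmul, one_mul, mul_inv_cancel₀ hc,
      ← Algebra.TensorProduct.one_def, map_one]
  have hdet : ∀ c : D, c ≠ 0 → (ρ (1 ⊗ₜ c)).det ≠ 0 := by
    intro c hc hd0
    have h1 := congrArg Matrix.det (hunit c hc)
    rw [Matrix.det_mul, hd0, zero_mul, Matrix.det_one] at h1
    exact zero_ne_one h1
  have hherm : ∀ c : D, star c = c → (ρ (1 ⊗ₜ c) * G⁻¹)ᴴ = ρ (1 ⊗ₜ c) * G⁻¹ := by
    intro c hc
    have h1 := hG (1 ⊗ₜ c)
    rw [LinearMap.baseChange_tmul, hσ, hc] at h1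
    rw [Matrix.conjTranspose_mul, hGis]
    calc G⁻¹ * (ρ (1 ⊗ₜ c))ᴴ = G⁻¹ * ((ρ (1 ⊗ₜ c))ᴴ * G) * G⁻¹ := by
          rw [Matrix.mul_assoc G⁻¹, Matrix.mul_assoc _ G, hGG, Matrix.mul_one]
      _ = G⁻¹ * (G * ρ (1 ⊗ₜ c)) * G⁻¹ := by rw [h1]
      _ = ρ (1 ⊗ₜ c) * G⁻¹ := by rw [← Matrix.mul_assoc, hGG', Matrix.one_mul]
  have hGid : (G⁻¹).det ≠ 0 := by
    intro h
    have h1 := congrArg Matrix.det hGG
    rw [Matrix.det_mul, h, mul_zero, Matrix.det_one] at h1
    exact zero_ne_one h1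
  obtain ⟨dL, hQ⟩ := exists_quadL hfix hL2
  have : CharZero L := charZero_of_injective_algebraMap (algebraMap F L).injective
  obtain ⟨ρ', hρ'⟩ := diag_pair hQ (ρ (1 ⊗ₜ c0) * G⁻¹) (ρ (1 ⊗ₜ c2) * G⁻¹)
    (hherm c0 h0) (hherm c2 h2) (by rw [Matrix.det_mul]; exact mul_ne_zero (hdet c0 h00) hGid)
    (by rw [Matrix.det_mul]; exact mul_ne_zero (hdet c2 h20) hGid)
  choose a u hau using fun i => exists_global' v (ρ' i)
  obtain ⟨r, hr, hrm⟩ := exists_injective_choice n
    (fun i => Set.range fun m : kˣ => a i * m ^ 2) fun i => infinite_sq (a i)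
  choose m hm using hrm
  have hl : ∀ i, ρ' i * (iu v (m i) * (u i)⁻¹) ^ 2 = iu v (r i) := by
    intro i
    rw [← hm i, hau i, map_mul, map_pow, mul_pow, inv_pow]
    calc iu v (a i) * u i ^ 2 * (iu v (m i) ^ 2 * (u i ^ 2)⁻¹)
        = iu v (a i) * iu v (m i) ^ 2 * (u i ^ 2 * (u i ^ 2)⁻¹) := by
          simp only [mul_comm, mul_assoc, mul_left_comm]
      _ = iu v (a i) * iu v (m i) ^ 2 := by rw [mul_inv_cancel, mul_one]
  obtain ⟨X, hX, hX'⟩ := hρ' (fun i => iu v (m i) * (u i)⁻¹) (by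
    intro i j hij
    simp only [hl] at hij
    have h1 := congrArg Units.val hij
    exact hr (Units.ext ((algebraMap k F).injective h1)))
  simp only [hl] at hX'
  set Y := (ρ (1 ⊗ₜ c0) * G⁻¹)⁻¹ * X * (ρ (1 ⊗ₜ c2) * G⁻¹) * Xᴴ with hY
  let φ : Matrix (Fin n) (Fin n) L →ₐ[F] F ⊗[k] D :=
    { toFun := fun M => ρ.symm (G⁻¹ * M * G)
      map_one' := by rw [Matrix.mul_one, hGG', map_one]
      map_mul' := fun M N => by
        rw [← map_mul]
        congr 1
        calc G⁻¹ * (M * N) * G = G⁻¹ * M * (G * G⁻¹) * N * G := by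
              rw [hGG, Matrix.mul_one, ← Matrix.mul_assoc]
          _ = G⁻¹ * M * G * (G⁻¹ * N * G) := by simp only [Matrix.mul_assoc]
      map_zero' := by rw [Matrix.mul_zero, Matrix.zero_mul, map_zero]
      map_add' := fun M N => by rw [Matrix.mul_add, Matrix.add_mul, map_add]
      commutes' := fun c => by
        change ρ.symm (G⁻¹ * algebraMap F _ c * G) = _
        rw [← Algebra.commutes c G⁻¹, Matrix.mul_assoc, hGG', Matrix.mul_one,
          AlgEquiv.commutes] }
  have hW : (1 ⊗ₜ c0⁻¹) * ρ.symm X * (1 ⊗ₜ c2) * hS.sig.baseChange F (ρ.symm X) = φ Y := by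
    apply ρ.injective
    change _ = ρ (ρ.symm (G⁻¹ * Y * G))
    rw [AlgEquiv.apply_symm_apply, map_mul, map_mul, map_mul, AlgEquiv.apply_symm_apply]
    have h1 : ρ (hS.sig.baseChange F (ρ.symm X)) = G⁻¹ * (Xᴴ * G) := by
      have := hG (ρ.symm X)
      rw [AlgEquiv.apply_symm_apply] at this
      rw [← this, ← Matrix.mul_assoc, hGG', Matrix.one_mul]
    have h3 : (ρ (1 ⊗ₜ c0) * G⁻¹)⁻¹ = G * ρ (1 ⊗ₜ c0⁻¹) := by
      apply Matrix.inv_eq_right_inv
      rw [Matrix.mul_assoc, ← Matrix.mul_assoc G⁻¹, hGG', Matrix.one_mul, hunit c0 h00]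
    rw [h1, hY, h3]
    calc ρ (1 ⊗ₜ c0⁻¹) * X * ρ (1 ⊗ₜ c2) * (G⁻¹ * (Xᴴ * G))
        = (G⁻¹ * G) * (ρ (1 ⊗ₜ c0⁻¹) * X * ρ (1 ⊗ₜ c2) * (G⁻¹ * (Xᴴ * G))) := by
          rw [hGG', Matrix.one_mul]
      _ = G⁻¹ * (G * ρ (1 ⊗ₜ c0⁻¹) * X * (ρ (1 ⊗ₜ c2) * G⁻¹) * Xᴴ) * G := by
          simp only [Matrix.mul_assoc]
  refine ⟨fun i => r i, ρ.symm X, fun i j hij => hr (Units.ext hij), ?_, ?_⟩
  · have h1 : LinearIndependent F (fun i : Fin n => Y ^ (i : ℕ)) := by
      refine hX.restrict_scalars ?_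
      intro x y hxy
      have h4 : algebraMap F L x = algebraMap F L y := by
        rw [Algebra.algebraMap_eq_smul_one, Algebra.algebraMap_eq_smul_one]
        exact hxy
      exact (algebraMap F L).injective h4
    have h4 : Function.Injective φ := by
      intro M N hMN
      have h5 := ρ.symm.injective (show ρ.symm (G⁻¹ * M * G) = ρ.symm (G⁻¹ * N * G) from hMN)
      have h6 := congrArg (fun Z => G * Z * G⁻¹) h5
      simp only [← Matrix.mul_assoc, hGG, Matrix.one_mul] at h6
      simpa only [Matrix.mul_assoc, hGG, Matrix.mul_one] using h6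
    have h5 := h1.map' φ.toLinearMap (LinearMap.ker_eq_bot.mpr h4)
    have h6 : (fun i : Fin n => ((1 ⊗ₜ c0⁻¹) * ρ.symm X * (1 ⊗ₜ c2) *
        hS.sig.baseChange F (ρ.symm X)) ^ (i : ℕ)) =
        (φ.toLinearMap ∘ fun i : Fin n => Y ^ (i : ℕ)) := by
      funext i
      rw [hW]
      change _ = φ (Y ^ (i : ℕ))
      rw [map_pow]
    exact h6 ▸ h5
  · rw [hW, Polynomial.aeval_algHom_apply]
    have h1 : aeval Y (∏ i, (Polynomial.X - C (algebraMap k F (r i : k)))) =
        aeval Y (∏ i, (Polynomial.X - C (algebraMap F L (iu v (r i) : Fˣ)))) := by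
      rw [← Polynomial.aeval_map_algebraMap L Y, Polynomial.map_prod]
      congr 1
      refine Finset.prod_congr rfl fun i _ => ?_
      rw [Polynomial.map_sub, Polynomial.map_X, Polynomial.map_C]
      rfl
    rw [h1, hX', map_zero]

end Vale.Agent.P011.Even
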