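import Vale.Agent.P011.Even.NormLoc

/-!
Norms at totally split places.
-/

open NumberField IsDedekindDomain Module

namespace Vale.Agent.P011.Even

open Arith

variable {F : Type} [Field F] [NumberField F] {E : Type} [Field E] [NumberField E] [Algebra F E]

/-- The prime `v` is totally split in `E`. -/
def TotSplit (E : Type) [Field E] [NumberField E] [Algebra F E]
    (v : HeightOneSpectrum (𝓞 F)) : Prop :=
  ∃ w : Fin (finrank F E) → HeightOneSpectrum (𝓞 E), Function.Injective w ∧ ∀ i, Ab (w i) v

theorem val_le_val_iff {w : HeightOneSpectrum (𝓞 E)} {v : HeightOneSpectrum (𝓞 F)}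
    (h : Ab w v) (x y : F) :
    w.valuation E (algebraMap F E x) ≤ w.valuation E (algebraMap F E y) ↔
      v.valuation F x ≤ v.valuation F y := by
  rw [← not_lt, ← not_lt, val_lt_val_iff h]

section coord

variable {v : HeightOneSpectrum (𝓞 F)} {ι : Type} [Fintype ι] [DecidableEq ι]
    {w : ι → HeightOneSpectrum (𝓞 E)} (hw : ∀ i, Ab (w i) v) {ε : ι → E}
    (hε : ∀ i j, (w j).valuation E (ε i - if i = j then 1 else 0) < 1)

include hw hε

/-- The coordinates of a small element with respect to an almost orthogonal family are small. -/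
theorem coord_lt (a : ι → F) (γ : Fˣ)
    (h : ∀ l, (w l).valuation E (∑ i, algebraMap F E (a i) * ε i) <
      (w l).valuation E (algebraMap F E (γ : F))) (i : ι) :
    v.valuation F (a i) < v.valuation F (γ : F) := by
  classical
  have : Nonempty ι := ⟨i⟩
  obtain ⟨l, hl⟩ := Finite.exists_max (fun i => v.valuation F (a i))
  refine (hl i).trans_lt ?_
  by_contra hcon
  rw [not_lt] at hcon
  have hal : a l ≠ 0 := by
    intro h0
    rw [h0, map_zero, le_zero_iff] at hcon
    exact (Valuation.ne_zero_iff _).mpr γ.ne_zero hcon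
  have hwl : 0 < (w l).valuation E (algebraMap F E (a l)) :=
    zero_lt_iff.mpr ((Valuation.ne_zero_iff _).mpr ((map_ne_zero _).mpr hal))
  have e : ∑ i, algebraMap F E (a i) * ε i = algebraMap F E (a l) +
      ∑ i, algebraMap F E (a i) * (ε i - if i = l then 1 else 0) := by
    have e1 : ∀ i, algebraMap F E (a i) * (ε i - if i = l then 1 else 0) =
        algebraMap F E (a i) * ε i - if i = l then algebraMap F E (a i) else 0 := by
      intro i
      split_ifs <;> ring
    rw [Finset.sum_congr rfl fun i _ => e1 i, Finset.sum_sub_distrib, Finset.sum_ite_eq']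
    simp
  have h1 : (w l).valuation E (∑ i, algebraMap F E (a i) * (ε i - if i = l then 1 else 0)) <
      (w l).valuation E (algebraMap F E (a l)) := by
    refine Valuation.map_sum_lt _ hwl.ne' fun i _ => ?_
    rw [map_mul]
    have h2 : (w l).valuation E (algebraMap F E (a i)) ≤ (w l).valuation E (algebraMap F E (a l)) :=
      (val_le_val_iff (hw l) _ _).mpr (hl i)
    calc _ ≤ (w l).valuation E (algebraMap F E (a l)) *
          (w l).valuation E (ε i - if i = l then 1 else 0) := mul_le_mul' h2 le_rfl
      _ < (w l).valuation E (algebraMap F E (a l)) * 1 := (mul_lt_mul_iff_right₀ hwl).mpr (hε i l)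
      _ = _ := mul_one _
  have h3 := h l
  rw [e, Valuation.map_add_eq_of_lt_left _ h1, val_lt_val_iff (hw l)] at h3
  exact absurd h3 (not_lt.mpr hcon)

theorem linInd : LinearIndependent F ε := by
  rw [Fintype.linearIndependent_iff]
  intro a ha i
  by_contra h0
  have h1 := coord_lt hw hε a (Units.mk0 (a i) h0) (fun l => by
    have e : ∑ i, algebraMap F E (a i) * ε i = 0 := by
      rw [← ha]
      exact Finset.sum_congr rfl fun i _ => (Algebra.smul_def _ _).symm
    rw [e, map_zero]
    exact zero_lt_iff.mpr ((Valuation.ne_zero_iff _).mpr ((map_ne_zero _).mpr h0))) i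
  exact lt_irrefl _ h1

end coord

/-- Weak approximation at finitely many primes, indexed by a family. -/
theorem approx_fam {ι : Type} [Fintype ι] {w : ι → HeightOneSpectrum (𝓞 E)}
    (hw : Function.Injective w) (x : ι → E) (g : ι → Z0) (hg : ∀ i, g i ≠ 0) :
    ∃ y : E, ∀ i, (w i).valuation E (y - x i) < g i := by
  classical
  obtain ⟨f, hf, _⟩ := approxVal (Finset.univ.image w)
    (Function.extend w x 0) (Function.extend w g 1) (by
      intro v hv
      obtain ⟨i, _, rfl⟩ := Finset.mem_image.mp hv
      rw [hw.extend_apply]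
      exact hg i) 0 one_pos
  refine ⟨f, fun i => ?_⟩
  have h1 := hf (w i) (Finset.mem_image_of_mem _ (Finset.mem_univ i))
  rwa [hw.extend_apply, hw.extend_apply] at h1

/-- Distinct primes above `v` are at most as many as the degree. -/
theorem card_le_finrank {v : HeightOneSpectrum (𝓞 F)} {ι : Type} [Fintype ι]
    {w : ι → HeightOneSpectrum (𝓞 E)} (hinj : Function.Injective w) (hw : ∀ i, Ab (w i) v) :
    Fintype.card ι ≤ finrank F E := by
  classical
  choose ε hε using fun i => approx_fam hinj (fun j => if i = j then (1 : E) else 0)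
    (fun _ => (1 : Z0)) (fun _ => one_ne_zero)
  exact (linInd hw hε).fintype_card_le_finrank

/-- The primes above a totally split prime. -/
theorem exhaust {v : HeightOneSpectrum (𝓞 F)}
    {w : Fin (finrank F E) → HeightOneSpectrum (𝓞 E)} (hinj : Function.Injective w)
    (hw : ∀ i, Ab (w i) v) {w' : HeightOneSpectrum (𝓞 E)} (hw' : Ab w' v) : ∃ i, w i = w' := by
  by_contra hcon
  push Not at hcon
  have h1 : Function.Injective (fun o : Option (Fin (finrank F E)) => o.elim w' w) := by
    rintro (_ | i) (_ | j) h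
    · rfl
    · exact absurd h.symm (hcon j)
    · exact absurd h (hcon i)
    · exact congrArg some (hinj h)
  have h2 := card_le_finrank (v := v) h1 (by rintro (_ | i); exacts [hw', hw i])
  simp at h2

/-- The norm of an element close to elements `m i` of the base field at the places above a
totally split prime. -/
theorem norm_near_prod {v : HeightOneSpectrum (𝓞 F)}
    {w : Fin (finrank F E) → HeightOneSpectrum (𝓞 E)} (hinj : Function.Injective w)
    (hw : ∀ i, Ab (w i) v) (m : Fin (finrank F E) → Fˣ) (γ : Fˣ)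
    (hγ : v.valuation F (γ : F) ≤ 1) :
    ∃ η : Fˣ, ∀ c : E, (∀ i, (w i).valuation E (c - algebraMap F E (m i : F)) <
      (w i).valuation E (algebraMap F E η)) →
      v.valuation F (Algebra.norm F c / (∏ i, m i : Fˣ) - 1) < v.valuation F (γ : F) := by
  classical
  have : Nonempty (Fin (finrank F E)) := ⟨⟨0, finrank_pos⟩⟩
  have hv0 : ∀ x : Fˣ, v.valuation F (x : F) ≠ 0 := fun x =>
    (Valuation.ne_zero_iff _).mpr x.ne_zero
  have hw0 : ∀ (l) (x : Fˣ), 0 < (w l).valuation E (algebraMap F E (x : F)) := fun l x =>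
    zero_lt_iff.mpr ((Valuation.ne_zero_iff _).mpr ((map_ne_zero _).mpr x.ne_zero))
  obtain ⟨i₀, hi₀⟩ := Finite.exists_max (fun i => v.valuation F (m i : F))
  obtain ⟨j₀, hj₀⟩ := Finite.exists_min (fun i => v.valuation F (m i : F))
  choose ε hε using fun i => approx_fam hinj (fun j => if i = j then (1 : E) else 0)
    (fun l => (w l).valuation E (algebraMap F E ((m j₀ * γ / m i₀ : Fˣ) : F)))
    (fun l => (hw0 l _).ne')
  have hρ : v.valuation F ((m j₀ * γ / m i₀ : Fˣ) : F) ≤ 1 := by
    rw [Units.val_div_eq_div_val, Units.val_mul, map_div₀, map_mul,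
      div_le_one₀ (zero_lt_iff.mpr (hv0 _))]
    calc _ ≤ v.valuation F (m i₀ : F) * 1 := mul_le_mul' (hi₀ j₀) hγ
      _ = _ := mul_one _
  have hρw : ∀ l, (w l).valuation E (algebraMap F E ((m j₀ * γ / m i₀ : Fˣ) : F)) ≤ 1 :=
    fun l => (val_le_one_iff (hw l) _).mpr hρ
  have hε1 : ∀ i j, (w j).valuation E (ε i - if i = j then 1 else 0) < 1 := fun i j =>
    (hε i j).trans_le (hρw j)
  have hli := linInd hw hε1
  let c₀ : Basis (Fin (finrank F E)) F E := basisOfLinearIndependentOfCardEqFinrank hli (by simp)
  have hc₀ : ∀ i, c₀ i = ε i := fun i => by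
    simp [c₀]
  refine ⟨m j₀ * γ, fun c hc => ?_⟩
  -- the matrix of multiplication by `c`
  have hM : ∀ i j, v.valuation F ((Algebra.leftMulMatrix c₀ c *
      Matrix.diagonal (fun i => ((m i : F))⁻¹) - 1) i j) < v.valuation F (γ : F) := by
    intro i j
    have hmj : (m j : F) ≠ 0 := (m j).ne_zero
    have h1 : (Algebra.leftMulMatrix c₀ c * Matrix.diagonal (fun i => ((m i : F))⁻¹) - 1) i j =
        (c₀.repr ((c - algebraMap F E (m j : F)) * ε j) i) * (m j : F)⁻¹ := by
      rw [Matrix.sub_apply, Matrix.mul_diagonal, Algebra.leftMulMatrix_eq_repr_mul, sub_mul,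
        map_sub, Finsupp.sub_apply, hc₀, sub_mul, ← Algebra.smul_def, map_smul,
        Finsupp.smul_apply, ← hc₀ j, c₀.repr_self, Finsupp.single_apply, Matrix.one_apply,
        smul_eq_mul]
      congr 1
      by_cases hij : i = j
      · rw [if_pos hij, if_pos hij.symm, mul_one, mul_inv_cancel₀ hmj]
      · rw [if_neg hij, if_neg (Ne.symm hij), mul_zero, zero_mul]
    rw [h1, map_mul, map_inv₀, mul_inv_lt_iff₀ (zero_lt_iff.mpr (hv0 _)), ← map_mul,
      ← Units.val_mul]
    have h2 : ∑ i, algebraMap F E (c₀.repr ((c - algebraMap F E (m j : F)) * ε j) i) * ε i =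
        (c - algebraMap F E (m j : F)) * ε j := by
      conv_rhs => rw [← c₀.sum_repr ((c - algebraMap F E (m j : F)) * ε j)]
      exact Finset.sum_congr rfl fun i _ => by rw [Algebra.smul_def, hc₀]
    refine coord_lt hw hε1 (fun i => c₀.repr ((c - algebraMap F E (m j : F)) * ε j) i) (γ * m j)
      (fun l => ?_) i
    rw [h2, map_mul]
    by_cases hl : j = l
    · subst hl
      have h3 : (w j).valuation E (ε j) = 1 := by
        have h4 := hε1 j j
        rw [if_pos rfl] at h4
        have := (w j).valuation E |>.map_one_add_of_lt h4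
        rwa [add_sub_cancel] at this
      rw [h3, mul_one]
      refine (hc j).trans_le ?_
      rw [val_le_val_iff (hw j), Units.val_mul, Units.val_mul, map_mul, map_mul, mul_comm]
      exact mul_le_mul' le_rfl (hj₀ j)
    · have h3 : (w l).valuation E (ε j) <
          (w l).valuation E (algebraMap F E ((m j₀ * γ / m i₀ : Fˣ) : F)) := by
        have h4 := hε j l
        rwa [if_neg hl, sub_zero] at h4
      have h4 : (w l).valuation E (c - algebraMap F E (m j : F)) ≤
          (w l).valuation E (algebraMap F E (m i₀ : F)) := by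
        have e : c - algebraMap F E (m j : F) = (c - algebraMap F E (m l : F)) +
            algebraMap F E ((m l : F) - m j) := by rw [map_sub]; ring
        rw [e]
        refine Valuation.map_add_le _ ?_ ?_
        · refine (hc l).le.trans ?_
          rw [val_le_val_iff (hw l), Units.val_mul, map_mul]
          calc _ ≤ v.valuation F (m i₀ : F) * 1 := mul_le_mul' (hi₀ j₀) hγ
            _ = _ := mul_one _
        · rw [val_le_val_iff (hw l)]
          exact Valuation.map_sub_le _ (hi₀ l) (hi₀ j)
      calc _ ≤ (w l).valuation E (algebraMap F E (m i₀ : F)) * (w l).valuation E (ε j) :=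
            mul_le_mul' h4 le_rfl
        _ < (w l).valuation E (algebraMap F E (m i₀ : F)) *
            (w l).valuation E (algebraMap F E ((m j₀ * γ / m i₀ : Fˣ) : F)) :=
            (mul_lt_mul_iff_right₀ (hw0 l _)).mpr h3
        _ = (w l).valuation E (algebraMap F E ((m j₀ * γ : Fˣ) : F)) := by
            rw [← map_mul, ← map_mul, ← Units.val_mul, mul_div_cancel]
        _ ≤ (w l).valuation E (algebraMap F E ((γ * m j : Fˣ) : F)) := by
            rw [val_le_val_iff (hw l), Units.val_mul, Units.val_mul, map_mul, map_mul, mul_comm]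
            exact mul_le_mul' le_rfl (hj₀ j)
  have h5 := det_near_one _ _ _ hγ (hv0 γ) hM
  rw [Matrix.det_mul, Matrix.det_diagonal, ← Algebra.norm_eq_matrix_det c₀, Finset.prod_inv_distrib,
    ← div_eq_mul_inv] at h5
  rwa [Units.coe_prod]

/-- Elements concentrated at one of the primes above a totally split prime. -/
theorem exists_single {v : HeightOneSpectrum (𝓞 F)}
    {w : Fin (finrank F E) → HeightOneSpectrum (𝓞 E)} (hinj : Function.Injective w)
    (hw : ∀ i, Ab (w i) v) (m : Fˣ) (i : Fin (finrank F E)) :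
    ∃ c : Eˣ, nrm F E c / m ∈ LS (v.valuation F) ∧ ∀ j, j ≠ i → c ∈ LS ((w j).valuation E) := by
  classical
  have h40 : (4 : F) ≠ 0 := by norm_num
  obtain ⟨η, hη⟩ := norm_near_prod hinj hw (fun j => if j = i then m else 1)
    (Units.mk0 (4 : F) h40) (val_four_le _)
  have hm0 : ∀ j, ((w j).valuation E (algebraMap F E (m : F))) ≠ 0 := fun j =>
    (Valuation.ne_zero_iff _).mpr ((map_ne_zero _).mpr m.ne_zero)
  have hη0 : ∀ j, ((w j).valuation E (algebraMap F E (η : F))) ≠ 0 := fun j =>
    (Valuation.ne_zero_iff _).mpr ((map_ne_zero _).mpr η.ne_zero)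
  obtain ⟨y, hy⟩ := approx_fam hinj
    (fun j => algebraMap F E (((if j = i then m else 1 : Fˣ)) : F))
    (fun j => min ((w j).valuation E (algebraMap F E (η : F)))
      (min ((w j).valuation E 4) ((w j).valuation E (algebraMap F E (m : F)))))
    (fun j => by
      rw [← zero_lt_iff, lt_min_iff, lt_min_iff]
      exact ⟨zero_lt_iff.mpr (hη0 j), zero_lt_iff.mpr (val_four_ne _),
        zero_lt_iff.mpr (hm0 j)⟩)
  have hy0 : y ≠ 0 := by
    rintro rfl
    have h1 := hy i
    rw [if_pos rfl, zero_sub, Valuation.map_neg, lt_min_iff, lt_min_iff] at h1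
    exact lt_irrefl _ h1.2.2
  refine ⟨Units.mk0 y hy0, ?_, ?_⟩
  · have h1 := hη y fun j => (hy j).trans_le (min_le_left _ _)
    have h2 : (∏ j, if j = i then m else (1 : Fˣ)) = m := by
      rw [Finset.prod_ite_eq']
      simp
    rw [h2, Units.val_mk0] at h1
    exact LS_of_close (by rw [Units.val_div_eq_div_val, nrm_val, Units.val_mk0]; exact h1)
  · intro j hj
    refine LS_of_close ?_
    have h1 := hy j
    rw [if_neg hj, Units.val_one, map_one] at h1
    exact h1.trans_le ((min_le_right _ _).trans (min_le_left _ _))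

/-- I3: the norm at a totally split prime. -/
theorem parity_split {v : HeightOneSpectrum (𝓞 F)} (hv : TotSplit E v) (b : Fˣ) (c : Eˣ) :
    nrm F E c ∈ NF b ⊔ LS (v.valuation F) ↔
      Even {w : HeightOneSpectrum (𝓞 E) | Ab w v ∧
        c ∉ NF (inc F E b) ⊔ LS (w.valuation E)}.ncard := by
  classical
  obtain ⟨w, hinj, hw⟩ := hv
  have himg : ∀ c : Eˣ, {w : HeightOneSpectrum (𝓞 E) | Ab w v ∧
      c ∉ NF (inc F E b) ⊔ LS (w.valuation E)} =
      w '' {i | c ∉ NF (inc F E b) ⊔ LS ((w i).valuation E)} := by
    intro c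
    ext w'
    constructor
    · rintro ⟨h1, h2⟩
      obtain ⟨i, rfl⟩ := exhaust hinj hw h1
      exact ⟨i, h2, rfl⟩
    · rintro ⟨i, h1, rfl⟩
      exact ⟨hw i, h1⟩
  by_cases hb : b ∈ LS (v.valuation F)
  · have h1 : NF b ⊔ LS (v.valuation F) = ⊤ := sup_eq_top (p := Sum.inl v) hb
    have h2 : ∀ i, NF (inc F E b) ⊔ LS ((w i).valuation E) = ⊤ := fun i =>
      sup_eq_top (p := Sum.inl (w i)) (LS_map (hw i) hb)
    rw [himg, h1]
    have h3 : {i | c ∉ NF (inc F E b) ⊔ LS ((w i).valuation E)} = ∅ := by
      ext i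
      simp [h2 i]
    rw [h3]
    simp
  · have hidx : (NF b ⊔ LS (v.valuation F)).index = 2 := local_index_two v b hb
    obtain ⟨m, hm⟩ : ∃ m : Fˣ, m ∉ NF b ⊔ LS (v.valuation F) := by
      by_contra hcon
      push Not at hcon
      have : NF b ⊔ LS (v.valuation F) = ⊤ := eq_top_iff.mpr fun x _ => hcon x
      rw [this, Subgroup.index_top] at hidx
      norm_num at hidx
    -- elements which are non-norms at one place only
    have hci : ∀ i, ∃ ci : Eˣ, nrm F E ci ∉ NF b ⊔ LS (v.valuation F) ∧
        ∀ j, j ≠ i → ci ∈ NF (inc F E b) ⊔ LS ((w j).valuation E) := by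
      intro i
      obtain ⟨c, h3, h4⟩ := exists_single hinj hw m i
      refine ⟨c, fun h5 => ?_, fun j hj => Subgroup.mem_sup_right (h4 j hj)⟩
      have h6 := Subgroup.div_mem _ h5 (Subgroup.mem_sup_right (S := NF b) h3)
      rw [div_div_cancel] at h6
      exact hm h6
    choose ci hci1 hci2 using hci
    have hci3 : ∀ i, ci i ∉ NF (inc F E b) ⊔ LS ((w i).valuation E) := by
      intro i h
      refine hci1 i (nrm_local v b (ci i) fun w' hw' => ?_)
      obtain ⟨j, rfl⟩ := exhaust hinj hw hw'
      by_cases hj : j = i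
      · rw [hj]; exact h
      · exact hci2 i j hj
    have hidx' : ∀ i, (NF (inc F E b) ⊔ LS ((w i).valuation E)).index = 2 := by
      intro i
      refine index_two (p := Sum.inl (w i)) fun h => hci3 i ?_
      have : NF (inc F E b) ⊔ LS ((w i).valuation E) = ⊤ := sup_eq_top (p := Sum.inl (w i)) h
      rw [this]
      exact Subgroup.mem_top _
    have key : ∀ (B : Finset (Fin (finrank F E))) (c : Eˣ),
        (∀ i, c ∉ NF (inc F E b) ⊔ LS ((w i).valuation E) ↔ i ∈ B) →
        (nrm F E c ∈ NF b ⊔ LS (v.valuation F) ↔ Even B.card) := by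
      intro B
      induction B using Finset.induction_on with
      | empty =>
        intro c hc
        refine iff_of_true (nrm_local v b c fun w' hw' => ?_) (by simp)
        obtain ⟨j, rfl⟩ := exhaust hinj hw hw'
        by_contra h
        exact absurd ((hc j).mp h) (Finset.notMem_empty j)
      | insert i B hi ih =>
        intro c hc
        have h1 := ih (c * ci i) fun j => by
          rw [Subgroup.mul_mem_iff_of_index_two (hidx' j)]
          have h2 := hc j
          rw [Finset.mem_insert] at h2
          by_cases hj : j = i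
          · subst hj
            have h3 := hci3 j
            have h4 : c ∉ NF (inc F E b) ⊔ LS ((w j).valuation E) := h2.mpr (Or.inl rfl)
            simp [h3, h4, hi]
          · have h3 := hci2 i j hj
            simp only [h3, iff_true]
            rw [h2]
            simp [hj]
        rw [map_mul, Subgroup.mul_mem_iff_of_index_two hidx] at h1
        have h3 := hci1 i
        simp only [h3, iff_false] at h1
        rw [Finset.card_insert_of_notMem hi, Nat.even_add_one, ← h1, not_not]
    rw [himg, Set.ncard_image_of_injective _ hinj, Set.ncard_eq_toFinset_card']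
    exact key _ c fun i => by simp

/-- A nonsquare stays a nonsquare above a totally split prime. -/
theorem notMem_LS_above {v : HeightOneSpectrum (𝓞 F)} (hv : TotSplit E v) {b : Fˣ}
    (hb : b ∉ LS (v.valuation F)) {w' : HeightOneSpectrum (𝓞 E)} (hw' : Ab w' v) :
    inc F E b ∉ LS (w'.valuation E) := by
  obtain ⟨w, hinj, hw⟩ := hv
  obtain ⟨i, rfl⟩ := exhaust hinj hw hw'
  intro h
  have hidx : (NF b ⊔ LS (v.valuation F)).index = 2 := local_index_two v b hb
  obtain ⟨m, hm⟩ : ∃ m : Fˣ, m ∉ NF b ⊔ LS (v.valuation F) := by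
    by_contra hcon
    push Not at hcon
    have : NF b ⊔ LS (v.valuation F) = ⊤ := eq_top_iff.mpr fun x _ => hcon x
    rw [this, Subgroup.index_top] at hidx
    norm_num at hidx
  obtain ⟨c, h3, h4⟩ := exists_single hinj hw m i
  have h5 : nrm F E c ∈ NF b ⊔ LS (v.valuation F) := by
    refine nrm_local v b c fun w' hw' => ?_
    obtain ⟨j, rfl⟩ := exhaust hinj hw hw'
    by_cases hj : j = i
    · have : NF (inc F E b) ⊔ LS ((w j).valuation E) = ⊤ :=
        sup_eq_top (p := Sum.inl (w j)) (by rw [hj]; exact h)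
      rw [this]
      exact Subgroup.mem_top _
    · exact Subgroup.mem_sup_right (h4 j hj)
  have h6 := Subgroup.div_mem _ h5 (Subgroup.mem_sup_right (S := NF b) h3)
  rw [div_div_cancel] at h6
  exact hm h6

/-- The norm of an element which is integral at the primes above `v`. -/
theorem val_norm_le (v : HeightOneSpectrum (𝓞 F)) (x : E)
    (hx : ∀ w : HeightOneSpectrum (𝓞 E), Ab w v → w.valuation E x ≤ 1) :
    v.valuation F (Algebra.norm F x) ≤ 1 := by
  obtain ⟨s, hs, y, hy⟩ := exists_clear v x hx
  have h1 : IsIntegral ℤ (Algebra.norm F (y : E)) :=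
    Algebra.isIntegral_norm F (RingOfIntegers.isIntegral_coe y)
  have h2 : Algebra.norm F (y : E) = (s : F) ^ (finrank F E) * Algebra.norm F x := by
    rw [hy, map_mul, Algebra.norm_algebraMap]
  have h3 : v.valuation F (s : F) = 1 := by
    have h4 := v.valuation_le_one (K := F) s
    have h5 : ¬ v.valuation F (s : F) < 1 := fun h =>
      hs ((HeightOneSpectrum.valuation_lt_one_iff_mem (K := F) v s).mp h)
    exact le_antisymm h4 (not_lt.mp h5)
  have h4 : v.valuation F (Algebra.norm F (y : E)) ≤ 1 :=
    v.valuation_le_one (K := F) (⟨_, h1⟩ : 𝓞 F)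
  rwa [h2, map_mul, map_pow, h3, one_pow, one_mul] at h4

/-- A criterion for a prime to be totally split. -/
theorem totSplit_of_norm {v : HeightOneSpectrum (𝓞 F)} (θ : E) (δ : Fˣ)
    (r : Fin (finrank F E) → F)
    (hr : ∀ i j, i ≠ j → v.valuation F (δ : F) ≤ v.valuation F (r i - r j))
    (hN : ∀ i, v.valuation F (Algebra.norm F (θ - algebraMap F E (r i))) <
      v.valuation F (δ : F) ^ (finrank F E)) : TotSplit E v := by
  have key : ∀ i, ∃ w : HeightOneSpectrum (𝓞 E), Ab w v ∧
      w.valuation E (θ - algebraMap F E (r i)) < w.valuation E (algebraMap F E (δ : F)) := by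
    intro i
    by_contra hcon
    push Not at hcon
    by_cases h0 : θ - algebraMap F E (r i) = 0
    · obtain ⟨w, hw⟩ := exists_above (E := E) v
      have h1 := hcon w hw
      rw [h0, map_zero, le_zero_iff] at h1
      exact (Valuation.ne_zero_iff _).mpr ((map_ne_zero _).mpr δ.ne_zero) h1
    · have h1 := val_norm_le v (algebraMap F E (δ : F) / (θ - algebraMap F E (r i))) fun w hw => by
        rw [map_div₀, div_le_one₀ (zero_lt_iff.mpr ((Valuation.ne_zero_iff _).mpr h0))]
        exact hcon w hw
      have h2 : Algebra.norm F (algebraMap F E (δ : F) / (θ - algebraMap F E (r i))) *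
          Algebra.norm F (θ - algebraMap F E (r i)) = (δ : F) ^ finrank F E := by
        rw [← map_mul, div_mul_cancel₀ _ h0, Algebra.norm_algebraMap]
      refine absurd (hN i) (not_lt.mpr ?_)
      rw [← map_pow, ← h2, map_mul]
      calc _ ≤ 1 * v.valuation F (Algebra.norm F (θ - algebraMap F E (r i))) :=
            mul_le_mul' h1 le_rfl
        _ = _ := one_mul _
  choose w hw1 hw2 using key
  refine ⟨w, fun i j hij => ?_, hw1⟩
  by_contra hne
  have h1 := hw2 i
  have h2 := hw2 j
  rw [← hij] at h2
  have h3 : (w i).valuation E (algebraMap F E (r i - r j)) <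
      (w i).valuation E (algebraMap F E (δ : F)) := by
    have e : algebraMap F E (r i - r j) = (θ - algebraMap F E (r j)) - (θ - algebraMap F E (r i)) := by
      rw [map_sub]; ring
    rw [e]
    exact Valuation.map_sub_lt _ h2 h1
  rw [val_lt_val_iff (hw1 i)] at h3
  exact absurd h3 (not_lt.mpr (hr i j hne))

open Polynomial in
/-- A prime is totally split if the minimal polynomial of a generator is close to a product of
different linear factors. -/
theorem totSplit_of_near (v : HeightOneSpectrum (𝓞 F)) {n : ℕ} (r : Fin n → F)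
    (hr : Function.Injective r) : ∃ ε : Z0, ε ≠ 0 ∧ ∀ (E : Type) [Field E] [NumberField E]
      [Algebra F E] (θ : E), finrank F E = n → (minpoly F θ).natDegree = n →
      (∀ k, v.valuation F ((minpoly F θ - ∏ i, (X - C (r i))).coeff k) < ε) → TotSplit E v := by
  classical
  obtain ⟨π, hπ⟩ := exists_val_lt_one v
  -- a common lower bound of the differences
  obtain ⟨δ, hδ1, hδ⟩ : ∃ δ : Fˣ, v.valuation F (δ : F) ≤ 1 ∧
      ∀ i j, i ≠ j → v.valuation F (δ : F) ≤ v.valuation F (r i - r j) := by
    have h1 : ∀ i j, ∃ N : ℕ, i ≠ j →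
        (v.valuation F (π : F)) ^ N ≤ v.valuation F (r i - r j) := by
      intro i j
      by_cases hij : i = j
      · exact ⟨0, fun h => absurd hij h⟩
      · have h0 : r i - r j ≠ 0 := sub_ne_zero.mpr fun h => hij (hr h)
        obtain ⟨N, hN⟩ := exists_pow_mul_le (b := (v.valuation F (r i - r j))⁻¹) hπ
        refine ⟨N, fun _ => ?_⟩
        rwa [← div_eq_mul_inv, div_le_one₀ (zero_lt_iff.mpr ((Valuation.ne_zero_iff _).mpr h0))] at hN
    choose N hN using h1
    refine ⟨π ^ (∑ i, ∑ j, N i j), ?_, fun i j hij => ?_⟩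
    · rw [Units.val_pow_eq_pow_val, map_pow]
      exact pow_le_one₀ zero_le hπ.le
    · rw [Units.val_pow_eq_pow_val, map_pow]
      refine (pow_le_pow_right_of_le_one' hπ.le ?_).trans (hN i j hij)
      exact (Finset.single_le_sum (f := fun j => N i j) (fun _ _ => Nat.zero_le _)
        (Finset.mem_univ j)).trans (Finset.single_le_sum (f := fun i => ∑ j, N i j)
        (fun _ _ => Nat.zero_le _) (Finset.mem_univ i))
  -- an upper bound of the roots
  obtain ⟨M, hM⟩ : ∃ M : ℕ, ∀ i, ∀ k ≤ n,
      (v.valuation F (π : F)) ^ M * v.valuation F (r i) ^ k ≤ 1 := by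
    have h1 : ∀ i, ∀ k : ℕ, ∃ N : ℕ, (v.valuation F (π : F)) ^ N * v.valuation F (r i) ^ k ≤ 1 :=
      fun i k => exists_pow_mul_le hπ
    choose N hN using h1
    refine ⟨∑ i, ∑ k ∈ Finset.range (n + 1), N i k, fun i k hk => ?_⟩
    refine le_trans (mul_le_mul' (pow_le_pow_right_of_le_one' hπ.le ?_) le_rfl) (hN i k)
    exact (Finset.single_le_sum (f := fun k => N i k) (fun _ _ => Nat.zero_le _)
        (Finset.mem_range.mpr (Nat.lt_succ_of_le hk))).trans (Finset.single_le_sum
        (f := fun i => ∑ k ∈ Finset.range (n + 1), N i k)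
        (fun _ _ => Nat.zero_le _) (Finset.mem_univ i))
  refine ⟨v.valuation F (δ : F) ^ n * v.valuation F (π : F) ^ M,
    mul_ne_zero (pow_ne_zero _ ((Valuation.ne_zero_iff _).mpr δ.ne_zero))
      (pow_ne_zero _ ((Valuation.ne_zero_iff _).mpr π.ne_zero)), ?_⟩
  intro E _ _ _ θ hE hdeg hnear
  subst hE
  refine totSplit_of_norm θ δ r hδ fun i => ?_
  let c := Module.finBasis F E
  have hchar : (Algebra.leftMulMatrix c θ).charpoly = minpoly F θ := by
    have h1 : minpoly F θ ∣ (Algebra.leftMulMatrix c θ).charpoly := by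
      refine minpoly.dvd F θ ?_
      rw [Algebra.leftMulMatrix_apply, LinearMap.charpoly_toMatrix]
      exact Algebra.aeval_self_charpoly_lmul θ
    refine Polynomial.eq_of_monic_of_dvd_of_natDegree_le (minpoly.monic
      (Algebra.IsIntegral.isIntegral θ)) (Matrix.charpoly_monic _) h1 ?_
    rw [Matrix.charpoly_natDegree_eq_dim, hdeg, Fintype.card_fin]
  have hnorm : Algebra.norm F (algebraMap F E (r i) - θ) = (minpoly F θ).eval (r i) := by
    rw [← hchar, Matrix.eval_charpoly, Algebra.norm_eq_matrix_det c, map_sub]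
    congr 2
    ext a b
    rw [Algebra.leftMulMatrix_eq_repr_mul, ← Algebra.smul_def, map_smul, Finsupp.smul_apply,
      c.repr_self, Matrix.scalar_apply, Matrix.diagonal_apply, Finsupp.single_apply]
    simp [eq_comm]
  have h0 : (∏ i, (X - C (r i))).eval (r i) = 0 := by
    rw [Polynomial.eval_prod]
    exact Finset.prod_eq_zero (Finset.mem_univ i) (by simp)
  have hval : v.valuation F ((minpoly F θ).eval (r i)) <
      v.valuation F (δ : F) ^ finrank F E := by
    have h1 : (minpoly F θ).eval (r i) =
        (minpoly F θ - ∏ i, (X - C (r i))).eval (r i) := by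
      rw [Polynomial.eval_sub, h0, sub_zero]
    rw [h1, Polynomial.eval_eq_sum_range]
    have hpos : 0 < v.valuation F (δ : F) ^ finrank F E :=
      zero_lt_iff.mpr (pow_ne_zero _ ((Valuation.ne_zero_iff _).mpr δ.ne_zero))
    refine Valuation.map_sum_lt _ hpos.ne' fun k hk => ?_
    have hkn : k ≤ finrank F E := by
      have h2 : (minpoly F θ - ∏ i, (X - C (r i))).natDegree ≤ finrank F E := by
        refine (Polynomial.natDegree_sub_le _ _).trans (max_le hdeg.le ?_)
        refine (Polynomial.natDegree_prod_le _ _).trans ?_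
        simp
      exact (Nat.lt_succ_iff.mp (Finset.mem_range.mp hk)).trans h2
    rw [map_mul, map_pow]
    rcases eq_or_ne (v.valuation F (r i) ^ k) 0 with h3 | h3
    · rw [h3, mul_zero]
      exact hpos
    calc _ < v.valuation F (δ : F) ^ finrank F E * v.valuation F (π : F) ^ M *
          v.valuation F (r i) ^ k := (mul_lt_mul_iff_left₀ (zero_lt_iff.mpr h3)).mpr (hnear k)
      _ = v.valuation F (δ : F) ^ finrank F E * (v.valuation F (π : F) ^ M *
          v.valuation F (r i) ^ k) := mul_assoc _ _ _
      _ ≤ v.valuation F (δ : F) ^ finrank F E * 1 := mul_le_mul' le_rfl (hM i k hkn)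
      _ = _ := mul_one _
  have hneg : Algebra.norm F (θ - algebraMap F E (r i)) =
      Algebra.norm F (-1 : E) * Algebra.norm F (algebraMap F E (r i) - θ) := by
    rw [← map_mul]
    congr 1
    ring
  have hone : v.valuation F (Algebra.norm F (-1 : E)) = 1 := by
    have h1 : (-1 : E) = algebraMap F E (-1) := by simp
    rw [h1, Algebra.norm_algebraMap, map_pow, Valuation.map_neg, map_one, one_pow]
  rw [hneg, map_mul, hone, one_mul, hnorm]
  exact hval

end Vale.Agent.P011.Even
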