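import Vale.Agent.P011.Even.MinCont
import Vale.Agent.P011.Even.RealSide
import Vale.Agent.P011.Even.LocModel
import Vale.Agent.P011.Even.Split

/-!
Choice of an element with a totally split minimal polynomial.
-/

open Module Matrix Polynomial NumberField IsDedekindDomain TensorProduct
open Vale.Agent.P011.RP (RData)

namespace Vale.Agent.P011.Even

open Arith

variable {k K D : Type} [Field k] [NumberField k] [Field K] [StarRing K]
    [DivisionRing D] [StarRing D] [Algebra k K] [Algebra k D] [Algebra K D] [IsScalarTower k K D]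
    {d : kˣ} {s : K} {n : ℕ} {N : ℕ}

theorem norm_algebraMap_eq (v : HeightOneSpectrum (𝓞 k)) (x : k) :
    ‖algebraMap k (v.adicCompletion k) x‖ = plAbv (Sum.inl v) x := by
  change _ = NumberField.HeightOneSpectrum.adicAbv k v x
  rw [norm_eq, valued_alg, NumberField.HeightOneSpectrum.adicAbv_def]

/-- The condition at a finite place. -/
theorem good_inl (hS : Setting k K D d s) (hdeg : finrank K D = n ^ 2)
    (B : Basis (Fin N) k D) {c0 c2 : D} (h0 : star c0 = c0) (h2 : star c2 = c2) (h00 : c0 ≠ 0)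
    (h20 : c2 ≠ 0) (v : HeightOneSpectrum (𝓞 k)) (hv : d ∉ LS (v.valuation k)) :
    ∃ (x : Fin N → k) (δ : ℝ), 0 < δ ∧ ∀ β : D, (∀ j, plAbv (Sum.inl v) (B.repr β j - x j) < δ) →
      LinearIndependent k (fun i : Fin n => (c0⁻¹ * β * c2 * star β) ^ (i : ℕ)) ∧
      ∀ (E : Type) [Field E] [NumberField E] [Algebra k E] (θ : E), finrank k E = n →
        (minpoly k θ).natDegree = n → aeval (c0⁻¹ * β * c2 * star β) (minpoly k θ) = 0 →
        TotSplit E v := by
  classical
  let F := v.adicCompletion k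
  obtain ⟨r, T, hr, hli, hz⟩ := loc_split hS hdeg v hv h0 h2 h00 h20
  obtain ⟨ε, hε, hsp⟩ := totSplit_of_near v r hr
  obtain ⟨η, hη, hη'⟩ := exists_radius v ε hε
  let g : D →+* F ⊗[k] D := (Algebra.TensorProduct.includeRight : D →ₐ[k] F ⊗[k] D).toRingHom
  have hgx : ∀ x, g x = 1 ⊗ₜ x := fun x => rfl
  let BA := Algebra.TensorProduct.basis F B
  have hT : ∑ j, BA.repr T j • g (B j) = T := by
    conv_rhs => rw [← BA.sum_repr T]
    refine Finset.sum_congr rfl fun j _ => ?_
    rw [Algebra.TensorProduct.basis_apply, hgx]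
  obtain ⟨δ, hδ, hnear⟩ := near_D (F := F) (A := F ⊗[k] D) B BA g
    (fun a x => by
      rw [hgx, hgx, TensorProduct.tmul_smul, ← algebraMap_smul F a ((1 : F) ⊗ₜ[k] x)])
    (hS.sig.baseChange F) (fun x => by rw [hgx, hgx, LinearMap.baseChange_tmul]; rfl) c0 c2
    (fun j => BA.repr T j) (n := n) (q := ∏ i, (X - C (algebraMap k F (r i))))
    (by rw [hT]; exact hli)
    (monic_prod_of_monic _ _ fun i _ => monic_X_sub_C _) (natDegree_prod_X_sub_C' _)
    (by rw [hT]; exact hz) hη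
  choose x hx using fun j => dense v (BA.repr T j) (δ / 2) (half_pos hδ)
  refine ⟨x, δ / 2, half_pos hδ, fun β hβ => ?_⟩
  obtain ⟨h1, h3⟩ := hnear β (fun j => by
    have e1 : algebraMap k F (B.repr β j) - BA.repr T j =
        algebraMap k F (B.repr β j - x j) - (BA.repr T j - algebraMap k F (x j)) := by
      rw [map_sub]; ring
    rw [e1]
    refine (norm_sub_le _ _).trans_lt ?_
    have e2 := hβ j
    rw [← norm_algebraMap_eq] at e2
    have e3 := hx j
    linarith)
  refine ⟨h1, fun E _ _ _ θ hE hmin hz => hsp E θ hE hmin fun i => ?_⟩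
  have hint : IsIntegral k θ := by
    have : FiniteDimensional k E := Module.finite_of_finrank_pos (by
      rw [hE, ← hmin]
      have hint' : IsIntegral k θ := by
        by_contra hcon
        have h5 := minpoly.eq_zero hcon
        rw [h5, natDegree_zero] at hmin
        have h6 : finrank k E = 0 := by rw [hE, ← hmin]
        have h7 : FiniteDimensional k E := by
          have : FiniteDimensional ℚ E := inferInstance
          have : IsScalarTower ℚ k E := IsScalarTower.of_algebraMap_eq fun q => by simp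
          exact Module.Finite.of_restrictScalars_finite ℚ k E
        exact absurd h6 (Module.finrank_pos).ne'
      exact minpoly.natDegree_pos hint')
    exact Algebra.IsIntegral.isIntegral θ
  have h5 := h3 _ (minpoly.monic hint) hmin hz i
  have h6 : algebraMap k F ((minpoly k θ).coeff i) -
      (∏ i, (X - C (algebraMap k F (r i)))).coeff i =
      algebraMap k F ((minpoly k θ - ∏ i, (X - C (r i))).coeff i) := by
    have h7 : (∏ i, (X - C (algebraMap k F (r i)))) =
        (∏ i, (X - C (r i))).map (algebraMap k F) := by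
      rw [Polynomial.map_prod]
      refine Finset.prod_congr rfl fun i _ => ?_
      rw [Polynomial.map_sub, Polynomial.map_X, Polynomial.map_C]
    rw [h7, coeff_map, coeff_sub, map_sub]
  rw [h6] at h5
  exact hη' _ h5

/-- The condition at a real place. -/
theorem good_inr [NumberField K] (hS : Setting k K D d s) (hn : 0 < n)
    (hdeg : finrank K D = n ^ 2)
    (B : Basis (Fin N) k D) {c0 c2 : D} (h0 : star c0 = c0) (h2 : star c2 = c2) (h00 : c0 ≠ 0)
    (h20 : c2 ≠ 0) (φ : k →+* ℝ) (hφ : φ d < 0) :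
    ∃ (x : Fin N → k) (δ : ℝ), 0 < δ ∧ ∀ β : D, (∀ j, plAbv (Sum.inr φ) (B.repr β j - x j) < δ) →
      LinearIndependent k (fun i : Fin n => (c0⁻¹ * β * c2 * star β) ^ (i : ℕ)) ∧
      ∀ m : k[X], m.Monic → m.natDegree = n → aeval (c0⁻¹ * β * c2 * star β) m = 0 →
        ∃ ρ : Fin n → ℝ, Function.Injective ρ ∧ m.map φ = ∏ i, (X - C (ρ i)) := by
  classical
  obtain ⟨R, hR⟩ := exists_rdata_of (D := D) hS hn hdeg hφ
  obtain ⟨U, hU⟩ := R.unit
  let V : Matrix (Fin n) (Fin n) ℂ := ((U⁻¹ : (Matrix (Fin n) (Fin n) ℂ)ˣ) : _)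
  have hVU : V * R.A = 1 := by rw [← hU]; exact U.inv_mul
  let τ : Matrix (Fin n) (Fin n) ℂ →ₗ[ℝ] Matrix (Fin n) (Fin n) ℂ :=
    { toFun := fun Y => R.A * Yᴴ * V
      map_add' := fun Y Z => by rw [Matrix.conjTranspose_add, mul_add, add_mul]
      map_smul' := fun c Y => by
        have h1 : (c • Y)ᴴ = c • Yᴴ := by
          ext a b
          rw [Matrix.conjTranspose_apply, Matrix.smul_apply, Matrix.smul_apply,
            Matrix.conjTranspose_apply, Complex.real_smul, Complex.real_smul, star_mul',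
            Complex.star_def, Complex.conj_ofReal]
        rw [h1, RingHom.id_apply, mul_smul_comm, smul_mul_assoc] }
  have hτ : ∀ Y, τ Y * R.A = R.A * Yᴴ := by
    intro Y
    change R.A * Yᴴ * V * R.A = _
    rw [mul_assoc, hVU, mul_one]
  have hτf : ∀ x, τ (R.f x) = R.f (star x) := by
    intro x
    have h1 := hτ (R.f x)
    rw [← R.star_f] at h1
    exact R.unit.mul_right_cancel h1
  obtain ⟨r, b, hr, hli, hz⟩ := loc_real hS hn hdeg R hR B h0 h2 h00 h20 τ hτ
  obtain ⟨ε, hε, hroots⟩ := real_roots hr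
  let _ : Algebra k ℝ := φ.toAlgebra
  have hal : ∀ a : k, algebraMap k ℝ a = φ a := fun a => rfl
  obtain ⟨δ, hδ, hnear⟩ := near_D (F := ℝ) (A := Matrix (Fin n) (Fin n) ℂ) B
    (Module.finBasis ℝ (Matrix (Fin n) (Fin n) ℂ)) R.f
    (fun a x => by rw [f_smul R hR, hal]) τ hτf c0 c2 b (n := n) hli
    (monic_prod_of_monic _ _ fun i _ => monic_X_sub_C _) (natDegree_prod_X_sub_C' _) hz hε
  have hx : ∀ j, ∃ y : k, |φ y - b j| < δ / 2 := by
    intro j
    obtain ⟨q, hq1, hq2⟩ := exists_rat_btwn (show b j - δ / 2 < b j + δ / 2 by linarith)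
    refine ⟨(q : k), ?_⟩
    rw [map_ratCast, abs_lt]
    constructor <;> linarith
  choose x hx using hx
  refine ⟨x, δ / 2, half_pos hδ, fun β hβ => ?_⟩
  obtain ⟨h1, h3⟩ := hnear β (fun j => by
    have e2 := hβ j
    rw [plAbv_inr, map_sub] at e2
    rw [hal, Real.norm_eq_abs]
    have e3 := abs_sub_le (φ (B.repr β j)) (φ (x j)) (b j)
    have e4 := hx j
    linarith)
  refine ⟨h1, fun m hm hmn hmz => hroots (m.map φ) (hm.map φ) (by rw [natDegree_map, hmn])
    fun i => ?_⟩
  rw [coeff_map]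
  exact h3 m hm hmn hmz i

/-- Choice of the element. -/
theorem exists_beta [NumberField K] (hS : Setting k K D d s) (hn : 0 < n)
    (hdeg : finrank K D = n ^ 2)
    {c0 c2 : D} (h0 : star c0 = c0) (h2 : star c2 = c2) (h00 : c0 ≠ 0)
    (h20 : c2 ≠ 0) {V : Set (HeightOneSpectrum (𝓞 k))} (hV : V.Finite)
    (hVns : ∀ v ∈ V, d ∉ LS (v.valuation k)) (hne : V.Nonempty ∨ ∃ φ : k →+* ℝ, φ d < 0) :
    ∃ β : D, LinearIndependent k (fun i : Fin n => (c0⁻¹ * β * c2 * star β) ^ (i : ℕ)) ∧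
      (∀ v ∈ V, ∀ (E : Type) [Field E] [NumberField E] [Algebra k E] (θ : E), finrank k E = n →
        (minpoly k θ).natDegree = n → aeval (c0⁻¹ * β * c2 * star β) (minpoly k θ) = 0 →
        TotSplit E v) ∧
      ∀ φ : k →+* ℝ, φ d < 0 → ∀ m : k[X], m.Monic → m.natDegree = n →
        aeval (c0⁻¹ * β * c2 * star β) m = 0 →
        ∃ ρ : Fin n → ℝ, Function.Injective ρ ∧ m.map φ = ∏ i, (X - C (ρ i)) := by
  classical
  have := hS.fin_k
  let B := Module.finBasis k D
  let T : Set (Pl k) := Sum.inl '' V ∪ Sum.inr '' {φ | φ d < 0}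
  have hTf : T.Finite := (hV.image _).union (Set.toFinite _ |>.image _)
  have h1 : ∀ v : HeightOneSpectrum (𝓞 k), ∃ (x : Fin (finrank k D) → k) (δ : ℝ), 0 < δ ∧
      (v ∈ V → ∀ β : D, (∀ j, plAbv (Sum.inl v) (B.repr β j - x j) < δ) →
      LinearIndependent k (fun i : Fin n => (c0⁻¹ * β * c2 * star β) ^ (i : ℕ)) ∧
      ∀ (E : Type) [Field E] [NumberField E] [Algebra k E] (θ : E), finrank k E = n →
        (minpoly k θ).natDegree = n → aeval (c0⁻¹ * β * c2 * star β) (minpoly k θ) = 0 →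
        TotSplit E v) := by
    intro v
    by_cases hv : v ∈ V
    · obtain ⟨x, δ, hδ, h⟩ := good_inl hS hdeg B h0 h2 h00 h20 v (hVns v hv)
      exact ⟨x, δ, hδ, fun _ => h⟩
    · exact ⟨0, 1, one_pos, fun h => absurd h hv⟩
  have h3 : ∀ φ : k →+* ℝ, ∃ (x : Fin (finrank k D) → k) (δ : ℝ), 0 < δ ∧
      (φ d < 0 → ∀ β : D, (∀ j, plAbv (Sum.inr φ) (B.repr β j - x j) < δ) →
      LinearIndependent k (fun i : Fin n => (c0⁻¹ * β * c2 * star β) ^ (i : ℕ)) ∧
      ∀ m : k[X], m.Monic → m.natDegree = n → aeval (c0⁻¹ * β * c2 * star β) m = 0 →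
        ∃ ρ : Fin n → ℝ, Function.Injective ρ ∧ m.map φ = ∏ i, (X - C (ρ i))) := by
    intro φ
    by_cases hφ : φ d < 0
    · obtain ⟨x, δ, hδ, h⟩ := good_inr hS hn hdeg B h0 h2 h00 h20 φ hφ
      exact ⟨x, δ, hδ, fun _ => h⟩
    · exact ⟨0, 1, one_pos, fun h => absurd h hφ⟩
  choose xv δv hδv hv using h1
  choose xφ δφ hδφ hφ using h3
  have happ : ∀ j, ∃ f : k, ∀ p ∈ T, plAbv p (f - Sum.elim (fun v => xv v j) (fun φ => xφ φ j) p) <
      Sum.elim δv δφ p := fun j => approx T hTf _ _ (by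
    rintro (v | φ)
    · exact hδv v
    · exact hδφ φ)
  choose f hf using happ
  have hrepr : ∀ j, B.repr (∑ j, f j • B j) j = f j := fun j => by
    rw [B.repr_sum_self]
  have hinl := fun v (hvV : v ∈ V) => hv v hvV (∑ j, f j • B j) (fun j => by
    rw [hrepr]; exact hf j (Sum.inl v) (Or.inl ⟨v, hvV, rfl⟩))
  have hinr := fun φ (hφd : φ d < 0) => hφ φ hφd (∑ j, f j • B j) (fun j => by
    rw [hrepr]; exact hf j (Sum.inr φ) (Or.inr ⟨φ, hφd, rfl⟩))
  refine ⟨∑ j, f j • B j, ?_, fun v hvV => (hinl v hvV).2, fun φ hφd => (hinr φ hφd).2⟩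
  rcases hne with ⟨v, hvV⟩ | ⟨φ, hφd⟩
  · exact (hinl v hvV).1
  · exact (hinr φ hφd).1

end Vale.Agent.P011.Even
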