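import Vale.Agent.P011.Even.LocDefs
import Vale.Agent.P011.Arith.Schilling

/-!
The completion of a number field at a finite place is a local field in the sense of `LocDefs`,
and its norm groups of quadratic extensions have index two.
-/

open NumberField IsDedekindDomain WithZeroMulInt

namespace Vale.Agent.P011.Even

/-- A local field is locally compact. -/
theorem properSpace_of_isLocF (F : Type) [NontriviallyNormedField F] [hF : IsLocF F] :
    ProperSpace F := by
  classical
  have := hF.ultra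
  have := hF.complete
  obtain ⟨ϖ, hϖ0, hϖ1, hϖ⟩ := hF.discrete
  obtain ⟨T0, hT0⟩ := hF.finite
  have hpos : 0 < ‖ϖ‖ := norm_pos_iff.mpr hϖ0
  have hball : ∀ n : ℕ, ∃ T : Finset F, ∀ x : F, ‖x‖ ≤ 1 → ∃ t ∈ T, ‖x - t‖ ≤ ‖ϖ‖ ^ n := by
    intro n
    induction n with
    | zero => exact ⟨{0}, fun x hx => ⟨0, by simp, by simpa using hx⟩⟩
    | succ n ih =>
      obtain ⟨T, hT⟩ := ih
      refine ⟨(T0 ×ˢ T).image fun p => p.1 + ϖ * p.2, fun x hx => ?_⟩
      obtain ⟨t, ht, h1⟩ := hT0 x hx
      have h2 := hϖ _ h1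
      obtain ⟨t', ht', h3⟩ := hT ((x - t) / ϖ) (by
        rw [norm_div, div_le_one hpos]; exact h2)
      refine ⟨t + ϖ * t', Finset.mem_image.mpr ⟨(t, t'), Finset.mem_product.mpr ⟨ht, ht'⟩, rfl⟩, ?_⟩
      have e : x - (t + ϖ * t') = ϖ * ((x - t) / ϖ - t') := by field_simp; ring
      rw [e, norm_mul, pow_succ']
      exact mul_le_mul_of_nonneg_left h3 hpos.le
  have hcpt : IsCompact (Metric.closedBall (0 : F) 1) := by
    rw [isCompact_iff_totallyBounded_isComplete]
    refine ⟨?_, Metric.isClosed_closedBall.isComplete⟩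
    rw [Metric.totallyBounded_iff]
    intro ε hε
    obtain ⟨n, hn⟩ := exists_pow_lt_of_lt_one hε hϖ1
    obtain ⟨T, hT⟩ := hball n
    refine ⟨T, T.finite_toSet, fun x hx => ?_⟩
    rw [Metric.mem_closedBall, dist_zero_right] at hx
    obtain ⟨t, ht, h1⟩ := hT x hx
    refine Set.mem_iUnion₂.mpr ⟨t, ht, ?_⟩
    rw [Metric.mem_ball, dist_eq_norm]
    exact lt_of_le_of_lt h1 hn
  have : LocallyCompactSpace F :=
    hcpt.locallyCompactSpace_of_mem_nhds_of_addGroup (Metric.closedBall_mem_nhds 0 one_pos)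
  exact .of_nontriviallyNormedField_of_weaklyLocallyCompactSpace F

open Arith NumberField.HeightOneSpectrum

variable {k : Type} [Field k] [NumberField k] (v : HeightOneSpectrum (𝓞 k))

theorem valued_alg (x : k) :
    Valued.v (algebraMap k (v.adicCompletion k) x) = v.valuation k x :=
  HeightOneSpectrum.valuedAdicCompletion_eq_valuation' v x

theorem norm_eq (x : v.adicCompletion k) :
    ‖x‖ = toNNReal (absNorm_ne_zero v) (Valued.v x) := NumberField.FinitePlace.norm_def v x

theorem norm_lt_iff (x y : v.adicCompletion k) : ‖x‖ < ‖y‖ ↔ Valued.v x < Valued.v y := by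
  rw [norm_eq, norm_eq, NNReal.coe_lt_coe]
  exact (toNNReal_strictMono (one_lt_absNorm_nnreal v)).lt_iff_lt

theorem norm_le_iff (x y : v.adicCompletion k) : ‖x‖ ≤ ‖y‖ ↔ Valued.v x ≤ Valued.v y := by
  rw [norm_eq, norm_eq, NNReal.coe_le_coe]
  exact (toNNReal_strictMono (one_lt_absNorm_nnreal v)).le_iff_le

theorem norm_lt_one_iff (x : v.adicCompletion k) : ‖x‖ < 1 ↔ Valued.v x < 1 := by
  have := norm_lt_iff v x 1
  rwa [norm_one, map_one] at this

theorem norm_le_one_iff (x : v.adicCompletion k) : ‖x‖ ≤ 1 ↔ Valued.v x ≤ 1 := by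
  have := norm_le_iff v x 1
  rwa [norm_one, map_one] at this

theorem exp_neg_one_lt : WithZero.exp (-1 : ℤ) < (1 : Z0) := by
  rw [← WithZero.exp_zero, WithZero.exp_lt_exp]; norm_num

theorem alg_ne_zero' {x : k} (hx : x ≠ 0) : algebraMap k (v.adicCompletion k) x ≠ 0 :=
  (map_ne_zero _).mpr hx

/-- The completion at a finite place is a nontrivially normed field. -/
@[reducible] noncomputable def nnf : NontriviallyNormedField (v.adicCompletion k) where
  toNormedField := inferInstance
  non_trivial := by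
    obtain ⟨π, hπ⟩ := v.valuation_exists_uniformizer k
    refine ⟨(algebraMap k (v.adicCompletion k) π)⁻¹, ?_⟩
    have h0 : algebraMap k (v.adicCompletion k) π ≠ 0 := by
      intro h
      have := valued_alg v π
      rw [h, map_zero, hπ] at this
      exact WithZero.exp_ne_zero this.symm
    rw [norm_inv, one_lt_inv₀ (norm_pos_iff.mpr h0), norm_lt_one_iff, valued_alg, hπ]
    exact exp_neg_one_lt

theorem dense (x : v.adicCompletion k) (ε : ℝ) (hε : 0 < ε) :
    ∃ y : k, ‖x - algebraMap k _ y‖ < ε := by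
  have h := HeightOneSpectrum.denseRange_algebraMap k v
  have h1 := Metric.denseRange_iff.mp h x ε hε
  obtain ⟨y, hy⟩ := h1
  exact ⟨y, by rwa [dist_eq_norm] at hy⟩

/-- Density in terms of the valuation. -/
theorem dense_val (x : v.adicCompletion k) (γ : Z0) (hγ : γ ≠ 0) :
    ∃ y : k, Valued.v (x - algebraMap k _ y) < γ := by
  obtain ⟨z, hz⟩ := v.valuedAdicCompletion_surjective k γ
  have hz0 : z ≠ 0 := by
    rintro rfl
    rw [map_zero] at hz
    exact hγ hz.symm
  obtain ⟨y, hy⟩ := dense v x ‖z‖ (norm_pos_iff.mpr hz0)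
  exact ⟨y, by rwa [norm_lt_iff, hz] at hy⟩

theorem exists_radius (ε : Z0) (hε : ε ≠ 0) : ∃ δ : ℝ, 0 < δ ∧ ∀ y : k,
      ‖algebraMap k (v.adicCompletion k) y‖ < δ → v.valuation k y < ε := by
  obtain ⟨z, hz⟩ := v.valuedAdicCompletion_surjective k ε
  have hz0 : z ≠ 0 := by
    rintro rfl
    rw [map_zero] at hz
    exact hε hz.symm
  refine ⟨‖z‖, norm_pos_iff.mpr hz0, fun y hy => ?_⟩
  rwa [norm_lt_iff, hz, valued_alg] at hy

theorem isUltra : IsUltrametricDist (v.adicCompletion k) := by
  apply IsUltrametricDist.isUltrametricDist_of_forall_norm_add_le_max_norm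
  intro x y
  rcases le_total ‖x‖ ‖y‖ with h | h
  · rw [max_eq_right h, norm_le_iff]
    rw [norm_le_iff] at h
    exact Valued.v.map_add_le h le_rfl
  · rw [max_eq_left h, norm_le_iff]
    rw [norm_le_iff] at h
    exact Valued.v.map_add_le le_rfl h

instance charZero_compl : CharZero (v.adicCompletion k) :=
  charZero_of_injective_algebraMap (algebraMap k (v.adicCompletion k)).injective

/-- It is a local field. -/
theorem isLocF : @IsLocF (v.adicCompletion k) (nnf v) := by
  let _ := nnf v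
  classical
  refine ⟨inferInstance, isUltra v, inferInstance, ?_, ?_⟩
  · obtain ⟨π, hπ⟩ := v.valuation_exists_uniformizer k
    refine ⟨algebraMap k (v.adicCompletion k) π, ?_, ?_, fun x hx => ?_⟩
    · apply alg_ne_zero'
      rintro rfl
      rw [map_zero] at hπ
      exact WithZero.exp_ne_zero hπ.symm
    · rw [norm_lt_one_iff, valued_alg, hπ]
      exact exp_neg_one_lt
    · rw [norm_lt_one_iff] at hx
      rw [norm_le_iff, valued_alg, hπ]
      rw [z0_lt_iff_le_mul one_ne_zero, one_mul] at hx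
      exact hx
  · have hfin : Finite (𝓞 k ⧸ v.asIdeal) := finite_residue v
    have := Fintype.ofFinite (𝓞 k ⧸ v.asIdeal)
    let r : 𝓞 k ⧸ v.asIdeal → 𝓞 k := fun q => (Ideal.Quotient.mk_surjective q).choose
    have hr : ∀ q, Ideal.Quotient.mk v.asIdeal (r q) = q := fun q =>
      (Ideal.Quotient.mk_surjective q).choose_spec
    refine ⟨Finset.univ.image fun q => algebraMap k (v.adicCompletion k)
      (algebraMap (𝓞 k) k (r q)), fun x hx => ?_⟩
    rw [norm_le_one_iff] at hx
    obtain ⟨y, hy⟩ := dense_val v x 1 one_ne_zero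
    have hy1 : v.valuation k y ≤ 1 := by
      rw [← valued_alg]
      have : algebraMap k (v.adicCompletion k) y = x - (x - algebraMap k _ y) := by ring
      rw [this]
      exact Valued.v.map_sub_le hx hy.le
    obtain ⟨a, ha⟩ := exists_residue v hy1
    refine ⟨_, Finset.mem_image.mpr ⟨Ideal.Quotient.mk v.asIdeal a, Finset.mem_univ _, rfl⟩, ?_⟩
    rw [norm_lt_one_iff]
    have h1 : v.valuation k (algebraMap (𝓞 k) k (a - r (Ideal.Quotient.mk v.asIdeal a))) < 1 := by
      rw [← mk_eq_zero_iff, map_sub, hr, sub_self]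
    set b := r (Ideal.Quotient.mk v.asIdeal a) with hb
    have e : x - algebraMap k (v.adicCompletion k) (algebraMap (𝓞 k) k b) =
        (x - algebraMap k (v.adicCompletion k) y) -
          algebraMap k (v.adicCompletion k) (algebraMap (𝓞 k) k a - y) +
          algebraMap k (v.adicCompletion k) (algebraMap (𝓞 k) k (a - b)) := by
      simp only [map_sub]; ring
    rw [e]
    refine Valued.v.map_add_lt (Valued.v.map_sub_lt hy ?_) ?_
    · rw [valued_alg]; exact ha
    · rw [valued_alg]; exact h1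

instance properSpace_compl : ProperSpace (v.adicCompletion k) := by
  let _ := nnf v
  have _ := isLocF v
  exact properSpace_of_isLocF (v.adicCompletion k)

theorem isSquare_of_approx {x : v.adicCompletion k} (hx : x ≠ 0)
    (h : ∀ γ : Z0, γ ≠ 0 → ∃ y : v.adicCompletion k, y ≠ 0 ∧ Valued.v (x / y ^ 2 - 1) < γ) :
    IsSquare x := by
  have hx0 : (Valued.v x : Z0) ≠ 0 := (Valuation.ne_zero_iff _).mpr hx
  have hcpt : IsCompact (Metric.closedBall (0 : v.adicCompletion k) (max 1 ‖x‖)) :=
    isCompact_closedBall _ _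
  obtain ⟨z, -, hz⟩ := hcpt.exists_isMinOn (f := fun z => ‖z ^ 2 - x‖)
    ⟨0, by simp⟩ (by fun_prop)
  refine ⟨z, ?_⟩
  by_contra hne
  have hne' : z ^ 2 - x ≠ 0 := by
    intro h0
    apply hne
    rw [← sq]
    exact (sub_eq_zero.mp h0).symm
  have hq0 : (Valued.v ((z ^ 2 - x) / x) : Z0) ≠ 0 :=
    (Valuation.ne_zero_iff _).mpr (div_ne_zero hne' hx)
  obtain ⟨y, hy0, hy⟩ := h (min 1 (Valued.v ((z ^ 2 - x) / x))) (by
    rcases min_choice (1 : Z0) (Valued.v ((z ^ 2 - x) / x)) with h1 | h1 <;> rw [h1]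
    · exact one_ne_zero
    · exact hq0)
  have hy1 : Valued.v (x / y ^ 2 - 1) < (1 : Z0) := lt_of_lt_of_le hy (min_le_left _ _)
  have hy2 : Valued.v (x / y ^ 2 - 1) < (Valued.v ((z ^ 2 - x) / x) : Z0) :=
    lt_of_lt_of_le hy (min_le_right _ _)
  have h1 : (Valued.v (x / y ^ 2) : Z0) = 1 := by
    have := Valued.v.map_one_add_of_lt hy1
    rwa [add_sub_cancel] at this
  have hyx : (Valued.v (y ^ 2) : Z0) = Valued.v x := by
    rw [map_div₀, div_eq_one_iff_eq] at h1
    · exact h1.symm
    · exact (Valuation.ne_zero_iff _).mpr (pow_ne_zero 2 hy0)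
  have hmem : y ∈ Metric.closedBall (0 : v.adicCompletion k) (max 1 ‖x‖) := by
    rw [mem_closedBall_zero_iff]
    by_contra hlt
    rw [not_le, max_lt_iff] at hlt
    have h3 : ‖y ^ 2‖ = ‖x‖ := by
      rw [norm_eq, norm_eq, hyx]
    rw [norm_pow] at h3
    nlinarith [hlt.1, hlt.2]
  have h4 := hz hmem
  simp only [Set.mem_ofPred_eq] at h4
  rw [norm_le_iff] at h4
  have h5 : (Valued.v (y ^ 2 - x) : Z0) = Valued.v (x / y ^ 2 - 1) * Valued.v x := by
    rw [← hyx, ← map_mul, ← Valuation.map_neg]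
    congr 1
    field_simp
    ring
  rw [h5] at h4
  rw [map_div₀, lt_div_iff₀ (zero_lt_iff.mpr hx0)] at hy2
  exact absurd hy2 (not_lt.mpr h4)

theorem isSquare_of_LS {x : (v.adicCompletion k)ˣ}
    (hx : x ∈ LS (Valued.v : Valuation (v.adicCompletion k) Z0)) :
    IsSquare (x : v.adicCompletion k) := by
  apply isSquare_of_approx v x.ne_zero
  intro γ hγ
  obtain ⟨y, hy⟩ := LS_newton' hx hγ
  exact ⟨y, y.ne_zero, hy⟩

theorem isSquare_of_close {x : v.adicCompletion k}
    (hx : Valued.v (x - 1) < (Valued.v (4 : v.adicCompletion k) : Z0)) : IsSquare x := by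
  have h1 : (Valued.v x : Z0) = 1 := by
    have := (Valued.v : Valuation (v.adicCompletion k) Z0).map_one_add_of_lt (x := x - 1)
      (lt_of_lt_of_le hx (val_four_le _))
    rwa [add_sub_cancel] at this
  have hx0 : x ≠ 0 := by
    rintro rfl
    rw [map_zero] at h1
    exact zero_ne_one h1
  exact isSquare_of_LS v (x := Units.mk0 x hx0) (LS_of_close hx)

theorem isSquare_iff (a : kˣ) :
    IsSquare (algebraMap k (v.adicCompletion k) a) ↔ a ∈ LS (v.valuation k) := by
  constructor
  · rintro ⟨z, hz⟩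
    have ha0 : algebraMap k (v.adicCompletion k) a ≠ 0 := alg_ne_zero' v a.ne_zero
    have hz0 : z ≠ 0 := by
      rintro rfl
      rw [zero_mul] at hz
      exact ha0 hz
    have hvz : (Valued.v z : Z0) ≠ 0 := (Valuation.ne_zero_iff _).mpr hz0
    have h4 : (Valued.v (4 : v.adicCompletion k) : Z0) ≠ 0 := val_four_ne _
    obtain ⟨y, hy⟩ := dense_val v z (Valued.v (4 : v.adicCompletion k) * Valued.v z)
      (mul_ne_zero h4 hvz)
    set ι := algebraMap k (v.adicCompletion k) with hι
    have hy1 : Valued.v (z - ι y) < (Valued.v z : Z0) :=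
      lt_of_lt_of_le hy (by
        conv_rhs => rw [← one_mul (Valued.v z : Z0)]
        exact mul_le_mul_left (val_four_le _) _)
    have hyz : (Valued.v (ι y) : Z0) = Valued.v z := by
      have := Valuation.map_sub_eq_of_lt_right (Valued.v : Valuation (v.adicCompletion k) Z0) hy1
      rwa [show z - ι y - z = -(ι y) by ring, Valuation.map_neg] at this
    have hιy : ι y ≠ 0 := (Valuation.ne_zero_iff (Valued.v : Valuation _ Z0)).mp (hyz ▸ hvz)
    have hy0 : y ≠ 0 := by
      rintro rfl
      exact hιy (map_zero _)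
    refine ⟨Units.mk0 y hy0, ?_⟩
    rw [Units.val_mk0, ← valued_alg, ← valued_alg, map_sub, map_div₀, map_pow, map_one, hz,
      map_ofNat]
    have e : z * z / ι y ^ 2 - 1 = (z - ι y) * (z + ι y) / ι y ^ 2 := by
      field_simp
      ring
    have h5 : (Valued.v (z + ι y) : Z0) ≤ Valued.v z := Valued.v.map_add_le le_rfl hyz.le
    rw [e, map_div₀, map_mul, map_pow, hyz, div_lt_iff₀ (zero_lt_iff.mpr (pow_ne_zero 2 hvz))]
    calc (Valued.v (z - ι y) : Z0) * Valued.v (z + ι y)
        ≤ Valued.v (z - ι y) * Valued.v z := mul_le_mul_right h5 _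
      _ < Valued.v (4 : v.adicCompletion k) * Valued.v z * Valued.v z :=
          mul_lt_mul_of_pos_right hy (zero_lt_iff.mpr hvz)
      _ = _ := by rw [mul_assoc, ← sq]
  · intro h
    apply isSquare_of_approx v (alg_ne_zero' v a.ne_zero)
    intro γ hγ
    obtain ⟨y, hy⟩ := LS_newton' h hγ
    refine ⟨algebraMap k _ y, alg_ne_zero' v y.ne_zero, ?_⟩
    rw [← map_pow, ← map_div₀, ← map_one (algebraMap k (v.adicCompletion k)), ← map_sub,
      valued_alg]
    exact hy

/-- Every element of the completion is a global element up to a square. -/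
theorem exists_glob (x : (v.adicCompletion k)ˣ) :
    ∃ (a : kˣ) (u : v.adicCompletion k), u ≠ 0 ∧
      (x : v.adicCompletion k) = algebraMap k _ (a : k) * u ^ 2 := by
  have hvx : (Valued.v (x : v.adicCompletion k) : Z0) ≠ 0 := (Valuation.ne_zero_iff _).mpr x.ne_zero
  have h4 : (Valued.v (4 : v.adicCompletion k) : Z0) ≠ 0 := val_four_ne _
  obtain ⟨y, hy⟩ := dense_val v x (Valued.v (4 : v.adicCompletion k) * Valued.v x.val)
      (mul_ne_zero h4 hvx)
  set ι := algebraMap k (v.adicCompletion k) with hι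
  have hy1 : Valued.v (x - ι y) < (Valued.v (x : v.adicCompletion k) : Z0) :=
      lt_of_lt_of_le hy (by
        conv_rhs => rw [← one_mul (Valued.v x.val : Z0)]
        exact mul_le_mul_left (val_four_le _) _)
  have hyz : (Valued.v (ι y) : Z0) = Valued.v x.val := by
    have := Valuation.map_sub_eq_of_lt_right (Valued.v : Valuation (v.adicCompletion k) Z0) hy1
    rwa [show x.val - ι y - x.val = -(ι y) by ring, Valuation.map_neg] at this
  have hιy : ι y ≠ 0 := (Valuation.ne_zero_iff (Valued.v : Valuation _ Z0)).mp (hyz ▸ hvx)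
  have hy0 : y ≠ 0 := by
    rintro rfl
    exact hιy (map_zero _)
  obtain ⟨u, hu⟩ := isSquare_of_close v (x := x / ι y) (by
    have e : x / ι y - 1 = (x - ι y) / ι y := by field_simp
    rw [e, map_div₀, hyz, div_lt_iff₀ (zero_lt_iff.mpr hvx)]
    exact hy)
  refine ⟨Units.mk0 y hy0, u, ?_, ?_⟩
  · rintro rfl
    rw [zero_mul, div_eq_zero_iff] at hu
    exact hu.elim x.ne_zero hιy
  · rw [Units.val_mk0, sq, ← hu]
    field_simp

/-- the embedding of the unit groups -/
noncomputable def iu : kˣ →* (v.adicCompletion k)ˣ :=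
  Units.map (algebraMap k (v.adicCompletion k) : k →* v.adicCompletion k)

theorem iu_val (a : kˣ) : ((iu v a : (v.adicCompletion k)ˣ) : v.adicCompletion k) =
    algebraMap k _ (a : k) := rfl

theorem mem_LN_iff (a b : kˣ) :
    iu v b ∈ LN (iu v a) ↔ b ∈ NF a ⊔ LS (v.valuation k) := by
  set ι := algebraMap k (v.adicCompletion k) with hι
  constructor
  · rintro ⟨X, Y, hXY⟩
    have hXY' : ι (b : k) = X ^ 2 - ι (a : k) * Y ^ 2 := hXY
    have hb0 : ι (b : k) ≠ 0 := alg_ne_zero' v b.ne_zero
    have h40 : (4 : v.adicCompletion k) ≠ 0 := by norm_num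
    have hdense : DenseRange (Prod.map ι ι) :=
      (HeightOneSpectrum.denseRange_algebraMap k v).prodMap
        (HeightOneSpectrum.denseRange_algebraMap k v)
    have hopen : IsOpen {p : v.adicCompletion k × v.adicCompletion k |
        ‖p.1 ^ 2 - ι (a : k) * p.2 ^ 2 - ι (b : k)‖ < ‖(4 : v.adicCompletion k) * ι (b : k)‖} := by
      apply isOpen_lt
      · fun_prop
      · exact continuous_const
    obtain ⟨⟨p, q⟩, hpq⟩ := hdense.exists_mem_open hopen ⟨(X, Y), by
      change ‖X ^ 2 - ι (a : k) * Y ^ 2 - ι (b : k)‖ < _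
      rw [← hXY', sub_self, norm_zero]
      exact norm_pos_iff.mpr (mul_ne_zero h40 hb0)⟩
    have hpq' : ‖ι p ^ 2 - ι (a : k) * ι q ^ 2 - ι (b : k)‖ <
      ‖(4 : v.adicCompletion k) * ι (b : k)‖ := hpq
    have hvb : v.valuation k (b : k) ≠ 0 := (Valuation.ne_zero_iff _).mpr b.ne_zero
    have e1 : ι p ^ 2 - ι (a : k) * ι q ^ 2 - ι (b : k) = ι (p ^ 2 - a * q ^ 2 - b) := by
      simp only [map_sub, map_mul, map_pow]
    have e2 : (4 : v.adicCompletion k) * ι (b : k) = ι (4 * b) := by
      rw [map_mul, map_ofNat]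
    rw [norm_lt_iff, e1, e2, valued_alg, valued_alg, map_mul] at hpq'
    have hlt : v.valuation k (p ^ 2 - a * q ^ 2 - b) < v.valuation k (b : k) :=
      lt_of_lt_of_le hpq' (by
        conv_rhs => rw [← one_mul (v.valuation k (b : k))]
        exact mul_le_mul_left (val_four_le _) _)
    have hvc : v.valuation k (p ^ 2 - a * q ^ 2) = v.valuation k (b : k) := by
      have := Valuation.map_add_eq_of_lt_right (v.valuation k) hlt
      rwa [sub_add_cancel] at this
    have hc0 : p ^ 2 - a * q ^ 2 ≠ 0 :=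
      (Valuation.ne_zero_iff (v.valuation k)).mp (hvc ▸ hvb)
    refine Subgroup.mem_sup.mpr ⟨Units.mk0 _ hc0, ⟨p, q, rfl⟩, b / Units.mk0 _ hc0, ?_, by
      rw [mul_div_cancel]⟩
    apply LS_of_close
    rw [Units.val_div_eq_div_val, Units.val_mk0]
    have e3 : (b : k) / (p ^ 2 - a * q ^ 2) - 1 = -(p ^ 2 - a * q ^ 2 - b) / (p ^ 2 - a * q ^ 2) := by
      field_simp
      ring
    rw [e3, map_div₀, Valuation.map_neg, hvc, div_lt_iff₀ (zero_lt_iff.mpr hvb)]
    exact hpq'
  · intro h
    obtain ⟨c, ⟨p, q, hpq⟩, s, hs, h⟩ := Subgroup.mem_sup.mp h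
    obtain ⟨u, hu⟩ := (isSquare_iff v s).mpr hs
    refine ⟨ι p * u, ι q * u, ?_⟩
    rw [iu_val, iu_val, ← h, Units.val_mul, map_mul, hu, hpq]
    simp only [map_sub, map_mul, map_pow]
    ring

theorem LN_mul_sq {F : Type} [Field F] (a u : Fˣ) : LN (a * u ^ 2) = LN a := by
  ext b
  constructor
  · rintro ⟨x, y, h⟩
    exact ⟨x, u * y, by rw [h]; push_cast; ring⟩
  · rintro ⟨x, y, h⟩
    refine ⟨x, y / u, ?_⟩
    rw [h]
    push_cast
    have : (u : F) ≠ 0 := u.ne_zero
    field_simp

theorem sq_mem_LN {F : Type} [Field F] (a u : Fˣ) : u ^ 2 ∈ LN a :=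
  ⟨u, 0, by push_cast; ring⟩

theorem exists_global' (x : (v.adicCompletion k)ˣ) :
    ∃ (a : kˣ) (u : (v.adicCompletion k)ˣ), x = iu v a * u ^ 2 := by
  obtain ⟨a, u, hu, h⟩ := exists_glob v x
  exact ⟨a, Units.mk0 u hu, Units.ext h⟩

theorem comap_LN (a : kˣ) : (LN (iu v a)).comap (iu v) = NF a ⊔ LS (v.valuation k) := by
  ext b
  exact mem_LN_iff v a b

theorem index_LN (a : kˣ) : (LN (iu v a)).index = (NF a ⊔ LS (v.valuation k)).index := by
  rw [← comap_LN, Subgroup.index_comap, ← Subgroup.relIndex_sup_right]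
  have : LN (iu v a) ⊔ (iu v).range = ⊤ := by
    rw [eq_top_iff]
    intro x _
    obtain ⟨b, u, rfl⟩ := exists_global' v x
    exact mul_mem (Subgroup.mem_sup_right ⟨b, rfl⟩) (Subgroup.mem_sup_left (sq_mem_LN _ u))
  rw [sup_comm, this, Subgroup.relIndex_top_right]

theorem NF_sup_index (c : kˣ) :
    (NF c ⊔ LS (v.valuation k)).index = 2 ∨ NF c ⊔ LS (v.valuation k) = ⊤ := by
  by_cases hc : c ∈ LS (v.valuation k)
  · exact Or.inr (NF_sup_of_mem' c hc)
  · exact Or.inl (local_index_two v c hc)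

/-- The norm group determines the square class. -/
theorem LS_of_norms_eq {a b : kˣ}
    (h : NF a ⊔ LS (v.valuation k) = NF b ⊔ LS (v.valuation k)) :
    a * b ∈ LS (v.valuation k) := by
  by_contra hab
  have h2 := local_index_two v (a * b) hab
  have htop : NF (a * b) ⊔ LS (v.valuation k) = ⊤ := by
    rw [eq_top_iff]
    intro c _
    apply mem_symm
    have h3 : a ∈ NF c ⊔ LS (v.valuation k) ↔ b ∈ NF c ⊔ LS (v.valuation k) := by
      constructor
      · intro h4
        apply mem_symm
        rw [← h]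
        exact mem_symm _ _ h4
      · intro h4
        apply mem_symm
        rw [h]
        exact mem_symm _ _ h4
    rcases NF_sup_index v c with h4 | h4
    · rw [Subgroup.mul_mem_iff_of_index_two h4]
      exact h3
    · rw [h4]; trivial
  rw [htop, Subgroup.index_top] at h2
  exact absurd h2 (by norm_num)

theorem index_two_compl (a : (v.adicCompletion k)ˣ) (ha : ¬ IsSquare (a : v.adicCompletion k)) :
    (LN a).index = 2 := by
  obtain ⟨a', u, rfl⟩ := exists_global' v a
  rw [LN_mul_sq, index_LN]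
  apply local_index_two
  rw [← isSquare_iff v]
  rintro ⟨z, hz⟩
  apply ha
  refine ⟨z * u, ?_⟩
  rw [Units.val_mul, iu_val, hz]
  push_cast
  ring

theorem norm_inj (a b : (v.adicCompletion k)ˣ) (h : LN a = LN b) :
    IsSquare ((a * b : (v.adicCompletion k)ˣ) : v.adicCompletion k) := by
  obtain ⟨a', u, rfl⟩ := exists_global' v a
  obtain ⟨b', w, rfl⟩ := exists_global' v b
  rw [LN_mul_sq, LN_mul_sq] at h
  have h1 := congrArg (Subgroup.comap (iu v)) h
  rw [comap_LN, comap_LN] at h1
  obtain ⟨z, hz⟩ := (isSquare_iff v (a' * b')).mpr (LS_of_norms_eq v h1)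
  refine ⟨z * u * w, ?_⟩
  rw [Units.val_mul, map_mul] at hz
  rw [Units.val_mul, Units.val_mul, Units.val_mul, Units.val_pow_eq_pow_val,
    Units.val_pow_eq_pow_val, iu_val, iu_val]
  linear_combination (u : v.adicCompletion k) ^ 2 * (w : v.adicCompletion k) ^ 2 * hz

theorem norm_cone (a : (v.adicCompletion k)ˣ) (ha : ¬ IsSquare (a : v.adicCompletion k)) :
    ∃ b ∈ LN a, ∃ c ∈ LN a, ∃ g : (v.adicCompletion k)ˣ, g ∉ LN a ∧
    (g : v.adicCompletion k) = b + c := by
  by_contra hcon
  push Not at hcon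
  have hadd : ∀ b c g : (v.adicCompletion k)ˣ, b ∈ LN a → c ∈ LN a →
      (g : v.adicCompletion k) = b + c → g ∈ LN a := by
    intro b c g hb hc hg
    by_contra hgn
    exact hcon b hb c hc g hgn hg
  have hnat : ∀ n : ℕ, ∀ g : (v.adicCompletion k)ˣ, (g : v.adicCompletion k) = (n + 1 : ℕ) →
      g ∈ LN a := by
    intro n
    induction n with
    | zero =>
      intro g hg
      have : g = 1 := Units.ext (by rw [hg]; simp)
      rw [this]
      exact one_mem _
    | succ n ih =>
      intro g hg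
      have h1 : ((n + 1 : ℕ) : v.adicCompletion k) ≠ 0 := Nat.cast_ne_zero.mpr (by omega)
      refine hadd (Units.mk0 _ h1) 1 g (ih _ rfl) (one_mem _) ?_
      rw [hg, Units.val_mk0]
      push_cast
      ring
  -- a large positive integer close to zero
  obtain ⟨N, hN1, hN⟩ : ∃ N : ℕ, 1 < N ∧
      (Valued.v ((N : ℕ) : v.adicCompletion k) : Z0) < Valued.v (4 : v.adicCompletion k) := by
    have h1 : 1 < Ideal.absNorm v.asIdeal := NumberField.HeightOneSpectrum.one_lt_absNorm v
    have h2 : (Valued.v ((Ideal.absNorm v.asIdeal : ℕ) : v.adicCompletion k) : Z0) < 1 := by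
      have e : ((Ideal.absNorm v.asIdeal : ℕ) : v.adicCompletion k) =
          algebraMap k _ (algebraMap (𝓞 k) k (Ideal.absNorm v.asIdeal : ℕ)) := by
        rw [map_natCast, map_natCast]
      rw [e, valued_alg, HeightOneSpectrum.valuation_lt_one_iff_mem]
      exact Ideal.absNorm_mem v.asIdeal
    have h4 : (Valued.v (4 : v.adicCompletion k) : Z0) ≠ 0 := val_four_ne _
    set m := Ideal.absNorm v.asIdeal with hm
    have h5 : ‖((m : ℕ) : v.adicCompletion k)‖ < 1 := (norm_lt_one_iff v _).mpr h2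
    obtain ⟨r, hr⟩ := exists_pow_lt_of_lt_one
      (norm_pos_iff.mpr (show (4 : v.adicCompletion k) ≠ 0 by norm_num)) h5
    refine ⟨m ^ (r + 1), Nat.one_lt_pow (by omega) h1, ?_⟩
    rw [← norm_lt_iff, Nat.cast_pow, norm_pow]
    refine lt_of_le_of_lt ?_ hr
    rw [pow_succ]
    exact mul_le_of_le_one_right (by positivity) h5.le
  have hneg : (-1 : (v.adicCompletion k)ˣ) ∈ LN a := by
    have h1 : IsSquare (1 - (N : v.adicCompletion k)) := by
      apply isSquare_of_close
      rw [show (1 - (N : v.adicCompletion k)) - 1 = -(N : v.adicCompletion k) by ring,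
        Valuation.map_neg]
      exact hN
    obtain ⟨z, hz⟩ := h1
    have h2 : ((N - 1 : ℕ) : v.adicCompletion k) ≠ 0 := Nat.cast_ne_zero.mpr (by omega)
    have h3 : ((N - 1 : ℕ) : v.adicCompletion k) = N - 1 := by
      rw [Nat.cast_sub (by omega)]; simp
    have hz0 : z ≠ 0 := by
      rintro rfl
      rw [zero_mul] at hz
      apply h2
      rw [h3]
      linear_combination -hz
    have h4 : Units.mk0 _ h2 ∈ LN a := hnat (N - 2) _ (by
      rw [Units.val_mk0]; congr 1; omega)
    have h5 : (-1 : (v.adicCompletion k)ˣ) = (Units.mk0 z hz0) ^ 2 * (Units.mk0 _ h2)⁻¹ := by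
      rw [eq_mul_inv_iff_mul_eq]
      apply Units.ext
      push_cast
      rw [Units.val_mk0, Units.val_mk0, sq, ← hz, h3]
      ring
    rw [h5]
    exact mul_mem (sq_mem_LN _ _) (inv_mem h4)
  have htop : LN a = ⊤ := by
    rw [eq_top_iff]
    intro x _
    by_cases h1 : (x : v.adicCompletion k) = 1
    · have : x = 1 := Units.ext h1
      rw [this]; exact one_mem _
    by_cases h2 : (x : v.adicCompletion k) = -1
    · have : x = -1 := Units.ext h2
      rw [this]; exact hneg
    have h3 : ((x : v.adicCompletion k) + 1) / 2 ≠ 0 :=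
      div_ne_zero (fun h => h2 (by linear_combination h)) two_ne_zero
    have h4 : ((x : v.adicCompletion k) - 1) / 2 ≠ 0 :=
      div_ne_zero (fun h => h1 (by linear_combination h)) two_ne_zero
    refine hadd ((Units.mk0 _ h3) ^ 2) (-1 * (Units.mk0 _ h4) ^ 2) x (sq_mem_LN _ _)
      (mul_mem hneg (sq_mem_LN _ _)) ?_
    push_cast
    rw [Units.val_mk0, Units.val_mk0]
    ring
  have := index_two_compl v a ha
  rw [htop, Subgroup.index_top] at this
  exact absurd this (by norm_num)

/-- The norm index theorem in the completion. -/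
theorem indexTwo : IndexTwo (v.adicCompletion k) where
  two := index_two_compl v
  inj := norm_inj v
  cone := norm_cone v

end Vale.Agent.P011.Even
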