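import Vale.Agent.P011.Even.Integr

/-!
Integrality and smallness of elements of subfields of a division algebra.
-/

open NumberField IsDedekindDomain Polynomial

namespace Vale.Agent.P011.Even

open Arith

variable {k E D : Type} [Field k] [NumberField k] [Field E] [NumberField E] [Algebra k E]
  [DivisionRing D] [Algebra k D] {N : ℕ} (B : Module.Basis (Fin N) k D) (j : E →ₐ[k] D)

/-- GA -/
theorem val_le_one_of_stable {v : HeightOneSpectrum (𝓞 k)} {w : HeightOneSpectrum (𝓞 E)}
    (hw : w.asIdeal.comap (algebraMap (𝓞 k) (𝓞 E)) = v.asIdeal) (y : E)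
    (hy : ∀ i l, v.valuation k (B.repr (j y * B i) l) ≤ 1) : w.valuation E y ≤ 1 := by
  refine val_le_of_matrix B j hw y fun a b => ?_
  rw [Algebra.leftMulMatrix_eq_repr_mul]
  exact hy b a

/-- GB -/
theorem abs_lt_one_of_small {φ : k →+* ℝ} {ψ : E →+* ℝ} (hψ : ψ.comp (algebraMap k E) = φ) (y : E)
    (hy : ∀ i, ∑ l, |φ (B.repr (j y * B i) l)| < 1) : |ψ y| < 1 := by
  classical
  by_contra hge
  rw [not_lt] at hge
  set M := Algebra.leftMulMatrix B (j y) with hMdef
  have h1 : aeval y M.charpoly = 0 := aeval_charpoly B j y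
  have h2 : (M.map φ).charpoly.eval (ψ y) = 0 := by
    rw [Matrix.charpoly_map, ← hψ, eval_map, ← Polynomial.hom_eval₂]
    have h3 : eval₂ (algebraMap k E) y M.charpoly = 0 := h1
    rw [h3, map_zero]
  rw [Matrix.eval_charpoly] at h2
  refine det_ne_zero_of_sum_col_lt_diag (fun a => ?_) h2
  have h3 : ∑ l, |φ (M l a)| < 1 := by
    have := hy a
    simp only [← Algebra.leftMulMatrix_eq_repr_mul B (j y)] at this
    exact this
  rw [← Finset.add_sum_erase _ _ (Finset.mem_univ a)] at h3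
  have h4 : ∀ b ∈ Finset.univ.erase a,
      ‖(Matrix.scalar (Fin N) (ψ y) - M.map φ) b a‖ = |φ (M b a)| := by
    intro b hb
    have hab : b ≠ a := Finset.ne_of_mem_erase hb
    rw [Matrix.sub_apply, Matrix.scalar_apply, Matrix.diagonal_apply_ne _ hab, zero_sub,
      norm_neg, Real.norm_eq_abs]
    rfl
  rw [Finset.sum_congr rfl h4]
  have h5 : ‖(Matrix.scalar (Fin N) (ψ y) - M.map φ) a a‖ = |ψ y - φ (M a a)| := by
    rw [Matrix.sub_apply, Matrix.scalar_apply, Matrix.diagonal_apply_eq, Real.norm_eq_abs]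
    rfl
  rw [h5]
  have h6 : |ψ y| - |φ (M a a)| ≤ |ψ y - φ (M a a)| := abs_sub_abs_le_abs_sub _ _
  linarith

end Vale.Agent.P011.Even
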