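import Vale.Agent.P011.Even.Defs

/-!
Sizes of elements of a finite dimensional algebra at the places of the ground field.
-/

open NumberField IsDedekindDomain

set_option linter.unusedSectionVars false

namespace Vale.Agent.P011.Even

open Arith

variable {k D : Type} [Field k] [NumberField k] [DivisionRing D] [Algebra k D] {N : ℕ}
  (B : Module.Basis (Fin N) k D) (p : Pl k)

/-- The size of an element at a place. -/
noncomputable def nm (x : D) : ℝ := ∑ i, plAbv p (B.repr x i)

theorem nm_nonneg (x : D) : 0 ≤ nm B p x := Finset.sum_nonneg fun _ _ => AbsoluteValue.nonneg _ _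

theorem nm_zero : nm B p 0 = 0 := by
  simp [nm]

theorem nm_add_le (x y : D) : nm B p (x + y) ≤ nm B p x + nm B p y := by
  rw [nm, nm, nm, ← Finset.sum_add_distrib]
  refine Finset.sum_le_sum fun i _ => ?_
  rw [map_add, Finsupp.add_apply]
  exact AbsoluteValue.add_le _ _ _

theorem nm_smul (c : k) (x : D) : nm B p (c • x) = plAbv p c * nm B p x := by
  rw [nm, nm, Finset.mul_sum]
  refine Finset.sum_congr rfl fun i _ => ?_
  rw [map_smul, Finsupp.smul_apply, smul_eq_mul, map_mul]

theorem nm_neg (x : D) : nm B p (-x) = nm B p x := by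
  rw [nm, nm]
  refine Finset.sum_congr rfl fun i _ => ?_
  rw [map_neg, Finsupp.neg_apply, AbsoluteValue.map_neg]

theorem nm_sub_le (x y : D) : nm B p (x - y) ≤ nm B p x + nm B p y := by
  rw [sub_eq_add_neg]
  exact (nm_add_le B p x (-y)).trans (by rw [nm_neg])

theorem nm_sum_le {ι : Type} (s : Finset ι) (f : ι → D) :
    nm B p (∑ i ∈ s, f i) ≤ ∑ i ∈ s, nm B p (f i) := by
  classical
  induction s using Finset.induction_on with
  | empty => rw [Finset.sum_empty, Finset.sum_empty, nm_zero]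
  | insert a s ha ih =>
    rw [Finset.sum_insert ha, Finset.sum_insert ha]
    exact (nm_add_le B p _ _).trans (add_le_add le_rfl ih)

theorem nm_lt_coord {x : D} {ε : ℝ} (h : nm B p x < ε) (i : Fin N) : plAbv p (B.repr x i) < ε :=
  (Finset.single_le_sum (f := fun i => plAbv p (B.repr x i))
    (fun _ _ => AbsoluteValue.nonneg _ _) (Finset.mem_univ i)).trans_lt h

/-- linear maps are continuous -/
theorem nm_linear (f : D →ₗ[k] D) : ∃ C : ℝ, 0 < C ∧ ∀ x, nm B p (f x) ≤ C * nm B p x := by
  refine ⟨∑ i, nm B p (f (B i)) + 1, ?_, fun x => ?_⟩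
  · have := Finset.sum_nonneg fun (i : Fin N) (_ : i ∈ Finset.univ) => nm_nonneg B p (f (B i))
    linarith
  · have h1 : f x = ∑ i, B.repr x i • f (B i) := by
      conv_lhs => rw [← B.sum_repr x]
      rw [map_sum]
      exact Finset.sum_congr rfl fun i _ => map_smul _ _ _
    rw [h1]
    refine (nm_sum_le B p _ _).trans ?_
    have h2 : ∀ i ∈ (Finset.univ : Finset (Fin N)), nm B p (B.repr x i • f (B i)) ≤
        (∑ i, nm B p (f (B i)) + 1) * plAbv p (B.repr x i) := by
      intro i _
      rw [nm_smul, mul_comm]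
      refine mul_le_mul_of_nonneg_right ?_ (AbsoluteValue.nonneg _ _)
      have := Finset.single_le_sum (f := fun i => nm B p (f (B i)))
        (fun _ _ => nm_nonneg _ _ _) (Finset.mem_univ i)
      linarith
    refine (Finset.sum_le_sum h2).trans ?_
    rw [← Finset.mul_sum]
    rfl

/-- the multiplication is continuous -/
theorem nm_mul : ∃ C : ℝ, 0 < C ∧ ∀ x y, nm B p (x * y) ≤ C * nm B p x * nm B p y := by
  choose C hC hCm using fun i => nm_linear B p (LinearMap.mulLeft k (B i))
  refine ⟨∑ i, C i + 1, ?_, fun x y => ?_⟩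
  · have := Finset.sum_nonneg fun (i : Fin N) (_ : i ∈ Finset.univ) => (hC i).le
    linarith
  · have h1 : x * y = ∑ i, B.repr x i • (B i * y) := by
      conv_lhs => rw [← B.sum_repr x]
      rw [Finset.sum_mul]
      exact Finset.sum_congr rfl fun i _ => smul_mul_assoc _ _ _
    rw [h1]
    refine (nm_sum_le B p _ _).trans ?_
    have h2 : ∀ i ∈ (Finset.univ : Finset (Fin N)), nm B p (B.repr x i • (B i * y)) ≤
        (∑ i, C i + 1) * nm B p y * plAbv p (B.repr x i) := by
      intro i _
      rw [nm_smul, mul_comm]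
      refine mul_le_mul_of_nonneg_right ?_ (AbsoluteValue.nonneg _ _)
      refine (hCm i y).trans ?_
      refine mul_le_mul_of_nonneg_right ?_ (nm_nonneg _ _ _)
      have := Finset.single_le_sum (f := C) (fun i _ => (hC i).le) (Finset.mem_univ i)
      linarith
    refine (Finset.sum_le_sum h2).trans ?_
    rw [← Finset.mul_sum]
    change _ * nm B p x ≤ _
    exact le_of_eq (by ring)

/-- The values of a sesquilinear expression depend continuously on the argument. -/
theorem form_cont (σ : D →ₗ[k] D) (e x₀ : D) {ε : ℝ} (hε : 0 < ε) :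
    ∃ δ : ℝ, 0 < δ ∧ ∀ x, nm B p (x - x₀) < δ →
      nm B p (σ x * e * x - σ x₀ * e * x₀) < ε := by
  obtain ⟨C, hC, hCm⟩ := nm_mul B p
  obtain ⟨S, hS, hSm⟩ := nm_linear B p σ
  obtain ⟨M, hM, hMd⟩ : ∃ M : ℝ, 0 < M ∧ C * (C * S * nm B p e) * (nm B p x₀ + 1) +
      C * (C * nm B p (σ x₀) * nm B p e) ≤ M := by
    refine ⟨C * (C * S * nm B p e) * (nm B p x₀ + 1) +
      C * (C * nm B p (σ x₀) * nm B p e) + 1, ?_, by linarith⟩
    have h1 := nm_nonneg B p e
    have h2 := nm_nonneg B p x₀
    have h3 := nm_nonneg B p (σ x₀)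
    positivity
  refine ⟨min 1 (ε / (2 * M)), by positivity, fun x hx => ?_⟩
  have hx1 : nm B p (x - x₀) < 1 := hx.trans_le (min_le_left _ _)
  have hx2 : nm B p (x - x₀) < ε / (2 * M) := hx.trans_le (min_le_right _ _)
  have hxb : nm B p x ≤ nm B p x₀ + 1 := by
    have h1 : x = x₀ + (x - x₀) := by abel
    rw [h1]
    exact (nm_add_le B p _ _).trans (add_le_add le_rfl hx1.le)
  have e1 : σ x * e * x - σ x₀ * e * x₀ = σ (x - x₀) * e * x + σ x₀ * e * (x - x₀) := by
    rw [map_sub]
    noncomm_ring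
  rw [e1]
  have h0 := nm_nonneg B p (x - x₀)
  have he := nm_nonneg B p e
  have hσ := nm_nonneg B p (σ x₀)
  have hx₀ := nm_nonneg B p x₀
  have h1 : nm B p (σ (x - x₀) * e * x) ≤
      C * (C * (S * nm B p (x - x₀)) * nm B p e) * (nm B p x₀ + 1) := by
    refine (hCm _ _).trans ?_
    refine mul_le_mul ?_ hxb (nm_nonneg _ _ _) (by positivity)
    refine mul_le_mul_of_nonneg_left ?_ hC.le
    refine (hCm _ _).trans ?_
    refine mul_le_mul_of_nonneg_right ?_ he
    exact mul_le_mul_of_nonneg_left (hSm _) hC.le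
  have h2 : nm B p (σ x₀ * e * (x - x₀)) ≤ C * (C * nm B p (σ x₀) * nm B p e) * nm B p (x - x₀) := by
    refine (hCm _ _).trans ?_
    refine mul_le_mul_of_nonneg_right ?_ h0
    exact mul_le_mul_of_nonneg_left (hCm _ _) hC.le
  calc nm B p (σ (x - x₀) * e * x + σ x₀ * e * (x - x₀))
      ≤ C * (C * (S * nm B p (x - x₀)) * nm B p e) * (nm B p x₀ + 1) +
        C * (C * nm B p (σ x₀) * nm B p e) * nm B p (x - x₀) :=
        (nm_add_le B p _ _).trans (add_le_add h1 h2)
    _ = (C * (C * S * nm B p e) * (nm B p x₀ + 1) +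
      C * (C * nm B p (σ x₀) * nm B p e)) * nm B p (x - x₀) := by ring
    _ ≤ M * nm B p (x - x₀) := mul_le_mul_of_nonneg_right hMd h0
    _ ≤ M * (ε / (2 * M)) := mul_le_mul_of_nonneg_left hx2.le hM.le
    _ = ε / 2 := by field_simp
    _ < ε := by linarith

/-- Weak approximation in `D`. -/
theorem approxD (T : Set (Pl k)) (hT : T.Finite) (z : Pl k → D) (δ : Pl k → ℝ)
    (hδ : ∀ p, 0 < δ p) : ∃ x : D, ∀ p ∈ T, nm B p (x - z p) < δ p := by
  have h1 : ∀ i : Fin N, ∃ f : k, ∀ p ∈ T, plAbv p (f - B.repr (z p) i) < δ p / (N + 1) := fun i =>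
    approx T hT (fun p => B.repr (z p) i) (fun p => δ p / (N + 1)) (fun p => by
      have := hδ p
      positivity)
  choose f hf using h1
  refine ⟨∑ i, f i • B i, fun p hp => ?_⟩
  have h2 : ∀ i, B.repr (∑ i, f i • B i - z p) i = f i - B.repr (z p) i := by
    intro i
    rw [map_sub, Finsupp.sub_apply, B.repr_sum_self]
  rw [nm]
  have h3 : ∀ i ∈ (Finset.univ : Finset (Fin N)), plAbv p (B.repr (∑ i, f i • B i - z p) i) ≤
      δ p / (N + 1) := by
    intro i _
    rw [h2]
    exact (hf i p hp).le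
  refine (Finset.sum_le_sum h3).trans_lt ?_
  rw [Finset.sum_const, Finset.card_univ, Fintype.card_fin, nsmul_eq_mul]
  have h4 := hδ p
  rw [mul_div_assoc', div_lt_iff₀ (by positivity)]
  nlinarith

end Vale.Agent.P011.Even
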