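import Mathlib

/-!
Hermitian forms over a field with involution whose binary forms are universal: classification by
rank and discriminant.
-/

open Module Matrix

namespace Vale.Agent.P011.Even

/-- Binary hermitian forms are universal. -/
def BinUniv (L : Type) [Field L] [StarRing L] : Prop :=
  ∀ a b c : L, star a = a → star b = b → star c = c → a ≠ 0 → b ≠ 0 → c ≠ 0 →
    ∃ x y : L, x * a * star x + y * b * star y = c

section space

variable {L : Type} [Field L] [StarRing L]

/-- A hermitian form, linear in the first variable. -/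
structure HForm (L V : Type) [Field L] [StarRing L] [AddCommGroup V] [Module L V] where
  h : V → V → L
  add_left : ∀ x y z, h (x + y) z = h x z + h y z
  smul_left : ∀ (c : L) x y, h (c • x) y = c * h x y
  symm : ∀ x y, star (h x y) = h y x

namespace HForm

variable {V : Type} [AddCommGroup V] [Module L V] (B : HForm L V)

theorem add_right (x y z : V) : B.h x (y + z) = B.h x y + B.h x z := by
  rw [← B.symm, B.add_left, star_add, B.symm, B.symm]

theorem smul_right (c : L) (x y : V) : B.h x (c • y) = B.h x y * star c := by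
  rw [← B.symm, B.smul_left, star_mul, B.symm]

/-- the functional `y ↦ h y x` -/
def lin (x : V) : V →ₗ[L] L where
  toFun y := B.h y x
  map_add' y z := B.add_left y z x
  map_smul' c y := B.smul_left c y x

@[simp] theorem lin_apply (x y : V) : B.lin x y = B.h y x := rfl

@[simp] theorem zero_left (y : V) : B.h 0 y = 0 := (B.lin y).map_zero

@[simp] theorem zero_right (y : V) : B.h y 0 = 0 := by rw [← B.symm, B.zero_left, star_zero]

/-- restriction to a subspace -/
def sub (U : Submodule L V) : HForm L U where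
  h x y := B.h x y
  add_left _ _ _ := B.add_left _ _ _
  smul_left _ _ _ := B.smul_left _ _ _
  symm _ _ := B.symm _ _

/-- nondegenerate forms -/
def Nondeg : Prop := ∀ x, (∀ y, B.h x y = 0) → x = 0

theorem exists_ne (h2 : (2 : L) ≠ 0) (hB : B.Nondeg) {v : V} (hv : v ≠ 0) :
    ∃ x, B.h x x ≠ 0 := by
  by_contra hcon
  push Not at hcon
  apply hv
  apply hB
  intro y
  by_contra hy
  have h1 : ∀ z, B.h v z + B.h z v = 0 := by
    intro z
    have := hcon (v + z)
    rw [B.add_left, B.add_right, B.add_right, hcon, hcon, zero_add, add_zero] at this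
    exact this
  have h3 := h1 ((star (B.h v y))⁻¹ • y)
  rw [B.smul_right, B.smul_left, star_inv₀, star_star, mul_inv_cancel₀ hy, ← B.symm v y,
    inv_mul_cancel₀ ((star_ne_zero).mpr hy)] at h3
  apply h2
  rw [← h3]
  norm_num

/-- the orthogonal complement of an anisotropic vector -/
theorem perp_mem {e : V} (y : V) (he : B.h e e ≠ 0) :
    y + (-(B.h y e / B.h e e)) • e ∈ LinearMap.ker (B.lin e) := by
  rw [LinearMap.mem_ker, B.lin_apply, B.add_left, B.smul_left]
  field_simp
  ring

theorem perp_nondeg (hB : B.Nondeg) {e : V} (he : B.h e e ≠ 0) :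
    (B.sub (LinearMap.ker (B.lin e))).Nondeg := by
  rintro ⟨x, hx⟩ h
  have hx' : B.h x e = 0 := hx
  apply Subtype.ext
  apply hB
  intro y
  have h1 := h ⟨_, B.perp_mem y he⟩
  change B.h x (y + _) = 0 at h1
  rw [B.add_right, B.smul_right, hx', zero_mul, add_zero] at h1
  exact h1

theorem finrank_perp [FiniteDimensional L V] {e : V} (he : B.h e e ≠ 0) :
    finrank L (LinearMap.ker (B.lin e)) + 1 = finrank L V := by
  have h1 := LinearMap.finrank_range_add_finrank_ker (B.lin e)
  have h2 : LinearMap.range (B.lin e) = ⊤ := by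
    rw [LinearMap.range_eq_top]
    intro c
    refine ⟨(c / B.h e e) • e, ?_⟩
    rw [B.lin_apply, B.smul_left, div_mul_cancel₀ c he]
  rw [h2, finrank_top, Module.finrank_self] at h1
  omega

/-- A nondegenerate form of rank at least two represents `1`. -/
theorem exists_one (h2 : (2 : L) ≠ 0) (hU : BinUniv L) (hB : B.Nondeg) [FiniteDimensional L V]
    (hV : 2 ≤ finrank L V) : ∃ e, B.h e e = 1 := by
  have : Nontrivial V := Module.nontrivial_of_finrank_pos (R := L) (by omega)
  obtain ⟨v, hv⟩ := _root_.exists_ne (0 : V)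
  obtain ⟨x, hx⟩ := B.exists_ne h2 hB hv
  have h3 := B.finrank_perp hx
  have : Nontrivial (LinearMap.ker (B.lin x)) :=
    Module.nontrivial_of_finrank_pos (R := L) (by omega)
  obtain ⟨v', hv'⟩ := _root_.exists_ne (0 : LinearMap.ker (B.lin x))
  obtain ⟨⟨y, hyx⟩, hy⟩ := (B.sub _).exists_ne h2 (B.perp_nondeg hB hx) hv'
  have hyx' : B.h y x = 0 := hyx
  have hxy : B.h x y = 0 := by rw [← B.symm, hyx', star_zero]
  obtain ⟨p, q, hpq⟩ := hU (B.h x x) (B.h y y) 1 (B.symm _ _) (B.symm _ _) (star_one L) hx hy
    one_ne_zero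
  refine ⟨p • x + q • y, ?_⟩
  rw [B.add_left, B.add_right, B.add_right, B.smul_left, B.smul_left, B.smul_left, B.smul_left,
    B.smul_right, B.smul_right, B.smul_right, B.smul_right, hxy, hyx', ← hpq]
  ring

/-- Normal form of a nondegenerate hermitian form. -/
theorem exists_basis (h2 : (2 : L) ≠ 0) (hU : BinUniv L) : ∀ (n : ℕ) (V : Type) [AddCommGroup V]
    [Module L V] [FiniteDimensional L V] (B : HForm L V), B.Nondeg → finrank L V = n + 1 →
    ∃ (v : Basis (Fin (n + 1)) L V) (δ : L), ∀ i j, B.h (v i) (v j) =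
      Matrix.diagonal (fun i => if i = Fin.last n then δ else 1) i j := by
  intro n
  induction n with
  | zero =>
    intro V _ _ _ B hB hV
    let v := Module.finBasisOfFinrankEq L V hV
    refine ⟨v, B.h (v 0) (v 0), fun i j => ?_⟩
    have hi : i = 0 := Fin.ext (by omega)
    have hj : j = 0 := Fin.ext (by omega)
    subst hi hj
    rw [Matrix.diagonal_apply_eq, if_pos]
    rfl
  | succ n ih =>
    intro V _ _ _ B hB hV
    obtain ⟨e, he⟩ := B.exists_one h2 hU hB (by omega)
    have he0 : B.h e e ≠ 0 := by rw [he]; exact one_ne_zero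
    obtain ⟨w, δ, hw⟩ := ih (LinearMap.ker (B.lin e)) (B.sub _) (B.perp_nondeg hB he0)
      (by have := B.finrank_perp he0; omega)
    let v : Basis (Fin (n + 1 + 1)) L V := Basis.mkFinCons e w
      (by
        intro c x hx hc
        have hx' : B.h x e = 0 := hx
        have := congrArg (fun z => B.h z e) hc
        simpa [B.add_left, B.smul_left, hx', he] using this)
      (fun z => ⟨_, B.perp_mem z he0⟩)
    have hv0 : v 0 = e := by simp [v]
    have hvs : ∀ i : Fin (n + 1), v i.succ = (w i : V) := by intro i; simp [v]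
    have hwe : ∀ i, B.h (w i : V) e = 0 := fun i => (w i).2
    have hew : ∀ i, B.h e (w i : V) = 0 := fun i => by rw [← B.symm, hwe, star_zero]
    refine ⟨v, δ, fun i j => ?_⟩
    induction i using Fin.cases with
    | zero =>
      induction j using Fin.cases with
      | zero =>
        rw [hv0, he, Matrix.diagonal_apply_eq, if_neg]
        exact (Fin.last_pos).ne
      | succ j =>
        rw [hv0, hvs, hew, Matrix.diagonal_apply_ne]
        exact (Fin.succ_ne_zero j).symm
    | succ i =>
      induction j using Fin.cases with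
      | zero =>
        rw [hv0, hvs, hwe, Matrix.diagonal_apply_ne]
        exact Fin.succ_ne_zero i
      | succ j =>
        rw [hvs, hvs]
        have h3 := hw i j
        change B.h (w i : V) (w j : V) = _ at h3
        rw [h3]
        by_cases hij : i = j
        · subst hij
          rw [Matrix.diagonal_apply_eq, Matrix.diagonal_apply_eq]
          congr 1
          rw [← Fin.succ_last, Fin.succ_inj]
        · rw [Matrix.diagonal_apply_ne _ hij,
            Matrix.diagonal_apply_ne _ (fun h => hij (Fin.succ_inj.mp h))]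

end HForm

end space

section mat

variable {L : Type} [Field L] [StarRing L]

/-- the hermitian form of a hermitian matrix -/
def matForm {n : ℕ} (H : Matrix (Fin n) (Fin n) L) (hH : Hᴴ = H) : HForm L (Fin n → L) where
  h x y := ∑ i, ∑ j, x i * H i j * star (y j)
  add_left x y z := by
    simp only [Pi.add_apply, add_mul, Finset.sum_add_distrib]
  smul_left c x y := by
    simp only [Pi.smul_apply, smul_eq_mul, Finset.mul_sum, mul_assoc]
  symm x y := by
    rw [star_sum]
    simp only [star_sum]
    rw [Finset.sum_comm]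
    refine Finset.sum_congr rfl fun i _ => Finset.sum_congr rfl fun j _ => ?_
    have h1 : star (H j i) = H i j := by
      conv_rhs => rw [← hH]
      rfl
    rw [star_mul', star_mul', star_star, h1]
    ring

theorem matForm_h {n : ℕ} (H : Matrix (Fin n) (Fin n) L) (hH : Hᴴ = H) (x y : Fin n → L) :
    (matForm H hH).h x y = ∑ i, ∑ j, x i * H i j * star (y j) := rfl

theorem matForm_nondeg {n : ℕ} (H : Matrix (Fin n) (Fin n) L) (hH : Hᴴ = H) (hd : H.det ≠ 0) :
    (matForm H hH).Nondeg := by
  intro x hx
  apply Matrix.eq_zero_of_vecMul_eq_zero hd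
  ext j
  have h1 := hx (Pi.single j 1)
  rw [matForm_h] at h1
  rw [Matrix.vecMul, dotProduct, Pi.zero_apply, ← h1]
  refine Finset.sum_congr rfl fun i _ => ?_
  rw [Finset.sum_eq_single j]
  · rw [Pi.single_eq_same, star_one, mul_one]
  · intro k _ hk
    rw [Pi.single_eq_of_ne hk, star_zero, mul_zero]
  · intro h; exact absurd (Finset.mem_univ _) h

theorem exists_normal (h2 : (2 : L) ≠ 0) (hU : BinUniv L) {n : ℕ}
    (H : Matrix (Fin (n + 1)) (Fin (n + 1)) L) (hH : Hᴴ = H) (hd : H.det ≠ 0) :
    ∃ (P : Matrix (Fin (n + 1)) (Fin (n + 1)) L) (δ : L), P.det ≠ 0 ∧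
      P * H * Pᴴ = Matrix.diagonal (fun i => if i = Fin.last n then δ else 1) := by
  obtain ⟨v, δ, hv⟩ := HForm.exists_basis h2 hU n (Fin (n + 1) → L) (matForm H hH)
    (matForm_nondeg H hH hd) (Module.finrank_fin_fun L)
  let P : Matrix (Fin (n + 1)) (Fin (n + 1)) L := Matrix.of fun i => v i
  refine ⟨P, δ, ?_, ?_⟩
  · have h1 : P.transpose = (Pi.basisFun L (Fin (n + 1))).toMatrix v := by
      ext i j
      rw [Matrix.transpose_apply, Basis.toMatrix_apply, Pi.basisFun_repr]
      rfl
    rw [← Matrix.det_transpose, h1]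
    intro h0
    have h3 := (Pi.basisFun L (Fin (n + 1))).toMatrix_mul_toMatrix_flip v
    have h4 := congrArg Matrix.det h3
    rw [Matrix.det_mul, h0, zero_mul, Matrix.det_one] at h4
    exact zero_ne_one h4
  · ext i j
    rw [← hv, matForm_h, Matrix.mul_apply]
    simp only [Matrix.mul_apply, Finset.sum_mul, Matrix.conjTranspose_apply]
    rw [Finset.sum_comm]
    rfl

omit [StarRing L] in
theorem det_diag_last {n : ℕ} (δ : L) :
    (Matrix.diagonal (fun i : Fin (n + 1) => if i = Fin.last n then δ else 1)).det = δ := by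
  rw [Matrix.det_diagonal, Finset.prod_ite_eq' Finset.univ (Fin.last n)]
  simp

/-- Hermitian matrices over a field with universal binary forms are classified by the
discriminant. -/
theorem herm_class (h2 : (2 : L) ≠ 0) (hU : BinUniv L) {n : ℕ} (H H' : Matrix (Fin n) (Fin n) L)
    (hH : Hᴴ = H) (hH' : H'ᴴ = H') (hd : H.det ≠ 0) (hd' : H'.det ≠ 0)
    (hdisc : ∃ z, H.det * H'.det = z * star z) :
    ∃ Q : Matrix (Fin n) (Fin n) L, Q.det ≠ 0 ∧ Q * H * Qᴴ = H' := by
  rcases Nat.eq_zero_or_pos n with rfl | hn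
  · refine ⟨1, by simp, ?_⟩
    ext i
    exact i.elim0
  obtain ⟨n, rfl⟩ : ∃ k, n = k + 1 := ⟨n - 1, by omega⟩
  obtain ⟨z, hz⟩ := hdisc
  obtain ⟨P, δ, hP, hPH⟩ := exists_normal h2 hU H hH hd
  obtain ⟨P', δ', hP', hPH'⟩ := exists_normal h2 hU H' hH' hd'
  have e1 := congrArg Matrix.det hPH
  have e2 := congrArg Matrix.det hPH'
  rw [det_diag_last, Matrix.det_mul, Matrix.det_mul, Matrix.det_conjTranspose] at e1 e2
  have hδ0 : δ ≠ 0 := by
    rw [← e1]
    exact mul_ne_zero (mul_ne_zero hP hd) ((star_ne_zero).mpr hP)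
  have hdetH : star H.det = H.det := by rw [← Matrix.det_conjTranspose, hH]
  have hδs : star δ = δ := by
    rw [← e1, star_mul', star_mul', star_star, hdetH]; ring
  -- the scalar relating the two normal forms
  let w : L := P.det * P'.det * z / δ
  have hw : w * δ * star w = δ' := by
    simp only [w]
    rw [star_div₀, star_mul', star_mul', hδs]
    field_simp
    rw [← e2]
    have e3 : P.det * star P.det * (P'.det * star P'.det) * (z * star z) =
      δ * (P'.det * H'.det * star P'.det) := by
      rw [← hz, ← e1]; ring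
    linear_combination e3
  have hδ'0 : δ' ≠ 0 := by
    rw [← e2]
    exact mul_ne_zero (mul_ne_zero hP' hd') ((star_ne_zero).mpr hP')
  have hw0 : w ≠ 0 := by
    intro h0
    rw [h0, zero_mul, zero_mul] at hw
    exact hδ'0 hw.symm
  let W : Matrix (Fin (n + 1)) (Fin (n + 1)) L :=
    Matrix.diagonal (fun i => if i = Fin.last n then w else 1)
  have hW : W * Matrix.diagonal (fun i => if i = Fin.last n then δ else 1) * Wᴴ =
      Matrix.diagonal (fun i => if i = Fin.last n then δ' else 1) := by
    simp only [W]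
    rw [Matrix.diagonal_conjTranspose, Matrix.diagonal_mul_diagonal, Matrix.diagonal_mul_diagonal]
    congr 1
    funext i
    rw [Pi.star_apply]
    split_ifs
    · exact hw
    · rw [star_one, mul_one, mul_one]
  have hunit : IsUnit P'.det := isUnit_iff_ne_zero.mpr hP'
  refine ⟨P'⁻¹ * W * P, ?_, ?_⟩
  · rw [Matrix.det_mul, Matrix.det_mul, det_diag_last]
    refine mul_ne_zero (mul_ne_zero ?_ hw0) hP
    rw [Matrix.det_nonsing_inv]
    simpa using hP'
  · have h3 : P'⁻¹ * W * P * H * (P'⁻¹ * W * P)ᴴ = P'⁻¹ * (W * (P * H * Pᴴ) * Wᴴ) * P'⁻¹ᴴ := by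
      rw [Matrix.conjTranspose_mul, Matrix.conjTranspose_mul]
      simp only [Matrix.mul_assoc]
    rw [h3, hPH, hW, ← hPH']
    have h4 : P'⁻¹ * P' = 1 := Matrix.nonsing_inv_mul P' hunit
    have h5 : P'ᴴ * P'⁻¹ᴴ = 1 := by
      rw [← Matrix.conjTranspose_mul, h4, Matrix.conjTranspose_one]
    calc P'⁻¹ * (P' * H' * P'ᴴ) * P'⁻¹ᴴ = (P'⁻¹ * P') * H' * (P'ᴴ * P'⁻¹ᴴ) := by
          simp only [Matrix.mul_assoc]
      _ = H' := by rw [h4, h5, Matrix.one_mul, Matrix.mul_one]

end mat

end Vale.Agent.P011.Even
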