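import Vale.Agent.P011.Even.Defs
import Vale.Agent.P011.Arith.Quad

/-!
Integrality of elements of subfields of a division algebra, read off the coordinates, at finite
and at real places.
-/

open NumberField IsDedekindDomain Polynomial

namespace Vale.Agent.P011.Even

open Arith

set_option linter.unusedSectionVars false

section integr

variable {k E D : Type} [Field k] [NumberField k] [Field E] [NumberField E] [Algebra k E]
  [DivisionRing D] [Algebra k D] {N : ℕ} (B : Module.Basis (Fin N) k D)

theorem aeval_charpoly (j : E →ₐ[k] D) (y : E) :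
    aeval y (Algebra.leftMulMatrix B (j y)).charpoly = 0 := by
  apply j.toRingHom.injective
  change j (aeval y _) = j 0
  rw [map_zero, ← aeval_algHom_apply]
  apply Algebra.leftMulMatrix_injective B
  rw [map_zero, ← aeval_algHom_apply, Matrix.aeval_self_charpoly]

theorem charpoly_coeff_le (w : Valuation k Z0) (M : Matrix (Fin N) (Fin N) k)
    (hM : ∀ a b, w (M a b) ≤ 1) (i : ℕ) : w (M.charpoly.coeff i) ≤ 1 := by
  let M' : Matrix (Fin N) (Fin N) w.integer := Matrix.of fun a b => ⟨M a b, hM a b⟩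
  have h1 : M = M'.map w.integer.subtype := rfl
  rw [h1, Matrix.charpoly_map, coeff_map]
  exact (M'.charpoly.coeff i).2

theorem val_root_le (w : Valuation E Z0) {f : k[X]} (hf : f.Monic)
    (hc : ∀ i, w (algebraMap k E (f.coeff i)) ≤ 1) {y : E} (hy : aeval y f = 0) : w y ≤ 1 := by
  by_contra hlt
  rw [not_le] at hlt
  have h0 : w y ≠ 0 := (zero_lt_one.trans hlt).ne'
  rw [aeval_eq_sum_range, Finset.sum_range_succ, hf.coeff_natDegree, one_smul] at hy
  have h1 : y ^ f.natDegree = -∑ i ∈ Finset.range f.natDegree, f.coeff i • y ^ i :=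
    (neg_eq_of_add_eq_zero_right hy).symm
  have h2 : w (∑ i ∈ Finset.range f.natDegree, f.coeff i • y ^ i) < w y ^ f.natDegree := by
    apply Valuation.map_sum_lt _ (pow_ne_zero _ h0)
    intro i hi
    rw [Algebra.smul_def, map_mul, map_pow]
    calc w (algebraMap k E (f.coeff i)) * w y ^ i ≤ 1 * w y ^ i := mul_le_mul_left (hc i) _
      _ = w y ^ i := one_mul _
      _ < w y ^ f.natDegree := pow_lt_pow_right₀ hlt (Finset.mem_range.mp hi)
  have h3 := congrArg w h1
  rw [map_pow, Valuation.map_neg] at h3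
  rw [← h3] at h2
  exact lt_irrefl _ h2

/-- G2: if left multiplication by `j y` has a `v`-integral matrix, then `y` is integral at the
places above `v`. -/
theorem val_le_of_matrix (j : E →ₐ[k] D) {v : HeightOneSpectrum (𝓞 k)}
    {w : HeightOneSpectrum (𝓞 E)} (hwv : Ab w v) (y : E)
    (hM : ∀ a b, v.valuation k (Algebra.leftMulMatrix B (j y) a b) ≤ 1) :
    w.valuation E y ≤ 1 := by
  refine val_root_le (w.valuation E) (Matrix.charpoly_monic _) (fun i => ?_)
    (aeval_charpoly B j y)
  rw [val_le_one_iff hwv]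
  exact charpoly_coeff_le _ _ hM i

/-- The elements with `v`-integral coordinates. -/
def Ov (v : HeightOneSpectrum (𝓞 k)) (x : D) : Prop := ∀ i, v.valuation k (B.repr x i) ≤ 1

theorem Ov_basis (v : HeightOneSpectrum (𝓞 k)) (i : Fin N) : Ov B v (B i) := by
  intro l
  rw [Module.Basis.repr_self, Finsupp.single_apply]
  split_ifs
  · rw [map_one]
  · rw [map_zero]; exact zero_le_one

/-- G2 for orders. -/
theorem val_le_of_Ov (j : E →ₐ[k] D) {v : HeightOneSpectrum (𝓞 k)}
    {w : HeightOneSpectrum (𝓞 E)} (hwv : Ab w v)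
    (hmul : ∀ x y : D, Ov B v x → Ov B v y → Ov B v (x * y)) (y : E) (hy : Ov B v (j y)) :
    w.valuation E y ≤ 1 := by
  refine val_le_of_matrix B j hwv y fun a b => ?_
  rw [Algebra.leftMulMatrix_eq_repr_mul]
  exact hmul _ _ hy (Ov_basis B v b) a

/-- A bound for the structure constants. -/
theorem exists_struct_bound (v : HeightOneSpectrum (𝓞 k)) :
    ∃ c : k, c ≠ 0 ∧ ∀ (a : k) (x : D), (∀ i, v.valuation k (B.repr x i) ≤ v.valuation k a) →
      ∀ i l, v.valuation k (Algebra.leftMulMatrix B x i l) ≤ v.valuation k (c * a) := by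
  classical
  -- a bound for finitely many elements
  have key : ∀ S : Finset k, ∃ c : k, c ≠ 0 ∧ ∀ s ∈ S, v.valuation k s ≤ v.valuation k c := by
    intro S
    induction S using Finset.induction_on with
    | empty => exact ⟨1, one_ne_zero, fun s hs => absurd hs (Finset.notMem_empty s)⟩
    | insert a S _ ih =>
      obtain ⟨c, hc, h⟩ := ih
      by_cases h1 : v.valuation k a ≤ v.valuation k c
      · refine ⟨c, hc, fun s hs => ?_⟩
        rcases Finset.mem_insert.mp hs with rfl | hs
        · exact h1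
        · exact h s hs
      · rw [not_le] at h1
        refine ⟨a, ?_, fun s hs => ?_⟩
        · rintro rfl
          rw [map_zero] at h1
          exact not_lt_zero h1
        · rcases Finset.mem_insert.mp hs with rfl | hs
          · exact le_rfl
          · exact (h s hs).trans h1.le
  obtain ⟨c, hc, h⟩ := key (Finset.univ.image fun p : Fin N × Fin N × Fin N =>
    B.repr (B p.1 * B p.2.1) p.2.2)
  refine ⟨c, hc, fun a x hx i l => ?_⟩
  rw [Algebra.leftMulMatrix_eq_repr_mul]
  have h1 : x * B l = ∑ m, B.repr x m • (B m * B l) := by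
    conv_lhs => rw [← B.sum_repr x, Finset.sum_mul]
    exact Finset.sum_congr rfl fun m _ => smul_mul_assoc _ _ _
  rw [h1, map_sum, Finsupp.finsetSum_apply]
  apply Valuation.map_sum_le
  intro m _
  have h2 := h _ (Finset.mem_image.mpr ⟨(m, l, i), Finset.mem_univ _, rfl⟩)
  rw [map_smul, Finsupp.smul_apply, smul_eq_mul, Valuation.map_mul, Valuation.map_mul,
    mul_comm (v.valuation k c)]
  exact mul_le_mul' (hx m) h2

/-- G2': elements of a subfield with small coordinates are small at the places above `v`,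
uniformly in the subfield. -/
theorem exists_small (v : HeightOneSpectrum (𝓞 k)) (b : k) (hb : b ≠ 0) :
    ∃ δ : Z0, δ ≠ 0 ∧ ∀ (E : Type) [Field E] [NumberField E] [Algebra k E] (j : E →ₐ[k] D)
      (w : HeightOneSpectrum (𝓞 E)), Ab w v → ∀ y : E,
      (∀ i, v.valuation k (B.repr (j y) i) < δ) →
        w.valuation E y < w.valuation E (algebraMap k E b) := by
  obtain ⟨c, hc, h⟩ := exists_struct_bound B v
  obtain ⟨π, hπ⟩ := v.valuation_exists_uniformizer k
  have hπ0 : π ≠ 0 := by
    rintro rfl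
    rw [map_zero] at hπ
    exact WithZero.exp_ne_zero hπ.symm
  have hπ1 : v.valuation k π < 1 := by
    rw [hπ, ← WithZero.exp_zero, WithZero.exp_lt_exp]; norm_num
  refine ⟨v.valuation k (π * b / c), (Valuation.ne_zero_iff _).mpr
    (div_ne_zero (mul_ne_zero hπ0 hb) hc), ?_⟩
  intro E _ _ _ j w hwv y hy
  have hπb : algebraMap k E (π * b) ≠ 0 := (_root_.map_ne_zero _).mpr (mul_ne_zero hπ0 hb)
  have h1 : w.valuation E (y / algebraMap k E (π * b)) ≤ 1 := by
    refine val_le_of_matrix B j hwv _ fun i l => ?_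
    have h2 := h (c⁻¹) (j (y / algebraMap k E (π * b))) (fun i => by
      have e : j (y / algebraMap k E (π * b)) = (π * b)⁻¹ • j y := by
        rw [div_eq_inv_mul, map_mul, ← map_inv₀, AlgHom.commutes, Algebra.smul_def]
      rw [e, map_smul, Finsupp.smul_apply, smul_eq_mul, map_mul, map_inv₀]
      have h3 := (hy i).le
      rw [map_div₀] at h3
      have hpb : v.valuation k (π * b) ≠ 0 :=
        (Valuation.ne_zero_iff _).mpr (mul_ne_zero hπ0 hb)
      rw [map_inv₀]
      calc (v.valuation k (π * b))⁻¹ * v.valuation k (B.repr (j y) i)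
          ≤ (v.valuation k (π * b))⁻¹ * (v.valuation k (π * b) / v.valuation k c) :=
            mul_le_mul_right h3 _
        _ = (v.valuation k c)⁻¹ := by
          rw [div_eq_mul_inv, ← mul_assoc, inv_mul_cancel₀ hpb, one_mul]) i l
    rw [mul_inv_cancel₀ hc, map_one] at h2
    exact h2
  rw [map_div₀, div_le_one₀ (zero_lt_iff.mpr ((Valuation.ne_zero_iff _).mpr hπb))] at h1
  refine lt_of_le_of_lt h1 ?_
  rw [map_mul, map_mul]
  have h4 : w.valuation E (algebraMap k E π) < 1 := (val_lt_one_iff hwv _).mpr hπ1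
  have h5 : 0 < w.valuation E (algebraMap k E b) :=
    zero_lt_iff.mpr ((Valuation.ne_zero_iff _).mpr ((_root_.map_ne_zero _).mpr hb))
  calc w.valuation E (algebraMap k E π) * w.valuation E (algebraMap k E b)
      < 1 * w.valuation E (algebraMap k E b) := mul_lt_mul_of_pos_right h4 h5
    _ = _ := one_mul _

/-- G2R, matrix form: if left multiplication by `j y` has a small matrix at `φ`, then `y` is
small at the real embeddings above `φ`. -/
theorem abs_lt_one_of_matrix (j : E →ₐ[k] D) {φ : k →+* ℝ} {ψ : E →+* ℝ}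
    (hψ : ψ.comp (algebraMap k E) = φ) (y : E)
    (hM : ∀ a, ∑ b, |φ (Algebra.leftMulMatrix B (j y) a b)| < 1) : |ψ y| < 1 := by
  classical
  by_contra hge
  rw [not_lt] at hge
  set M := Algebra.leftMulMatrix B (j y) with hMdef
  have h1 : aeval y M.charpoly = 0 := aeval_charpoly B j y
  have h2 : (M.map φ).charpoly.eval (ψ y) = 0 := by
    rw [Matrix.charpoly_map, ← hψ, eval_map, ← Polynomial.hom_eval₂]
    have h3 : eval₂ (algebraMap k E) y M.charpoly = 0 := h1
    rw [h3, map_zero]
  rw [Matrix.eval_charpoly] at h2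
  refine det_ne_zero_of_sum_row_lt_diag (fun a => ?_) h2
  have h3 := hM a
  rw [← Finset.add_sum_erase _ _ (Finset.mem_univ a)] at h3
  have h4 : ∀ b ∈ Finset.univ.erase a,
      ‖(Matrix.scalar (Fin N) (ψ y) - M.map φ) a b‖ = |φ (M a b)| := by
    intro b hb
    have hab : a ≠ b := (Finset.ne_of_mem_erase hb).symm
    rw [Matrix.sub_apply, Matrix.scalar_apply, Matrix.diagonal_apply_ne _ hab, zero_sub,
      norm_neg, Real.norm_eq_abs]
    rfl
  rw [Finset.sum_congr rfl h4]
  have h5 : ‖(Matrix.scalar (Fin N) (ψ y) - M.map φ) a a‖ = |ψ y - φ (M a a)| := by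
    rw [Matrix.sub_apply, Matrix.scalar_apply, Matrix.diagonal_apply_eq, Real.norm_eq_abs]
    rfl
  rw [h5]
  have h6 : |ψ y| - |φ (M a a)| ≤ |ψ y - φ (M a a)| := abs_sub_abs_le_abs_sub _ _
  linarith

/-- G2R: elements of a subfield with small coordinates at `φ` are small at the real embeddings
above `φ`, uniformly in the subfield. -/
theorem exists_small_real (φ : k →+* ℝ) :
    ∃ ε : ℝ, 0 < ε ∧ ∀ (E : Type) [Field E] [NumberField E] [Algebra k E] (j : E →ₐ[k] D)
      (ψ : E →+* ℝ), ψ.comp (algebraMap k E) = φ → ∀ y : E,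
      (∀ i, |φ (B.repr (j y) i)| < ε) → |ψ y| < 1 := by
  classical
  -- a bound for the structure constants
  let C : ℝ := 1 + ∑ p : Fin N × Fin N × Fin N, |φ (B.repr (B p.1 * B p.2.1) p.2.2)|
  have hC1 : 1 ≤ C := by
    have : 0 ≤ ∑ p : Fin N × Fin N × Fin N, |φ (B.repr (B p.1 * B p.2.1) p.2.2)| :=
      Finset.sum_nonneg fun _ _ => abs_nonneg _
    linarith
  have hC : ∀ m l i, |φ (B.repr (B m * B l) i)| ≤ C := by
    intro m l i
    have := Finset.single_le_sum (f := fun p : Fin N × Fin N × Fin N =>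
      |φ (B.repr (B p.1 * B p.2.1) p.2.2)|) (fun _ _ => abs_nonneg _)
      (Finset.mem_univ (m, l, i))
    simp only at this
    linarith
  have hN : (0 : ℝ) ≤ N := Nat.cast_nonneg N
  have hpos : 0 < C * (N + 1) ^ 2 := by positivity
  refine ⟨1 / (C * (N + 1) ^ 2), by positivity, ?_⟩
  intro E _ _ _ j ψ hψ y hy
  refine abs_lt_one_of_matrix B j hψ y fun a => ?_
  have h1 : ∀ l, |φ (Algebra.leftMulMatrix B (j y) a l)| ≤ 1 / (N + 1) ^ 2 * N := by
    intro l
    rw [Algebra.leftMulMatrix_eq_repr_mul]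
    have h1 : j y * B l = ∑ m, B.repr (j y) m • (B m * B l) := by
      conv_lhs => rw [← B.sum_repr (j y), Finset.sum_mul]
      exact Finset.sum_congr rfl fun m _ => smul_mul_assoc _ _ _
    rw [h1, map_sum, Finsupp.finsetSum_apply, map_sum]
    refine (Finset.abs_sum_le_sum_abs _ _).trans ?_
    have h2 : ∀ m ∈ (Finset.univ : Finset (Fin N)),
        |φ ((B.repr (B.repr (j y) m • (B m * B l))) a)| ≤ 1 / (N + 1) ^ 2 := by
      intro m _
      rw [map_smul, Finsupp.smul_apply, smul_eq_mul, map_mul, abs_mul]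
      calc |φ (B.repr (j y) m)| * |φ (B.repr (B m * B l) a)|
          ≤ 1 / (C * (N + 1) ^ 2) * C :=
            mul_le_mul (hy m).le (hC m l a) (abs_nonneg _) (by positivity)
        _ = 1 / (N + 1) ^ 2 := by field_simp
    refine (Finset.sum_le_sum h2).trans ?_
    rw [Finset.sum_const, Finset.card_univ, Fintype.card_fin, nsmul_eq_mul, mul_comm]
  refine lt_of_le_of_lt (Finset.sum_le_sum fun l _ => h1 l) ?_
  rw [Finset.sum_const, Finset.card_univ, Fintype.card_fin, nsmul_eq_mul]
  have h3 : (0 : ℝ) < (N + 1) ^ 2 := by positivity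
  rw [one_div_mul_eq_div, mul_div_assoc', div_lt_one h3]
  nlinarith

end integr

end Vale.Agent.P011.Even
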