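import Vale.Agent.P011.Even.LocDefs
import Vale.Agent.P011.Even.Defs

namespace Vale.Agent.P011.Even.LocBP

open NumberField IsDedekindDomain

/-- LOC1. The norm on a local division algebra: `μ x = ‖N x‖ ^ (1 / dim)`, equal to the spectral
value of the minimal polynomial. -/
theorem exists_dnorm (F E : Type) [NontriviallyNormedField F] [IsLocF F] [DivisionRing E]
    [Algebra F E] [FiniteDimensional F E] : ∃ μ : E → ℝ, DNorm F E μ := sorry

/-- LOC2. A local division algebra with an involution of the second kind is commutative, or of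
dimension four over its centre. -/
theorem comm_or_eight (F E : Type) [NontriviallyNormedField F] [IsLocF F] [DivisionRing E]
    [Algebra F E] [FiniteDimensional F E] {μ : E → ℝ} (hμ : DNorm F E μ) {d : Fˣ} {s : E}
    {τ : E →ₗ[F] E} (h : SecondKind F E d s τ) :
    (∀ x y : E, x * y = y * x) ∨ Module.finrank F E = 8 := sorry

/-- LOC3b. Dimension four over the centre is impossible. -/
theorem not_eight (F E : Type) [Field F] [CharZero F] (hF : IndexTwo F) [DivisionRing E]
    [Algebra F E] [FiniteDimensional F E] {d : Fˣ} {s : E}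
    {τ : E →ₗ[F] E} (h : SecondKind F E d s τ) (h8 : Module.finrank F E = 8) : False := sorry

/-- LOC3a. The involution descends from a matrix ring to the division ring. -/
theorem descend_involution (F E : Type) [Field F] [CharZero F] [DivisionRing E]
    [Algebra F E] {r : ℕ} (hr : r ≠ 0) {d : Fˣ} {s : Matrix (Fin r) (Fin r) E}
    {τ : Matrix (Fin r) (Fin r) E →ₗ[F] Matrix (Fin r) (Fin r) E}
    (h : SecondKind F (Matrix (Fin r) (Fin r) E) d s τ) :
    ∃ (s' : E) (τ' : E →ₗ[F] E), SecondKind F E d s' τ' := sorry

/-- LOC3. Local splitting: a simple algebra with an involution of the second kind over a local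
field is a matrix algebra over its centre. -/
theorem split (F A : Type) [NontriviallyNormedField F] [IsLocF F] (hF : IndexTwo F) [Ring A]
    [IsSimpleRing A] [Algebra F A] [FiniteDimensional F A] {d : Fˣ} {s : A}
    {τ : A →ₗ[F] A} (h : SecondKind F A d s τ) (L : Type) [Field L] [Algebra F L] (sL : L)
    (hL : Module.finrank F L = 2) (hsL : sL ^ 2 = algebraMap F L d) :
    ∃ (n : ℕ) (ρ : A ≃ₐ[F] Matrix (Fin n) (Fin n) L), ρ s = Matrix.scalar (Fin n) sL := sorry

/-- LOC4a. Involutions of the second kind on matrix algebras. -/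
theorem exists_gram (F L : Type) [Field F] [CharZero F] [Field L] [Algebra F L] [StarRing L]
    (hfix : ∀ x : L, star x = x ↔ x ∈ Set.range (algebraMap F L))
    (hL : Module.finrank F L = 2) {n : ℕ}
    (τ : Matrix (Fin n) (Fin n) L →ₗ[F] Matrix (Fin n) (Fin n) L)
    (hmul : ∀ x y, τ (x * y) = τ y * τ x) (hinv : ∀ x, τ (τ x) = x)
    (hsc : ∀ c : L, τ (Matrix.scalar (Fin n) c) = Matrix.scalar (Fin n) (star c)) :
    ∃ G : Matrix (Fin n) (Fin n) L, IsUnit G ∧ G.conjTranspose = G ∧
      ∀ x, G * τ x = x.conjTranspose * G := sorry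

/-- LOC4b. Hermitian matrices over a local quadratic extension are classified by rank and
discriminant. -/
theorem hermitian_class (F L : Type) [Field F] [CharZero F] (hF : IndexTwo F) [Field L]
    [Algebra F L] [StarRing L] (hfix : ∀ x : L, star x = x ↔ x ∈ Set.range (algebraMap F L))
    (hL : Module.finrank F L = 2) {d : Fˣ} (hd : ¬ IsSquare (d : F)) {s : L}
    (hs : s ^ 2 = algebraMap F L d) (hss : star s = -s) {n : ℕ}
    (G H : Matrix (Fin n) (Fin n) L) (hG : G.conjTranspose = G) (hH : H.conjTranspose = H)
    (hG0 : G.det ≠ 0) (hH0 : H.det ≠ 0) (hdisc : ∃ z : L, z ≠ 0 ∧ H.det = G.det * (z * star z)) :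
    ∃ t : Matrix (Fin n) (Fin n) L, t.conjTranspose * G * t = H := sorry

/-- LOC5. The completion at a finite place is a nontrivially normed field. -/
noncomputable def nnf {k : Type} [Field k] [NumberField k] (v : HeightOneSpectrum (𝓞 k)) :
    NontriviallyNormedField (v.adicCompletion k) where
  toNormedField := inferInstance
  non_trivial := sorry

/-- LOC5a. It is a local field. -/
theorem isLocF {k : Type} [Field k] [NumberField k] (v : HeightOneSpectrum (𝓞 k)) :
    @IsLocF (v.adicCompletion k) (nnf v) := sorry

/-- LOC5b. The norm index theorem in the completion, from `Arith.local_index_two`,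
`Arith.mem_symm`, `Arith.exists_not_norm`, and density. -/
theorem indexTwo {k : Type} [Field k] [NumberField k] (v : HeightOneSpectrum (𝓞 k)) :
    IndexTwo (v.adicCompletion k) := sorry

/-- LOC5c. Squares and norms in the completion and local squares and norms in `k`. -/
theorem isSquare_iff {k : Type} [Field k] [NumberField k] (v : HeightOneSpectrum (𝓞 k)) (a : kˣ) :
    IsSquare (algebraMap k (v.adicCompletion k) a) ↔ a ∈ Arith.LS (v.valuation k) := sorry

theorem mem_LN_iff {k : Type} [Field k] [NumberField k] (v : HeightOneSpectrum (𝓞 k)) (a b : kˣ) :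
    Units.map (algebraMap k (v.adicCompletion k) : k →* v.adicCompletion k) b ∈
        LN (Units.map (algebraMap k (v.adicCompletion k) : k →* v.adicCompletion k) a) ↔
      b ∈ Arith.NF a ⊔ Arith.LS (v.valuation k) := sorry

/-- LOC5d. Density, and comparison of the norm with the valuation. -/
theorem dense {k : Type} [Field k] [NumberField k] (v : HeightOneSpectrum (𝓞 k))
    (x : v.adicCompletion k) (ε : ℝ) (hε : 0 < ε) : ∃ y : k, ‖x - algebraMap k _ y‖ < ε := sorry

theorem exists_radius {k : Type} [Field k] [NumberField k] (v : HeightOneSpectrum (𝓞 k))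
    (ε : Arith.Z0) (hε : ε ≠ 0) : ∃ δ : ℝ, 0 < δ ∧ ∀ y : k,
      ‖algebraMap k (v.adicCompletion k) y‖ < δ → v.valuation k y < ε := sorry

/-- LOC6. The local input for rank-one hermitian forms. -/
theorem loc_fin {k K D : Type} [Field k] [NumberField k] [Field K] [StarRing K]
    [DivisionRing D] [StarRing D] [Algebra k K] [Algebra k D] [Algebra K D] [IsScalarTower k K D]
    {d : kˣ} {s : K} (hS : Setting k K D d s) {N : ℕ} (B : Module.Basis (Fin N) k D)
    {n : ℕ} {Ω : Type} [Field Ω] [Algebra K Ω] (f : D →ₐ[K] Matrix (Fin n) (Fin n) Ω)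
    (hn : Module.finrank K D = n ^ 2)
    (v : HeightOneSpectrum (𝓞 k)) (hv : d ∉ Arith.LS (v.valuation k)) {e e' : D}
    (he : star e = e) (he' : star e' = e') {ν ν' : kˣ}
    (hν : (f e).det = algebraMap K Ω (algebraMap k K ν))
    (hν' : (f e').det = algebraMap K Ω (algebraMap k K ν'))
    (hN : ν * ν' ∈ Arith.NF d ⊔ Arith.LS (v.valuation k)) : LocF B v e e' := sorry

end Vale.Agent.P011.Even.LocBP
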