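import Mathlib

/-!
Local fields, and norms on local division algebras: definitions.
-/

namespace Vale.Agent.P011.Even

/-- A nonarchimedean local field of characteristic zero, as a normed field. -/
class IsLocF (F : Type) [NontriviallyNormedField F] : Prop where
  char : CharZero F
  ultra : IsUltrametricDist F
  complete : CompleteSpace F
  discrete : ∃ ϖ : F, ϖ ≠ 0 ∧ ‖ϖ‖ < 1 ∧ ∀ x : F, ‖x‖ < 1 → ‖x‖ ≤ ‖ϖ‖
  finite : ∃ T : Finset F, ∀ x : F, ‖x‖ ≤ 1 → ∃ t ∈ T, ‖x - t‖ < 1

/-- The nonzero values of the form `x ^ 2 - a * y ^ 2`. -/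
def LN {F : Type} [Field F] (a : Fˣ) : Subgroup Fˣ where
  carrier := {b | ∃ x y : F, (b : F) = x ^ 2 - a * y ^ 2}
  mul_mem' := by
    rintro b c ⟨x, y, hb⟩ ⟨z, t, hc⟩
    refine ⟨x * z + a * y * t, x * t + y * z, ?_⟩
    rw [Units.val_mul, hb, hc]
    ring
  one_mem' := ⟨1, 0, by simp⟩
  inv_mem' := by
    rintro b ⟨x, y, hb⟩
    refine ⟨x / b, y / b, ?_⟩
    have h0 : (b : F) ≠ 0 := b.ne_zero
    rw [Units.val_inv_eq_inv_val]
    field_simp
    rw [hb]

/-- The local norm index theorem for quadratic extensions: every norm group of a non-square has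
index two, it determines the square class, and it is not closed under addition. -/
structure IndexTwo (F : Type) [Field F] : Prop where
  two : ∀ a : Fˣ, ¬ IsSquare (a : F) → (LN a).index = 2
  inj : ∀ a b : Fˣ, LN a = LN b → IsSquare ((a * b : Fˣ) : F)
  cone : ∀ a : Fˣ, ¬ IsSquare (a : F) → ∃ b ∈ LN a, ∃ c ∈ LN a, ∃ g : Fˣ, g ∉ LN a ∧
    (g : F) = b + c

/-- The norm on a division algebra over a local field. -/
structure DNorm (F E : Type) [NontriviallyNormedField F] [DivisionRing E] [Algebra F E]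
    (μ : E → ℝ) : Prop where
  pos : ∀ x, x ≠ 0 → 0 < μ x
  zero : μ 0 = 0
  mul : ∀ x y, μ (x * y) = μ x * μ y
  add : ∀ x y, μ (x + y) ≤ max (μ x) (μ y)
  base : ∀ x : F, μ (algebraMap F E x) = ‖x‖
  anti : ∀ σ : E →ₗ[F] E, (∀ x y, σ (x * y) = σ y * σ x) → Function.Injective σ →
    ∀ x, μ (σ x) = μ x
  complete : ∀ u : ℕ → E, (∀ ε : ℝ, 0 < ε → ∃ N, ∀ n, N ≤ n → μ (u (n + 1) - u n) < ε) →
    ∃ x : E, ∀ ε : ℝ, 0 < ε → ∃ N, ∀ n, N ≤ n → μ (u n - x) < ε

/-- A division algebra with an involution of the second kind: its centre is spanned by `1` and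
`s`, and the involution `τ` maps `s` to its negative. -/
structure SecondKind (F E : Type) [Field F] [Ring E] [Algebra F E] (d : Fˣ) (s : E)
    (τ : E →ₗ[F] E) : Prop where
  ns : ¬ IsSquare (d : F)
  sq : s ^ 2 = algebraMap F E d
  central : ∀ x : E, x * s = s * x
  center : ∀ z : E, (∀ x : E, x * z = z * x) → ∃ a b : F, z = algebraMap F E a + algebraMap F E b * s
  mul : ∀ x y, τ (x * y) = τ y * τ x
  invol : ∀ x, τ (τ x) = x
  neg : τ s = -s

end Vale.Agent.P011.Even
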