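import Vale.Agent.P011.Even.LocDivC

/-!
# Local division algebras with an anti-automorphism have degree at most two
-/

namespace Vale.Agent.P011.Even.LocDiv

open Module

universe u v

section Tau

variable {E : Type v} [NormedDivisionRing E] [IsUltrametricDist E]

omit [IsUltrametricDist E] in
theorem Frame.pow_inj (R : Frame E) {a b : ℕ} (h : ‖R.ζ ^ a - R.ζ ^ b‖ < 1) :
    R.ζ ^ a = R.ζ ^ b := by
  wlog hab : a ≤ b generalizing a b with H
  · exact (H (by rwa [norm_sub_rev] at h) (le_of_not_ge hab)).symm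
  obtain ⟨c, rfl⟩ := Nat.exists_eq_add_of_le hab
  have h1 : R.ζ ^ a - R.ζ ^ (a + c) = -(R.ζ ^ a * (R.ζ ^ c - 1)) := by
    rw [pow_add, mul_sub, mul_one]; abel
  rw [h1, norm_neg, norm_mul, norm_pow, R.norm_ζ, one_pow, one_mul, R.dvd] at h
  obtain ⟨e, rfl⟩ := h
  rw [pow_add, pow_mul, R.ζN, one_pow, mul_one]

theorem Frame.comm_mod (R : Frame E) {x : E} (hx : ‖x‖ = 1) (i : ℕ) :
    ‖x * R.ζ ^ i - R.ζ ^ i * x‖ < 1 := by
  obtain ⟨a, ha⟩ := R.gen x hx
  have h1 : ∀ n : ℕ, ‖R.ζ ^ n‖ ≤ 1 := fun n => by rw [norm_pow, R.norm_ζ, one_pow]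
  have hz : ∀ n : ℕ, ‖R.ζ ^ n - R.ζ ^ n‖ < 1 := fun n => by simp
  refine norm_sub_lt_trans (mul_close (h1 a) (h1 i) ha (hz i)) ?_
  rw [norm_sub_rev]
  have h2 := mul_close (h1 i) hx.le (hz i) ha
  have h3 : R.ζ ^ i * R.ζ ^ a = R.ζ ^ a * R.ζ ^ i := by rw [← pow_add, ← pow_add, add_comm]
  rwa [h3] at h2

theorem Frame.conj_mod (R : Frame E) {ϖ : E} (hϖ : ‖ϖ‖ = ‖R.π‖) :
    ‖ϖ * R.ζ * ϖ⁻¹ - R.ζ ^ R.j‖ < 1 := by
  have hϖ0 : ϖ ≠ 0 := by
    intro h
    rw [h, norm_zero] at hϖ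
    exact R.πpos.ne hϖ
  set x : E := ϖ * R.π⁻¹ with hxdef
  have hx : ‖x‖ = 1 := by rw [hxdef, norm_mul, norm_inv, hϖ, mul_inv_cancel₀ R.πpos.ne']
  have hx0 : x ≠ 0 := mul_ne_zero hϖ0 (inv_ne_zero R.π0)
  have h1 : ϖ = x * R.π := by rw [hxdef, inv_mul_cancel_right₀ R.π0]
  have h2 : ϖ * R.ζ * ϖ⁻¹ - R.ζ ^ R.j = (x * R.ζ ^ R.j - R.ζ ^ R.j * x) * x⁻¹ := by
    rw [sub_mul, mul_inv_cancel_right₀ hx0, h1, mul_inv_rev]
    congr 1
    rw [mul_assoc x, R.comm]
    simp only [mul_assoc]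
    rw [mul_inv_cancel_left₀ R.π0]
  rw [h2, norm_mul, norm_inv, hx, inv_one, mul_one]
  exact R.comm_mod hx _

theorem Frame.j_sq (R : Frame E) (τ : E → E) (hadd : ∀ x y, τ (x + y) = τ x + τ y)
    (hmul : ∀ x y, τ (x * y) = τ y * τ x) (hn : ∀ x, ‖τ x‖ = ‖x‖) :
    R.ζ ^ (R.j * R.j) = R.ζ := by
  have hone : τ 1 = 1 := by
    have h1 : τ 1 * τ 1 = τ 1 := by rw [← hmul, mul_one]
    have h2 : τ 1 ≠ 0 := by
      intro h
      have := hn 1
      rw [h, norm_zero, norm_one] at this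
      exact zero_ne_one this
    exact mul_right_cancel₀ h2 (by rw [h1, one_mul])
  have hzero : τ 0 = 0 := by
    have := hadd 0 0
    rw [add_zero] at this
    exact left_eq_add.1 this
  have hneg : ∀ x, τ (-x) = -τ x := fun x => by
    have h := hadd x (-x)
    rw [add_neg_cancel, hzero] at h
    exact (neg_eq_of_add_eq_zero_right h.symm).symm
  have hpow : ∀ (x : E) (n : ℕ), τ (x ^ n) = τ x ^ n := fun x n => by
    induction n with
    | zero => simp [hone]
    | succ n ih => rw [pow_succ, hmul, ih, pow_succ']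
  set z : E := τ R.ζ with hz
  set ϖ : E := τ R.π with hϖ
  have hzn : ‖z‖ = 1 := by rw [hz, hn, R.norm_ζ]
  have hϖn : ‖ϖ‖ = ‖R.π‖ := hn _
  have hϖ0 : ϖ ≠ 0 := by
    intro h
    rw [h, norm_zero] at hϖn
    exact R.πpos.ne hϖn
  obtain ⟨t, ht⟩ := R.gen z hzn
  have hζ1 : ∀ n : ℕ, ‖R.ζ ^ n‖ = 1 := fun n => by rw [norm_pow, R.norm_ζ, one_pow]
  -- the relation
  have hrel : z * ϖ = ϖ * z ^ R.j := by
    have := congrArg τ R.comm
    rw [hmul, hmul, hpow] at this
    exact this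
  have hconjpow : ∀ (y : E) (n : ℕ), (ϖ * y * ϖ⁻¹) ^ n = ϖ * y ^ n * ϖ⁻¹ := by
    intro y n
    induction n with
    | zero => simp [hϖ0]
    | succ n ih =>
      rw [pow_succ, ih, pow_succ]
      simp only [mul_assoc]
      rw [inv_mul_cancel_left₀ hϖ0]
  have hz' : z = (ϖ * z * ϖ⁻¹) ^ R.j := by
    rw [hconjpow, ← hrel, mul_inv_cancel_right₀ hϖ0]
  have hnc : ∀ y : E, ‖ϖ * y * ϖ⁻¹‖ = ‖y‖ := fun y => by
    rw [norm_mul, norm_mul, norm_inv, mul_comm ‖ϖ‖, mul_assoc,
      mul_inv_cancel₀ (norm_ne_zero_iff.2 hϖ0), mul_one]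
  have h1 : ‖ϖ * z * ϖ⁻¹ - R.ζ ^ (R.j * t)‖ < 1 := by
    have h2 : ‖ϖ * z * ϖ⁻¹ - ϖ * R.ζ ^ t * ϖ⁻¹‖ < 1 := by
      have : ϖ * z * ϖ⁻¹ - ϖ * R.ζ ^ t * ϖ⁻¹ = ϖ * (z - R.ζ ^ t) * ϖ⁻¹ := by
        rw [mul_sub, sub_mul]
      rw [this, hnc]
      exact ht
    refine norm_sub_lt_trans h2 ?_
    rw [← hconjpow, pow_mul]
    exact pow_close (by rw [hnc, R.norm_ζ]) (hζ1 _).le (R.conj_mod hϖn) t
  have h2 : ‖z - R.ζ ^ (R.j * t * R.j)‖ < 1 := by
    rw [hz', pow_mul]
    exact pow_close (by rw [hnc, hzn]) (hζ1 _).le h1 _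
  have h3 : ‖τ (R.ζ ^ (R.j * R.j) - R.ζ)‖ < 1 := by
    rw [sub_eq_add_neg, hadd, hneg, hpow, ← hz, ← sub_eq_add_neg]
    have h4 : ‖z ^ (R.j * R.j) - (R.ζ ^ t) ^ (R.j * R.j)‖ < 1 :=
      pow_close hzn.le (hζ1 _).le ht _
    refine norm_sub_lt_trans h4 ?_
    rw [← pow_mul, show t * (R.j * R.j) = R.j * t * R.j by ring, norm_sub_rev]
    exact h2
  rw [hn] at h3
  have h4 := R.pow_inj (a := R.j * R.j) (b := 1) (by rwa [pow_one])
  rwa [pow_one] at h4

end Tau

section Dim

variable {k : Type u} {E : Type v} [NontriviallyNormedField k] [CompleteSpace k]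
  [NormedDivisionRing E] [NormedAlgebra k E] [IsUltrametricDist E] [FiniteDimensional k E]

omit [IsUltrametricDist E] in
theorem Frame.comm_pow (R : Frame E) (i : ℕ) : R.π * R.ζ ^ i = R.ζ ^ (R.j * i) * R.π := by
  induction i with
  | zero => simp
  | succ i ih =>
    rw [pow_succ, ← mul_assoc, ih, mul_assoc, R.comm, ← mul_assoc, ← pow_add, mul_add, mul_one]

theorem Frame.finrank_le_four (R : Frame E) (k : Type u) [NontriviallyNormedField k]
    [CompleteSpace k] [NormedAlgebra k E] [FiniteDimensional k E]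
    (hj : R.ζ ^ (R.j * R.j) = R.ζ) :
    Module.finrank (Subring.center E) E ≤ 4 := by
  classical
  have hπ2 : R.π * R.π ∈ Subring.center E := by
    refine R.mem_center k ?_ ?_
    · change R.π * R.π * R.ζ = R.ζ * (R.π * R.π)
      rw [mul_assoc, R.comm, ← mul_assoc, R.comm_pow, hj, mul_assoc]
    · exact (Commute.refl R.π).mul_left (Commute.refl R.π)
  have hc2 : R.ζ + R.ζ ^ R.j ∈ Subring.center E := by
    refine R.mem_center k ?_ ?_
    · exact (Commute.refl _).add_left ((Commute.refl R.ζ).pow_left _)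
    · change (R.ζ + R.ζ ^ R.j) * R.π = R.π * (R.ζ + R.ζ ^ R.j)
      rw [mul_add, R.comm, R.comm_pow, hj, add_mul, add_comm]
  have hc3 : R.ζ ^ R.j * R.ζ ∈ Subring.center E := by
    refine R.mem_center k ?_ ?_
    · exact ((Commute.refl R.ζ).pow_left _).mul_left (Commute.refl _)
    · change R.ζ ^ R.j * R.ζ * R.π = R.π * (R.ζ ^ R.j * R.ζ)
      rw [← mul_assoc, R.comm_pow, hj, mul_assoc, mul_assoc, R.comm, ← mul_assoc, ← mul_assoc,
        ← pow_succ, ← pow_succ']
  let b : Fin 4 → E := ![1, R.ζ, R.π, R.ζ * R.π]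
  set S := Submodule.span (Subring.center E) (Set.range b) with hS
  have hb : ∀ i, b i ∈ S := fun i => Submodule.subset_span ⟨i, rfl⟩
  have hsm : ∀ (c : E) (_ : c ∈ Subring.center E) (x : E), x ∈ S → c * x ∈ S := by
    intro c hc x hx
    exact S.smul_mem ⟨c, hc⟩ hx
  have hpowζ : ∀ i : ℕ, ∃ a ∈ Subring.center E, ∃ c ∈ Subring.center E,
      R.ζ ^ i = a + c * R.ζ := by
    intro i
    induction i with
    | zero => exact ⟨1, one_mem _, 0, zero_mem _, by simp⟩
    | succ i ih =>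
      obtain ⟨a, ha, c, hc, h⟩ := ih
      refine ⟨-(c * (R.ζ ^ R.j * R.ζ)), neg_mem (mul_mem hc hc3),
        a + c * (R.ζ + R.ζ ^ R.j), add_mem ha (mul_mem hc hc2), ?_⟩
      rw [pow_succ, h]
      noncomm_ring
  have hpowπ : ∀ m : ℤ, ∃ z ∈ Subring.center E, R.π ^ m = z ∨ R.π ^ m = z * R.π := by
    intro m
    have hz : ∀ q : ℤ, (R.π * R.π) ^ q ∈ Subring.center E := by
      intro q
      rw [Subring.mem_center_iff] at hπ2 ⊢
      intro y
      have h1 : Commute y (R.π * R.π) := hπ2 y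
      exact h1.zpow_right₀ q
    have h2 : ∀ q : ℤ, (R.π * R.π) ^ q = R.π ^ (2 * q) := fun q => by
      rw [zpow_mul, zpow_two]
    rcases Int.even_or_odd' m with ⟨q, hq | hq⟩
    · exact ⟨_, hz q, Or.inl (by rw [hq, h2])⟩
    · exact ⟨_, hz q, Or.inr (by rw [hq, h2, zpow_add₀ R.π0, zpow_one])⟩
  have htop : S = ⊤ := by
    rw [Submodule.eq_top_iff']
    intro x
    have hx : x ∈ Submodule.span k (Set.range fun p : ℕ × ℤ => R.ζ ^ p.1 * R.π ^ p.2) := by
      rw [R.span_eq_top]; trivial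
    induction hx using Submodule.span_induction with
    | mem y hy =>
      obtain ⟨p, rfl⟩ := hy
      obtain ⟨a, ha, c, hc, h⟩ := hpowζ p.1
      obtain ⟨z, hz, h' | h'⟩ := hpowπ p.2
      · change R.ζ ^ p.1 * R.π ^ p.2 ∈ S
        rw [h, h', ← (Subring.mem_center_iff.1 hz (a + c * R.ζ)).symm]
        refine hsm z hz _ (S.add_mem ?_ (hsm c hc _ (hb 1)))
        have := hsm a ha _ (hb 0)
        simpa [b] using this
      · change R.ζ ^ p.1 * R.π ^ p.2 ∈ S
        rw [h, h', ← mul_assoc, (Subring.mem_center_iff.1 hz (a + c * R.ζ)), mul_assoc, add_mul,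
          mul_assoc]
        exact hsm z hz _ (S.add_mem (hsm a ha _ (hb 2)) (hsm c hc _ (hb 3)))
    | zero => exact S.zero_mem
    | add y z _ _ hy hz => exact S.add_mem hy hz
    | smul a y _ hy =>
      rw [Algebra.smul_def]
      refine hsm _ ?_ _ hy
      rw [Subring.mem_center_iff]
      intro y
      exact (Algebra.commutes a y).symm
  have h4 : Module.finrank (Subring.center E) (⊤ : Submodule (Subring.center E) E) ≤ 4 := by
    rw [← htop, hS]
    refine (finrank_range_le_card b).trans ?_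
    simp
  rwa [finrank_top] at h4

end Dim

section Main

variable (k : Type u) (E : Type v) [NontriviallyNormedField k] [IsUltrametricDist k]
  [ProperSpace k] [DivisionRing E] [Algebra k E] [FiniteDimensional k E]

/-- Over a locally compact ultrametric field, a finite-dimensional division algebra with an
anti-automorphism fixing the base field has dimension at most four over its centre. -/
theorem finrank_center_le_four (τ : E → E) (hadd : ∀ x y, τ (x + y) = τ x + τ y)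
    (hmul : ∀ x y, τ (x * y) = τ y * τ x) (hk : ∀ c : k, τ (algebraMap k E c) = algebraMap k E c) :
    Module.finrank (Subring.center E) E ≤ 4 := by
  have hone : τ 1 = 1 := by
    have := hk 1
    rwa [map_one] at this
  have hzero : τ 0 = 0 := by
    have := hk 0
    rwa [map_zero] at this
  have hpow : ∀ (x : E) (n : ℕ), τ (x ^ n) = τ x ^ n := fun x n => by
    induction n with
    | zero => simp [hone]
    | succ n ih => rw [pow_succ, hmul, ih, pow_succ']
  have hsum : ∀ (s : Finset ℕ) (f : ℕ → E), τ (∑ i ∈ s, f i) = ∑ i ∈ s, τ (f i) := by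
    intro s f
    classical
    induction s using Finset.induction_on with
    | empty => simp [hzero]
    | insert a s ha ih => rw [Finset.sum_insert ha, Finset.sum_insert ha, hadd, ih]
  have haev : ∀ (x : E) (p : Polynomial k), Polynomial.aeval (τ x) p = τ (Polynomial.aeval x p) := by
    intro x p
    rw [Polynomial.aeval_eq_sum_range, Polynomial.aeval_eq_sum_range, hsum]
    refine Finset.sum_congr rfl fun i _ => ?_
    rw [Algebra.smul_def, Algebra.smul_def, hmul, hk, hpow, Algebra.commutes]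
  have hmin : ∀ x : E, minpoly k (τ x) = minpoly k x := by
    intro x
    have hint : IsIntegral k x := Algebra.IsIntegral.isIntegral x
    symm
    refine minpoly.eq_of_irreducible_of_monic (minpoly.irreducible hint) ?_ (minpoly.monic hint)
    rw [haev, minpoly.aeval, hzero]
  have hnm : ∀ x : E, nm k (τ x) = nm k x := fun x => by
    rw [nm_eq_coeff, nm_eq_coeff, hmin]
  let _ : NormedDivisionRing E := ndr k
  let _ : NormedAlgebra k E :=
    { (inferInstance : Algebra k E) with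
      norm_smul_le := fun c x => by
        change nm k (c • x) ≤ ‖c‖ * nm k x
        rw [Algebra.smul_def, nm_mul, nm_algebraMap] }
  have hU : IsUltrametricDist E := IsUltrametricDist.isUltrametricDist_of_forall_norm_add_le_max_norm
    (fun x y => nm_add_le_max k x y)
  have : ProperSpace E := FiniteDimensional.proper k E
  obtain ⟨c, hc0, hc1⟩ := NormedField.exists_norm_lt_one k
  have hc : ‖algebraMap k E c‖ = ‖c‖ := nm_algebraMap k c
  have hcne : algebraMap k E c ≠ 0 := by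
    rw [← norm_ne_zero_iff, hc]
    exact hc0.ne'
  obtain ⟨R⟩ := exists_frame (algebraMap k E c) hcne (by rw [hc]; exact hc1)
  exact R.finrank_le_four k (R.j_sq τ hadd hmul (fun x => hnm x))

end Main

end Vale.Agent.P011.Even.LocDiv
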