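import Mathlib

/-!
# The norm of a finite-dimensional division algebra over a complete ultrametric field
-/

namespace Vale.Agent.P011.Even.LocDiv

open Module

universe u v

section Norm

variable (k : Type u) {E : Type v} [NontriviallyNormedField k] [IsUltrametricDist k]
  [CompleteSpace k] [DivisionRing E] [Algebra k E] [FiniteDimensional k E]

/-- The extension of the absolute value of `k` to the division algebra `E`. -/
noncomputable def nm (x : E) : ℝ :=
  ‖Algebra.norm k x‖ ^ (1 / (Module.finrank k E : ℝ))

omit [IsUltrametricDist k] [CompleteSpace k] in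
theorem norm_map {F : Type*} [Field F] [Algebra k F] [FiniteDimensional k F]
    (ψ : F →ₐ[k] E) (y : F) :
    ∃ r : ℕ, Module.finrank k E = Module.finrank k F * r ∧
      Algebra.norm k (ψ y) = (Algebra.norm k y) ^ r := by
  let _ : Module F E := Module.compHom E ψ.toRingHom
  have hsm : ∀ (a : F) (x : E), a • x = ψ a * x := fun a x => rfl
  have : IsScalarTower k F E := ⟨fun a b x => by
    rw [hsm, hsm, map_smul, smul_mul_assoc]⟩
  have : FiniteDimensional F E := FiniteDimensional.right k F E
  refine ⟨Module.finrank F E, (Module.finrank_mul_finrank k F E).symm, ?_⟩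
  have h1 : Algebra.norm k (ψ y) =
      LinearMap.det ((y • (LinearMap.id : E →ₗ[F] E)).restrictScalars k) := by
    rw [Algebra.norm_apply]
    congr 1
  rw [h1, LinearMap.det_restrictScalars, LinearMap.det_smul, LinearMap.det_id, mul_one, map_pow]

omit [IsUltrametricDist k] [CompleteSpace k] in
theorem finrank_pos_E : 0 < Module.finrank k E := Module.finrank_pos

omit [IsUltrametricDist k] [CompleteSpace k] in
theorem nm_map {F : Type*} [Field F] [Algebra k F] [FiniteDimensional k F]
    (ψ : F →ₐ[k] E) (y : F) :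
    nm k (ψ y) = ‖Algebra.norm k y‖ ^ (1 / (Module.finrank k F : ℝ)) := by
  obtain ⟨r, hr, h⟩ := norm_map k ψ y
  have hE : 0 < Module.finrank k E := Module.finrank_pos
  have hF : 0 < Module.finrank k F := Module.finrank_pos
  have hr0 : r ≠ 0 := by
    rintro rfl
    simp at hr
    omega
  rw [nm, h, norm_pow, ← Real.rpow_natCast, ← Real.rpow_mul (norm_nonneg _), hr]
  congr 1
  have : (r : ℝ) ≠ 0 := by exact_mod_cast hr0
  have : (Module.finrank k F : ℝ) ≠ 0 := by exact_mod_cast hF.ne'
  push_cast
  field_simp

omit [IsUltrametricDist k] [CompleteSpace k] in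
theorem nm_eq_coeff (x : E) :
    nm k x = ‖(minpoly k x).coeff 0‖ ^ (1 / ((minpoly k x).natDegree : ℝ)) := by
  have hint : IsIntegral k x := Algebra.IsIntegral.isIntegral x
  have hirr : Irreducible (minpoly k x) := minpoly.irreducible hint
  have : Fact (Irreducible (minpoly k x)) := ⟨hirr⟩
  have hne : minpoly k x ≠ 0 := hirr.ne_zero
  have : FiniteDimensional k (AdjoinRoot (minpoly k x)) :=
    (AdjoinRoot.powerBasis hne).finite
  let ψ : AdjoinRoot (minpoly k x) →ₐ[k] E :=
    Ideal.Quotient.liftₐ (Ideal.span {minpoly k x}) (Polynomial.aeval x) (by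
      intro a ha
      obtain ⟨b, rfl⟩ := Ideal.mem_span_singleton'.1 ha
      simp)
  have hψ : ψ (AdjoinRoot.root (minpoly k x)) = x := by
    change (Polynomial.aeval x) (Polynomial.X : Polynomial k) = x
    simp
  have h1 := nm_map k ψ (AdjoinRoot.root (minpoly k x))
  rw [hψ] at h1
  have hgen : (AdjoinRoot.powerBasis hne).gen = AdjoinRoot.root (minpoly k x) := by
    simp
  have hmin : minpoly k (AdjoinRoot.root (minpoly k x)) = minpoly k x := by
    rw [AdjoinRoot.minpoly_root hne, (minpoly.monic hint).leadingCoeff]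
    simp
  have h2 := Algebra.PowerBasis.norm_gen_eq_coeff_zero_minpoly (AdjoinRoot.powerBasis hne)
  rw [hgen, hmin] at h2
  rw [h1, h2, (AdjoinRoot.powerBasis hne).finrank, AdjoinRoot.powerBasis_dim]
  simp

theorem nm_map' {F : Type*} [Field F] [Algebra k F] [FiniteDimensional k F]
    (ψ : F →ₐ[k] E) (y : F) : nm k (ψ y) = spectralNorm k F y := by
  rw [nm_eq_coeff, minpoly.algHom_eq ψ ψ.toRingHom.injective,
    spectralNorm.spectralNorm_eq_norm_coeff_zero_rpow]

omit [IsUltrametricDist k] [CompleteSpace k] [FiniteDimensional k E] in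
theorem nm_nonneg (x : E) : 0 ≤ nm k x := Real.rpow_nonneg (norm_nonneg _) _

omit [IsUltrametricDist k] [CompleteSpace k] [FiniteDimensional k E] in
theorem nm_mul (x y : E) : nm k (x * y) = nm k x * nm k y := by
  rw [nm, nm, nm, map_mul, norm_mul, Real.mul_rpow (norm_nonneg _) (norm_nonneg _)]

omit [IsUltrametricDist k] [CompleteSpace k] [FiniteDimensional k E] in
theorem nm_one : nm k (1 : E) = 1 := by
  rw [nm, map_one, norm_one, Real.one_rpow]

omit [IsUltrametricDist k] [CompleteSpace k] in
theorem nm_zero : nm k (0 : E) = 0 := by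
  have hE : 0 < Module.finrank k E := Module.finrank_pos
  rw [nm, Algebra.norm_zero, norm_zero, Real.zero_rpow]
  positivity

omit [IsUltrametricDist k] [CompleteSpace k] [FiniteDimensional k E] in
theorem nm_eq_zero {x : E} (h : nm k x = 0) : x = 0 := by
  by_contra hx
  have h1 : nm k x * nm k x⁻¹ = 1 := by rw [← nm_mul, mul_inv_cancel₀ hx, nm_one]
  rw [h, zero_mul] at h1
  exact zero_ne_one h1

omit [IsUltrametricDist k] [CompleteSpace k] in
theorem nm_algebraMap (c : k) : nm k (algebraMap k E c) = ‖c‖ := by
  have hE : 0 < Module.finrank k E := Module.finrank_pos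
  have h : Algebra.norm k (algebraMap k E c) = c ^ Module.finrank k E := by
    rw [Algebra.norm_apply]
    have : Algebra.lmul k E (algebraMap k E c) = c • LinearMap.id := by
      ext x
      simp [Algebra.smul_def]
    rw [this, LinearMap.det_smul, LinearMap.det_id, mul_one]
  rw [nm, h, norm_pow, ← Real.rpow_natCast, ← Real.rpow_mul (norm_nonneg _)]
  have : (Module.finrank k E : ℝ) ≠ 0 := by exact_mod_cast hE.ne'
  rw [mul_one_div_cancel this, Real.rpow_one]

omit [IsUltrametricDist k] [CompleteSpace k] in
theorem exists_field (x : E) : ∃ (F : Type u) (_ : Field F) (_ : Algebra k F)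
    (_ : FiniteDimensional k F) (ψ : F →ₐ[k] E) (y : F), ψ y = x := by
  have hint : IsIntegral k x := Algebra.IsIntegral.isIntegral x
  have hirr : Irreducible (minpoly k x) := minpoly.irreducible hint
  have : Fact (Irreducible (minpoly k x)) := ⟨hirr⟩
  have hne : minpoly k x ≠ 0 := hirr.ne_zero
  let ψ : AdjoinRoot (minpoly k x) →ₐ[k] E :=
    Ideal.Quotient.liftₐ (Ideal.span {minpoly k x}) (Polynomial.aeval x) (by
      intro a ha
      obtain ⟨b, rfl⟩ := Ideal.mem_span_singleton'.1 ha
      simp)
  refine ⟨AdjoinRoot (minpoly k x), inferInstance, inferInstance,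
    (AdjoinRoot.powerBasis hne).finite, ψ, AdjoinRoot.root _, ?_⟩
  change (Polynomial.aeval x) (Polynomial.X : Polynomial k) = x
  simp

theorem nm_add_one_le {x : E} (h : nm k x ≤ 1) : nm k (x + 1) ≤ 1 := by
  obtain ⟨F, _, _, _, ψ, y, rfl⟩ := exists_field k x
  rw [nm_map'] at h
  have h2 : ψ y + 1 = ψ (y + 1) := by simp
  rw [h2, nm_map']
  have : Algebra.IsAlgebraic k F := Algebra.IsAlgebraic.of_finite k F
  refine (isNonarchimedean_spectralNorm y 1).trans (max_le h ?_)
  rw [spectralNorm_one]

theorem nm_add_le_max (x y : E) : nm k (x + y) ≤ max (nm k x) (nm k y) := by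
  wlog hxy : nm k x ≤ nm k y generalizing x y with H
  · rw [add_comm, max_comm]
    exact H y x (le_of_not_ge hxy)
  rw [max_eq_right hxy]
  rcases eq_or_ne y 0 with rfl | hy
  · rw [nm_zero] at hxy
    have := nm_eq_zero k (le_antisymm hxy (nm_nonneg k x))
    rw [this, add_zero]
  have hy0 : 0 < nm k y := lt_of_le_of_ne (nm_nonneg k y) fun h => hy (nm_eq_zero k h.symm)
  have h1 : nm k (x * y⁻¹) ≤ 1 := by
    have h2 : nm k (x * y⁻¹) * nm k y = nm k x := by
      rw [← nm_mul, inv_mul_cancel_right₀ hy]
    by_contra h3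
    push Not at h3
    nlinarith
  have h4 := nm_add_one_le k h1
  have h5 : x + y = (x * y⁻¹ + 1) * y := by
    rw [add_mul, inv_mul_cancel_right₀ hy, one_mul]
  rw [h5, nm_mul]
  nlinarith

omit [IsUltrametricDist k] [CompleteSpace k] [FiniteDimensional k E] in
theorem nm_neg (x : E) : nm k (-x) = nm k x := by
  have h1 : nm k (-1 : E) * nm k (-1 : E) = 1 := by
    rw [← nm_mul]; simp [nm_one]
  have h2 : nm k (-1 : E) = 1 := by
    nlinarith [nm_nonneg k (-1 : E)]
  rw [← neg_one_mul, nm_mul, h2, one_mul]

/-- The normed division ring structure on `E`. -/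
@[reducible] noncomputable def ndr : NormedDivisionRing E :=
  { (inferInstance : DivisionRing E) with
    norm := nm k
    dist := fun x y => nm k (x - y)
    dist_self := fun x => by rw [sub_self, nm_zero]
    dist_comm := fun x y => by rw [← nm_neg, neg_sub]
    dist_triangle := fun x y z => by
      have : x - z = (x - y) + (y - z) := by abel
      rw [this]
      refine (nm_add_le_max k _ _).trans ?_
      exact max_le_add_of_nonneg (nm_nonneg k _) (nm_nonneg k _)
    eq_of_dist_eq_zero := fun {x y} h => sub_eq_zero.1 (nm_eq_zero k h)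
    dist_eq := fun x y => by
      rw [← nm_neg]; congr 1; abel
    norm_mul := fun x y => nm_mul k x y }

end Norm

end Vale.Agent.P011.Even.LocDiv
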