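import Mathlib

/-!
# Structure of a locally compact ultrametric division ring: uniformizer, residue field,
Teichmueller representatives.
-/

namespace Vale.Agent.P011.Even.LocDiv

open Module

universe u v

section Unif

variable {E : Type v} [NormedDivisionRing E] [IsUltrametricDist E] [ProperSpace E]

theorem exists_unif (c : E) (hc0 : c ≠ 0) (hc1 : ‖c‖ < 1) :
    ∃ π : E, π ≠ 0 ∧ ‖π‖ < 1 ∧ ∀ x : E, ‖x‖ < 1 → ‖x‖ ≤ ‖π‖ := by
  have hcl : IsClosed (Metric.ball (0 : E) 1) := IsUltrametricDist.isClosed_ball 0 1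
  have hcomp : IsCompact (Metric.ball (0 : E) 1) :=
    Metric.isCompact_of_isClosed_isBounded hcl Metric.isBounded_ball
  have hne : (Metric.ball (0 : E) 1).Nonempty := ⟨c, by simpa using hc1⟩
  obtain ⟨π, hπ, hmax⟩ := hcomp.exists_isMaxOn hne continuous_norm.continuousOn
  refine ⟨π, ?_, by simpa using hπ, fun x hx => hmax (by simpa using hx)⟩
  rintro rfl
  have := hmax (show c ∈ Metric.ball (0 : E) 1 by simpa using hc1)
  simp only [Set.mem_ofPred_eq, norm_zero] at this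
  exact hc0 (norm_le_zero_iff.1 this)

omit [IsUltrametricDist E] [ProperSpace E] in
theorem norm_eq_zpow {π : E} (h0 : π ≠ 0) (h1 : ‖π‖ < 1) (hm : ∀ x : E, ‖x‖ < 1 → ‖x‖ ≤ ‖π‖)
    {x : E} (hx : x ≠ 0) : ∃ m : ℤ, ‖x‖ = ‖π‖ ^ m := by
  have hπ : 0 < ‖π‖ := norm_pos_iff.2 h0
  have hxn : 0 < ‖x‖ := norm_pos_iff.2 hx
  have hb : 1 < ‖π‖⁻¹ := (one_lt_inv₀ hπ).2 h1
  obtain ⟨n, hn1, hn2⟩ := exists_mem_Ico_zpow hxn hb
  refine ⟨-n, ?_⟩
  have hn1' : ‖π‖ ^ (-n) ≤ ‖x‖ := by rwa [zpow_neg, ← inv_zpow]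
  rcases hn1'.lt_or_eq with h | h
  · exfalso
    have hy : ‖(x * π ^ n)⁻¹‖ < 1 := by
      rw [norm_inv, norm_mul, norm_zpow]
      apply inv_lt_one_of_one_lt₀
      rw [zpow_neg] at h
      calc (1 : ℝ) = (‖π‖ ^ n)⁻¹ * ‖π‖ ^ n := (inv_mul_cancel₀ (by positivity)).symm
        _ < ‖x‖ * ‖π‖ ^ n := by gcongr
    have h3 := hm _ hy
    rw [norm_inv, norm_mul, norm_zpow] at h3
    have h4 : ‖x‖ * ‖π‖ ^ n < ‖π‖⁻¹ := by
      rw [inv_zpow, zpow_add₀ hπ.ne', mul_inv, zpow_one] at hn2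
      calc ‖x‖ * ‖π‖ ^ n < ((‖π‖ ^ n)⁻¹ * ‖π‖⁻¹) * ‖π‖ ^ n := by gcongr
        _ = ‖π‖⁻¹ := by field_simp
    have h5 : 0 < ‖x‖ * ‖π‖ ^ n := by positivity
    have h6 := (inv_le_comm₀ h5 hπ).1 h3
    linarith
  · exact h.symm

end Unif

section Residue

variable (E : Type v) [NormedDivisionRing E] [IsUltrametricDist E]

/-- The valuation ring. -/
def ringO : Subring E where
  carrier := {x | ‖x‖ ≤ 1}
  mul_mem' {a b} ha hb := by
    simp only [Set.mem_ofPred_eq, norm_mul] at *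
    exact mul_le_one₀ ha (norm_nonneg _) hb
  one_mem' := by simp
  add_mem' {a b} ha hb := (IsUltrametricDist.norm_add_le_max a b).trans (max_le ha hb)
  zero_mem' := by simp
  neg_mem' {a} ha := by simpa using ha

theorem mem_ringO {x : E} : x ∈ ringO E ↔ ‖x‖ ≤ 1 := Iff.rfl

/-- The maximal ideal. -/
def idealM : Ideal (ringO E) where
  carrier := {x | ‖(x : E)‖ < 1}
  add_mem' {a b} ha hb := (IsUltrametricDist.norm_add_le_max (a : E) b).trans_lt (max_lt ha hb)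
  zero_mem' := by simp
  smul_mem' := fun c x hx => by
    simp only [Set.mem_ofPred_eq, smul_eq_mul, Subring.coe_mul, norm_mul] at *
    calc ‖(c : E)‖ * ‖(x : E)‖ ≤ 1 * ‖(x : E)‖ := by
          gcongr
          exact c.2
      _ < 1 := by rwa [one_mul]

theorem mem_idealM {x : ringO E} : x ∈ idealM E ↔ ‖(x : E)‖ < 1 := Iff.rfl

instance : (idealM E).IsTwoSided where
  mul_mem_of_left := fun {a} b ha => by
    rw [mem_idealM] at *
    rw [Subring.coe_mul, norm_mul]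
    calc ‖(a : E)‖ * ‖(b : E)‖ ≤ ‖(a : E)‖ * 1 := by
          gcongr
          exact b.2
      _ < 1 := by rwa [mul_one]

/-- The residue ring. -/
abbrev Res := ringO E ⧸ idealM E

theorem res_isUnit_or (a : Res E) : IsUnit a ∨ a = 0 := by
  obtain ⟨x, rfl⟩ := Ideal.Quotient.mk_surjective a
  by_cases h : ‖(x : E)‖ < 1
  · right
    exact Ideal.Quotient.eq_zero_iff_mem.2 h
  · left
    have h1 : ‖(x : E)‖ = 1 := le_antisymm x.2 (not_lt.1 h)
    have h0 : (x : E) ≠ 0 := by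
      intro h0
      rw [h0, norm_zero] at h1
      exact zero_ne_one h1
    let y : ringO E := ⟨(x : E)⁻¹, by rw [mem_ringO, norm_inv, h1, inv_one]⟩
    have hxy : x * y = 1 := Subtype.ext (mul_inv_cancel₀ h0)
    have hyx : y * x = 1 := Subtype.ext (inv_mul_cancel₀ h0)
    exact ⟨⟨Ideal.Quotient.mk _ x, Ideal.Quotient.mk _ y, by rw [← map_mul, hxy, map_one],
      by rw [← map_mul, hyx, map_one]⟩, rfl⟩

instance : Nontrivial (Res E) := by
  refine ⟨⟨0, 1, fun h => ?_⟩⟩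
  have : (1 : ringO E) ∈ idealM E := Ideal.Quotient.eq_zero_iff_mem.1 (by rw [map_one]; exact h.symm)
  rw [mem_idealM] at this
  simp at this

instance [ProperSpace E] : Finite (Res E) := by
  obtain ⟨t, ht, hfin, hcov⟩ := (isCompact_closedBall (0 : E) 1).finite_cover_balls one_pos
  have : Finite t := hfin
  let f : t → Res E := fun y => Ideal.Quotient.mk _ ⟨y.1, by
    have := ht y.2
    rw [Metric.mem_closedBall, dist_zero_right] at this
    exact this⟩
  refine Finite.of_surjective f fun a => ?_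
  obtain ⟨x, rfl⟩ := Ideal.Quotient.mk_surjective a
  have hx : (x : E) ∈ Metric.closedBall (0 : E) 1 := by
    rw [Metric.mem_closedBall, dist_zero_right]
    exact x.2
  obtain ⟨y, hy, hxy⟩ := Set.mem_iUnion₂.1 (hcov hx)
  refine ⟨⟨y, hy⟩, ?_⟩
  rw [Ideal.Quotient.eq, mem_idealM]
  rw [Metric.mem_ball, dist_comm, dist_eq_norm] at hxy
  exact hxy

/-- Existence of a generator of the multiplicative group of the residue field. -/
theorem exists_gen [ProperSpace E] : ∃ (g : E) (N : ℕ), 0 < N ∧ ‖g‖ = 1 ∧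
    (∀ x : E, ‖x‖ = 1 → ∃ i : ℕ, ‖x - g ^ i‖ < 1) ∧
    (∀ i : ℕ, ‖g ^ i - 1‖ < 1 ↔ N ∣ i) ∧ ‖((N : E) + 1)‖ < 1 := by
  let dr : DivisionRing (Res E) := DivisionRing.ofIsUnitOrEqZero (res_isUnit_or E)
  let fd : Field (Res E) := littleWedderburn (Res E)
  obtain ⟨γ, hγ⟩ := IsCyclic.exists_generator (α := (Res E)ˣ)
  obtain ⟨g, hg⟩ := Ideal.Quotient.mk_surjective (γ : Res E)
  have hcard : 0 < Nat.card (Res E)ˣ := Nat.card_pos
  have hN : orderOf γ = Nat.card (Res E)ˣ := orderOf_eq_card_of_forall_mem_zpowers hγ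
  have hnorm : ∀ x : ringO E, Ideal.Quotient.mk (idealM E) x ≠ 0 → ‖(x : E)‖ = 1 := by
    intro x hx
    refine le_antisymm x.2 (not_lt.1 fun h => hx (Ideal.Quotient.eq_zero_iff_mem.2 h))
  refine ⟨g, Nat.card (Res E)ˣ, hcard, hnorm g (by rw [hg]; exact γ.ne_zero), ?_, ?_, ?_⟩
  · intro x hx
    let x' : ringO E := ⟨x, hx.le⟩
    have hx' : Ideal.Quotient.mk (idealM E) x' ≠ 0 := by
      intro h
      have := Ideal.Quotient.eq_zero_iff_mem.1 h
      rw [mem_idealM] at this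
      change ‖x‖ < 1 at this
      rw [hx] at this
      exact lt_irrefl _ this
    obtain ⟨i, hi⟩ : ∃ i : ℕ, γ ^ i = Units.mk0 _ hx' :=
      mem_powers_iff_mem_zpowers.2 (hγ (Units.mk0 _ hx'))
    refine ⟨i, ?_⟩
    have h2 : Ideal.Quotient.mk (idealM E) x' = Ideal.Quotient.mk (idealM E) (g ^ i) := by
      rw [map_pow, hg, ← Units.val_pow_eq_pow_val, hi, Units.val_mk0]
    rw [Ideal.Quotient.eq, mem_idealM] at h2
    exact h2
  · intro i
    rw [← hN, orderOf_dvd_iff_pow_eq_one, Units.ext_iff, Units.val_pow_eq_pow_val, ← hg,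
      ← map_pow, Units.val_one, ← map_one (Ideal.Quotient.mk (idealM E)), Ideal.Quotient.eq,
      mem_idealM]
    rfl
  · have h1 : Nat.card (Res E)ˣ + 1 = Nat.card (Res E) := by
      rw [Nat.card_units]
      have : 0 < Nat.card (Res E) := Nat.card_pos
      omega
    have h2 : ((Nat.card (Res E) : ℕ) : Res E) = 0 := by
      have := Fintype.ofFinite (Res E)
      rw [Nat.card_eq_fintype_card]
      exact Nat.cast_card_eq_zero _
    have h3 : Ideal.Quotient.mk (idealM E) ((Nat.card (Res E)ˣ : ringO E) + 1) = 0 := by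
      rw [map_add, map_natCast, map_one, ← h2, ← h1]
      push_cast
      rfl
    have h4 := Ideal.Quotient.eq_zero_iff_mem.1 h3
    rw [mem_idealM] at h4
    simpa using h4

end Residue

section Teich

variable {E : Type v} [NormedDivisionRing E] [IsUltrametricDist E]

theorem norm_sum_le' {ι : Type*} (s : Finset ι) (f : ι → E) {r : ℝ} (hr : 0 ≤ r)
    (h : ∀ i ∈ s, ‖f i‖ ≤ r) : ‖∑ i ∈ s, f i‖ ≤ r := by
  classical
  induction s using Finset.induction_on with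
  | empty => simpa using hr
  | insert a s ha ih =>
    rw [Finset.sum_insert ha]
    refine (IsUltrametricDist.norm_add_le_max _ _).trans (max_le (h a (by simp)) ?_)
    exact ih fun i hi => h i (by simp [hi])

theorem norm_sub_lt_trans {a b c : E} {r : ℝ} (h1 : ‖a - b‖ < r) (h2 : ‖b - c‖ < r) :
    ‖a - c‖ < r := by
  have : a - c = (a - b) + (b - c) := by abel
  rw [this]
  exact (IsUltrametricDist.norm_add_le_max _ _).trans_lt (max_lt h1 h2)

theorem norm_sub_le_trans {a b c : E} {r : ℝ} (h1 : ‖a - b‖ ≤ r) (h2 : ‖b - c‖ ≤ r) :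
    ‖a - c‖ ≤ r := by
  have : a - c = (a - b) + (b - c) := by abel
  rw [this]
  exact (IsUltrametricDist.norm_add_le_max _ _).trans (max_le h1 h2)

theorem norm_eq_one_of_close {a b : E} (ha : ‖a‖ = 1) (h : ‖a - b‖ < 1) : ‖b‖ = 1 := by
  have h1 : ‖b‖ ≤ 1 := by
    have : b = a - (a - b) := by abel
    rw [this, sub_eq_add_neg]
    refine (IsUltrametricDist.norm_add_le_max _ _).trans (max_le ha.le ?_)
    rw [norm_neg]
    exact h.le
  refine le_antisymm h1 (not_lt.1 fun h2 => ?_)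
  have : a = (a - b) + b := by abel
  have h3 : ‖a‖ < 1 := by
    rw [this]
    exact (IsUltrametricDist.norm_add_le_max _ _).trans_lt (max_lt h h2)
  rw [ha] at h3
  exact lt_irrefl _ h3

theorem mul_close {a b c d : E} (hb : ‖b‖ ≤ 1) (hc : ‖c‖ ≤ 1) (h1 : ‖a - b‖ < 1)
    (h2 : ‖c - d‖ < 1) : ‖a * c - b * d‖ < 1 := by
  have : a * c - b * d = (a - b) * c + b * (c - d) := by
    rw [sub_mul, mul_sub]; abel
  rw [this]
  refine (IsUltrametricDist.norm_add_le_max _ _).trans_lt (max_lt ?_ ?_)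
  · rw [norm_mul]
    calc ‖a - b‖ * ‖c‖ ≤ ‖a - b‖ * 1 := by gcongr
      _ < 1 := by rwa [mul_one]
  · rw [norm_mul]
    calc ‖b‖ * ‖c - d‖ ≤ 1 * ‖c - d‖ := by gcongr
      _ < 1 := by rwa [one_mul]

theorem pow_close {a b : E} (ha : ‖a‖ ≤ 1) (hb : ‖b‖ ≤ 1) (h1 : ‖a - b‖ < 1) (n : ℕ) :
    ‖a ^ n - b ^ n‖ < 1 := by
  induction n with
  | zero => simp
  | succ n ih =>
    rw [pow_succ, pow_succ]
    exact mul_close (by rw [norm_pow]; exact pow_le_one₀ (norm_nonneg _) hb) ha ih h1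

theorem pow_close_step {π : E} (hπ1 : ‖π‖ < 1) (hm : ∀ x : E, ‖x‖ < 1 → ‖x‖ ≤ ‖π‖) {Q : ℕ} (hQ : ‖(Q : E)‖ < 1)
    {a b : E} (hab : Commute a b) (ha : ‖a‖ ≤ 1) (hb : ‖b‖ ≤ 1) (h : ‖a - b‖ < 1) :
    ‖a ^ Q - b ^ Q‖ ≤ ‖π‖ * ‖a - b‖ := by
  rcases Nat.eq_zero_or_pos Q with rfl | hQ0
  · simp
    positivity
  have hsum : ‖∑ i ∈ Finset.range Q, a ^ i * b ^ (Q - 1 - i)‖ < 1 := by
    have h2 : ∑ i ∈ Finset.range Q, a ^ i * b ^ (Q - 1 - i) =
        ∑ i ∈ Finset.range Q, (a ^ i * b ^ (Q - 1 - i) - a ^ (Q - 1)) + (Q : E) * a ^ (Q - 1) := by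
      rw [Finset.sum_sub_distrib, Finset.sum_const, Finset.card_range, nsmul_eq_mul,
        sub_add_cancel]
    rw [h2]
    refine (IsUltrametricDist.norm_add_le_max _ _).trans_lt (max_lt ?_ ?_)
    · refine (norm_sum_le' (r := ‖π‖) _ _ (norm_nonneg _) fun i hi => hm _ ?_).trans_lt ?_
      · have hi' : i < Q := Finset.mem_range.1 hi
        have h3 : a ^ (Q - 1) = a ^ i * a ^ (Q - 1 - i) := by
          rw [← pow_add]; congr 1; omega
        rw [h3, ← mul_sub, norm_mul, norm_pow]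
        have h4 := pow_close hb ha (by rwa [norm_sub_rev] at h) (Q - 1 - i)
        calc ‖a‖ ^ i * ‖b ^ (Q - 1 - i) - a ^ (Q - 1 - i)‖
            ≤ 1 * ‖b ^ (Q - 1 - i) - a ^ (Q - 1 - i)‖ := by
              gcongr
              exact pow_le_one₀ (norm_nonneg _) ha
          _ < 1 := by rwa [one_mul]
      · exact hπ1
    · rw [norm_mul, norm_pow]
      calc ‖(Q : E)‖ * ‖a‖ ^ (Q - 1) ≤ ‖(Q : E)‖ * 1 := by
            gcongr
            exact pow_le_one₀ (norm_nonneg _) ha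
        _ < 1 := by rwa [mul_one]
  have h3 : a ^ Q - b ^ Q = (a - b) * ∑ i ∈ Finset.range Q, a ^ i * b ^ (Q - 1 - i) :=
    (hab.mul_geom_sum₂ Q).symm
  rw [h3, norm_mul, mul_comm]
  gcongr
  exact hm _ hsum

/-- Teichmueller representative of a generator. -/
theorem exists_teich [ProperSpace E] {π : E} (hπ1 : ‖π‖ < 1)
    (hm : ∀ x : E, ‖x‖ < 1 → ‖x‖ ≤ ‖π‖) {g : E} {N : ℕ} (hg : ‖g‖ = 1)
    (hgN : ‖g ^ N - 1‖ < 1) (hN : ‖((N : E) + 1)‖ < 1) :
    ∃ ζ : E, ‖ζ‖ = 1 ∧ ‖ζ - g‖ < 1 ∧ ζ ^ N = 1 := by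
  let u : ℕ → E := fun i => g ^ ((N + 1) ^ i)
  have hu1 : ∀ i, ‖u i‖ = 1 := fun i => by simp [u, norm_pow, hg]
  have hus : ∀ i, u (i + 1) = u i ^ (N + 1) := fun i => by
    simp only [u]; rw [pow_succ, pow_mul]
  have hcomm : ∀ i j, Commute (u i) (u j) := fun i j => (Commute.refl g).pow_pow _ _
  have hN' : ‖((N + 1 : ℕ) : E)‖ < 1 := by push_cast; exact hN
  have hstep : ∀ i, ‖u (i + 1) - u i‖ ≤ ‖π‖ * ‖π‖ ^ i := by
    intro i
    induction i with
    | zero =>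
      rw [pow_zero, mul_one]
      apply hm
      simp only [u]
      have : g ^ (N + 1) ^ (0 + 1) - g ^ (N + 1) ^ 0 = g * (g ^ N - 1) := by
        rw [zero_add, pow_one, pow_zero, pow_one, pow_succ', mul_sub, mul_one]
      rw [this, norm_mul, hg, one_mul]
      exact hgN
    | succ i ih =>
      have hlt : ‖u (i + 1) - u i‖ < 1 := by
        refine ih.trans_lt ?_
        calc ‖π‖ * ‖π‖ ^ i ≤ ‖π‖ * 1 := by
              gcongr
              exact pow_le_one₀ (norm_nonneg _) hπ1.le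
          _ < 1 := by rwa [mul_one]
      rw [hus (i + 1)]
      nth_rewrite 2 [hus i]
      refine (pow_close_step hπ1 hm hN' (hcomm _ _) (hu1 _).le (hu1 _).le hlt).trans ?_
      rw [pow_succ']
      gcongr
  have hcau : CauchySeq u := by
    refine cauchySeq_of_le_geometric ‖π‖ ‖π‖ hπ1 fun i => ?_
    rw [dist_comm, dist_eq_norm]
    exact hstep i
  obtain ⟨ζ, hζ⟩ := cauchySeq_tendsto_of_complete hcau
  have hζ1 : ‖ζ‖ = 1 := by
    have h1 := hζ.norm
    simp only [hu1] at h1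
    exact (tendsto_nhds_unique h1 tendsto_const_nhds)
  have hζg : ‖ζ - g‖ ≤ ‖π‖ := by
    have h1 : Filter.Tendsto (fun i => ‖u i - g‖) Filter.atTop (nhds ‖ζ - g‖) :=
      (hζ.sub_const g).norm
    refine le_of_tendsto h1 (Filter.Eventually.of_forall fun i => ?_)
    induction i with
    | zero => simp [u]
    | succ i ih =>
      refine norm_sub_le_trans (b := u i) ?_ ih
      refine (hstep i).trans ?_
      calc ‖π‖ * ‖π‖ ^ i ≤ ‖π‖ * 1 := by
            gcongr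
            exact pow_le_one₀ (norm_nonneg _) hπ1.le
        _ = ‖π‖ := mul_one _
  have hfix : ζ ^ (N + 1) = ζ := by
    have h1 : Filter.Tendsto (fun i => u (i + 1)) Filter.atTop (nhds ζ) :=
      hζ.comp (Filter.tendsto_add_atTop_nat 1)
    have h2 : Filter.Tendsto (fun i => u (i + 1)) Filter.atTop (nhds (ζ ^ (N + 1))) := by
      simp only [hus]
      exact hζ.pow (N + 1)
    exact tendsto_nhds_unique h2 h1
  have hζ0 : ζ ≠ 0 := by
    rintro rfl
    simp at hζ1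
  refine ⟨ζ, hζ1, hζg.trans_lt hπ1, ?_⟩
  rw [pow_succ] at hfix
  exact mul_right_cancel₀ hζ0 (by rw [hfix, one_mul])

end Teich

end Vale.Agent.P011.Even.LocDiv
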