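import Vale.Agent.P011.Even.LocDivA
import Vale.Agent.P011.Even.LocDivB

/-!
# Structure of local division algebras admitting an anti-automorphism
-/

namespace Vale.Agent.P011.Even.LocDiv

open Module

universe u v

section Frame

variable {E : Type v} [NormedDivisionRing E] [IsUltrametricDist E]

theorem norm_sum_lt' {ι : Type*} (s : Finset ι) (f : ι → E) {r : ℝ} (hr : 0 < r)
    (h : ∀ i ∈ s, ‖f i‖ < r) : ‖∑ i ∈ s, f i‖ < r := by
  classical
  induction s using Finset.induction_on with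
  | empty => simpa using hr
  | insert a s ha ih =>
    rw [Finset.sum_insert ha]
    refine (IsUltrametricDist.norm_add_le_max _ _).trans_lt (max_lt (h a (by simp)) ?_)
    exact ih fun i hi => h i (by simp [hi])

/-- A frame: Teichmueller generator of the residue field and a uniformizer normalising it. -/
structure Frame (E : Type v) [NormedDivisionRing E] where
  ζ : E
  π : E
  N : ℕ
  j : ℕ
  hN : 0 < N
  ζN : ζ ^ N = 1
  π0 : π ≠ 0
  π1 : ‖π‖ < 1
  πm : ∀ x : E, ‖x‖ < 1 → ‖x‖ ≤ ‖π‖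
  gen : ∀ x : E, ‖x‖ = 1 → ∃ i : ℕ, ‖x - ζ ^ i‖ < 1
  dvd : ∀ i : ℕ, ‖ζ ^ i - 1‖ < 1 ↔ N ∣ i
  comm : π * ζ = ζ ^ j * π

theorem exists_frame [ProperSpace E] (c : E) (hc0 : c ≠ 0) (hc1 : ‖c‖ < 1) :
    Nonempty (Frame E) := by
  obtain ⟨π, hπ0, hπ1, hm⟩ := exists_unif c hc0 hc1
  obtain ⟨g, N, hN, hg, hgen, hdvd, hNn⟩ := exists_gen E
  obtain ⟨ζ, hζ, hζg, hζN⟩ := exists_teich hπ1 hm hg ((hdvd N).2 dvd_rfl) hNn
  have hgζ : ∀ i : ℕ, ‖g ^ i - ζ ^ i‖ < 1 := fun i =>
    pow_close hg.le hζ.le (by rwa [norm_sub_rev]) i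
  have hζ0 : ζ ≠ 0 := by rintro rfl; simp at hζ
  have hgen' : ∀ x : E, ‖x‖ = 1 → ∃ i : ℕ, ‖x - ζ ^ i‖ < 1 := fun x hx => by
    obtain ⟨i, hi⟩ := hgen x hx
    exact ⟨i, norm_sub_lt_trans hi (hgζ i)⟩
  have hdvd' : ∀ i : ℕ, ‖ζ ^ i - 1‖ < 1 ↔ N ∣ i := fun i => by
    rw [← hdvd i]
    constructor
    · intro h; exact norm_sub_lt_trans (hgζ i) h
    · intro h; exact norm_sub_lt_trans (by rw [norm_sub_rev]; exact hgζ i) h
  have hπn : 0 < ‖π‖ := norm_pos_iff.2 hπ0
  obtain ⟨j, hj⟩ := hgen' (π * ζ * π⁻¹) (by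
    rw [norm_mul, norm_mul, hζ, mul_one, norm_inv, mul_inv_cancel₀ hπn.ne'])
  set a : E := ζ ^ j with ha
  have ha0 : a ≠ 0 := pow_ne_zero _ hζ0
  have han : ‖a‖ = 1 := by rw [ha, norm_pow, hζ, one_pow]
  have haN : a ^ N = 1 := by rw [ha, ← pow_mul, mul_comm, pow_mul, hζN, one_pow]
  let t : ℕ → E := fun i => a⁻¹ ^ i * π * ζ ^ i
  have ht : ∀ i, a⁻¹ * t i * ζ = t (i + 1) := fun i => by
    simp only [t]
    rw [pow_succ' a⁻¹, pow_succ ζ]
    simp only [mul_assoc]
  have htN : t N = t 0 := by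
    simp only [t]
    rw [inv_pow, haN, hζN]; simp
  have hclose : ∀ i, ‖t i - π‖ < ‖π‖ := fun i => by
    have h1 : (π * ζ * π⁻¹) ^ i = π * ζ ^ i * π⁻¹ := by
      induction i with
      | zero => simp [hπ0]
      | succ i ih =>
        rw [pow_succ, ih, pow_succ]
        simp only [mul_assoc]
        rw [inv_mul_cancel_left₀ hπ0]
    have h2 := pow_close (a := π * ζ * π⁻¹) (b := a) (by
      rw [norm_mul, norm_mul, hζ, mul_one, norm_inv, mul_inv_cancel₀ hπn.ne']) han.le hj i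
    rw [h1] at h2
    have h3 : t i - π = a⁻¹ ^ i * (π * ζ ^ i * π⁻¹ - a ^ i) * π := by
      simp only [t]
      rw [mul_sub, sub_mul, inv_pow, inv_mul_cancel₀ (pow_ne_zero _ ha0), one_mul]
      simp only [mul_assoc]
      rw [inv_mul_cancel₀ hπ0, mul_one]
    rw [h3, norm_mul, norm_mul, norm_pow, norm_inv, han, inv_one, one_pow, one_mul]
    calc ‖π * ζ ^ i * π⁻¹ - a ^ i‖ * ‖π‖ < 1 * ‖π‖ := by gcongr
      _ = ‖π‖ := one_mul _
  set π' : E := ∑ i ∈ Finset.range N, t i with hπ'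
  have hNn1 : ‖(N : E)‖ = 1 := by
    have h1 : ‖(-1 : E)‖ = 1 := by simp
    have := norm_eq_one_of_close (b := (N : E)) h1 (by
      have : (-1 : E) - N = -((N : E) + 1) := by abel
      rw [this, norm_neg]
      exact hNn)
    exact this
  have hd : ‖π' - N * π‖ < ‖π‖ := by
    have : π' - N * π = ∑ i ∈ Finset.range N, (t i - π) := by
      rw [Finset.sum_sub_distrib, Finset.sum_const, Finset.card_range, nsmul_eq_mul]
    rw [this]
    exact norm_sum_lt' _ _ hπn fun i _ => hclose i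
  have hNπ : ‖(N : E) * π‖ = ‖π‖ := by rw [norm_mul, hNn1, one_mul]
  have hπ'n : ‖π'‖ = ‖π‖ := by
    refine le_antisymm ?_ ?_
    · have : π' = (π' - N * π) + N * π := by abel
      rw [this]
      exact (IsUltrametricDist.norm_add_le_max _ _).trans (max_le hd.le hNπ.le)
    · by_contra hcon
      push Not at hcon
      have : (N : E) * π = -(π' - N * π) + π' := by abel
      have h2 : ‖(N : E) * π‖ < ‖π‖ := by
        rw [this]
        refine (IsUltrametricDist.norm_add_le_max _ _).trans_lt (max_lt ?_ hcon)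
        rw [norm_neg]; exact hd
      rw [hNπ] at h2
      exact lt_irrefl _ h2
  have hcomm : π' * ζ = a * π' := by
    have h1 : a⁻¹ * π' * ζ = π' := by
      rw [hπ', Finset.mul_sum, Finset.sum_mul]
      simp only [ht]
      have h2 := Finset.sum_range_succ t N
      rw [Finset.sum_range_succ', htN] at h2
      exact add_right_cancel h2
    calc π' * ζ = a * (a⁻¹ * π' * ζ) := by
          rw [← mul_assoc, ← mul_assoc, mul_inv_cancel₀ ha0, one_mul]
      _ = a * π' := by rw [h1]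
  exact ⟨⟨ζ, π', N, j, hN, hζN, fun h => by rw [h, norm_zero] at hπ'n; exact hπn.ne hπ'n,
    by rw [hπ'n]; exact hπ1, fun x hx => by rw [hπ'n]; exact hm x hx, hgen', hdvd', hcomm⟩⟩

namespace Frame

variable (R : Frame E)

omit [IsUltrametricDist E] in
theorem norm_ζ : ‖R.ζ‖ = 1 := by
  have h : ‖R.ζ‖ ^ R.N = 1 := by rw [← norm_pow, R.ζN, norm_one]
  exact (pow_eq_one_iff_of_nonneg (norm_nonneg _) R.hN.ne').1 h

omit [IsUltrametricDist E] in
theorem ζ0 : R.ζ ≠ 0 := by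
  intro h
  have := R.norm_ζ
  rw [h, norm_zero] at this
  exact zero_ne_one this

omit [IsUltrametricDist E] in
theorem πpos : 0 < ‖R.π‖ := norm_pos_iff.2 R.π0

omit [IsUltrametricDist E] in
theorem approx (x : E) (hx : x ≠ 0) : ∃ (i : ℕ) (m : ℤ),
    ‖x - R.ζ ^ i * R.π ^ m‖ ≤ ‖R.π‖ * ‖x‖ := by
  obtain ⟨m, hm⟩ := norm_eq_zpow R.π0 R.π1 R.πm hx
  have hu : ‖x * (R.π ^ m)⁻¹‖ = 1 := by
    rw [norm_mul, norm_inv, norm_zpow, ← hm, mul_inv_cancel₀ (norm_ne_zero_iff.2 hx)]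
  obtain ⟨i, hi⟩ := R.gen _ hu
  refine ⟨i, m, ?_⟩
  have h1 := R.πm _ hi
  have h2 : x - R.ζ ^ i * R.π ^ m = (x * (R.π ^ m)⁻¹ - R.ζ ^ i) * R.π ^ m := by
    rw [sub_mul, inv_mul_cancel_right₀ (zpow_ne_zero _ R.π0)]
  rw [h2, norm_mul, norm_zpow, ← hm]
  gcongr

end Frame

end Frame

section Span

variable {k : Type u} {E : Type v} [NontriviallyNormedField k] [CompleteSpace k]
  [NormedDivisionRing E] [NormedAlgebra k E] [IsUltrametricDist E] [FiniteDimensional k E]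

theorem Frame.span_eq_top (R : Frame E) :
    Submodule.span k (Set.range fun p : ℕ × ℤ => R.ζ ^ p.1 * R.π ^ p.2) = ⊤ := by
  set W := Submodule.span k (Set.range fun p : ℕ × ℤ => R.ζ ^ p.1 * R.π ^ p.2) with hW
  have hcl : IsClosed (W : Set E) := W.closed_of_finiteDimensional
  rw [Submodule.eq_top_iff']
  intro x
  by_contra hx
  have hne : (W : Set E).Nonempty := ⟨0, W.zero_mem⟩
  have hpos : 0 < Metric.infDist x (W : Set E) := by
    rw [← hcl.notMem_iff_infDist_pos hne]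
    exact hx
  have hlt : Metric.infDist x (W : Set E) < Metric.infDist x (W : Set E) / ‖R.π‖ := by
    rw [lt_div_iff₀ R.πpos]
    calc Metric.infDist x (W : Set E) * ‖R.π‖ < Metric.infDist x (W : Set E) * 1 := by
          gcongr
          exact R.π1
      _ = _ := mul_one _
  obtain ⟨w, hw, hdw⟩ := (Metric.infDist_lt_iff hne).1 hlt
  have hxw : x - w ≠ 0 := by
    intro h
    rw [sub_eq_zero] at h
    exact hx (h ▸ hw)
  obtain ⟨i, m, him⟩ := R.approx (x - w) hxw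
  have hw' : w + R.ζ ^ i * R.π ^ m ∈ (W : Set E) :=
    W.add_mem hw (Submodule.subset_span ⟨(i, m), rfl⟩)
  have h1 : Metric.infDist x (W : Set E) ≤ dist x (w + R.ζ ^ i * R.π ^ m) :=
    Metric.infDist_le_dist_of_mem hw'
  rw [dist_eq_norm, ← sub_sub] at h1
  have h2 : ‖x - w‖ < Metric.infDist x (W : Set E) / ‖R.π‖ := by rwa [← dist_eq_norm]
  rw [lt_div_iff₀ R.πpos] at h2
  nlinarith

theorem Frame.mem_center (R : Frame E) (k : Type u) [NontriviallyNormedField k] [CompleteSpace k]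
    [NormedAlgebra k E] [FiniteDimensional k E] {c : E} (h1 : Commute c R.ζ)
    (h2 : Commute c R.π) : c ∈ Subring.center E := by
  rw [Subring.mem_center_iff]
  intro x
  have hx : x ∈ Submodule.span k (Set.range fun p : ℕ × ℤ => R.ζ ^ p.1 * R.π ^ p.2) := by
    rw [R.span_eq_top]; trivial
  induction hx using Submodule.span_induction with
  | mem y hy =>
    obtain ⟨p, rfl⟩ := hy
    exact ((h1.pow_right p.1).mul_right (h2.zpow_right₀ p.2)).symm
  | zero => simp
  | add y z _ _ hy hz => rw [add_mul, mul_add, hy, hz]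
  | smul a y _ hy => rw [smul_mul_assoc, mul_smul_comm, hy]

end Span

end Vale.Agent.P011.Even.LocDiv
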