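import Vale.Agent.P011.Even.LocDefs
import Vale.Agent.P011.Even.HermClass

/-!
Hermitian matrices over a quadratic extension of a local field, and involutions of the second
kind on matrix algebras.
-/

open Matrix

namespace Vale.Agent.P011.Even

section norm

variable {F L : Type} [Field F] [Field L] [Algebra F L] [StarRing L]

theorem norm_of_LN (hfix : ∀ x : L, star x = x ↔ x ∈ Set.range (algebraMap F L)) {d : Fˣ} {s : L}
    (hs : s ^ 2 = algebraMap F L d) (hss : star s = -s) {u : Fˣ} (hu : u ∈ LN d) :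
    ∃ x : L, x * star x = algebraMap F L u := by
  obtain ⟨p, q, h⟩ := hu
  have hF : ∀ y : F, star (algebraMap F L y) = algebraMap F L y := fun y => (hfix _).mpr ⟨y, rfl⟩
  refine ⟨algebraMap F L p + algebraMap F L q * s, ?_⟩
  rw [star_add, star_mul', hF, hF, hss, h, map_sub, map_mul, map_pow, map_pow, ← hs]
  ring

theorem binUniv (hF : IndexTwo F) (hfix : ∀ x : L, star x = x ↔ x ∈ Set.range (algebraMap F L))
    {d : Fˣ} (hd : ¬ IsSquare (d : F)) {s : L} (hs : s ^ 2 = algebraMap F L d)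
    (hss : star s = -s) : BinUniv L := by
  intro a b c ha hb hc ha0 hb0 hc0
  obtain ⟨a, rfl⟩ := (hfix a).mp ha
  obtain ⟨b, rfl⟩ := (hfix b).mp hb
  obtain ⟨c, rfl⟩ := (hfix c).mp hc
  have ha1 : a ≠ 0 := by rintro rfl; exact ha0 (map_zero _)
  have hb1 : b ≠ 0 := by rintro rfl; exact hb0 (map_zero _)
  have hc1 : c ≠ 0 := by rintro rfl; exact hc0 (map_zero _)
  let A : Fˣ := Units.mk0 a ha1
  let B : Fˣ := Units.mk0 b hb1
  let C : Fˣ := Units.mk0 c hc1
  have hidx := hF.two d hd
  by_cases h1 : C / A ∈ LN d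
  · obtain ⟨x, hx⟩ := norm_of_LN hfix hs hss h1
    refine ⟨x, 0, ?_⟩
    have e : x * algebraMap F L a * star x = algebraMap F L a * (x * star x) := by ring
    rw [zero_mul, zero_mul, add_zero, e, hx, ← map_mul]
    congr 1
    rw [Units.val_div_eq_div_val]
    change a * (c / a) = c
    field_simp
  by_cases h2 : C / B ∈ LN d
  · obtain ⟨x, hx⟩ := norm_of_LN hfix hs hss h2
    refine ⟨0, x, ?_⟩
    have e : x * algebraMap F L b * star x = algebraMap F L b * (x * star x) := by ring
    rw [zero_mul, zero_mul, zero_add, e, hx, ← map_mul]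
    congr 1
    rw [Units.val_div_eq_div_val]
    change b * (c / b) = c
    field_simp
  obtain ⟨b0, hb0', c0, hc0', g, hg, hgs⟩ := hF.cone d hd
  have h3 : A / B ∈ LN d := by
    have h4 : (C / B) * (C / A)⁻¹ ∈ LN d := by
      rw [Subgroup.mul_mem_iff_of_index_two hidx, inv_mem_iff]
      exact iff_of_false h2 h1
    convert h4 using 1
    rw [inv_div, div_mul_div_comm, mul_comm C A, mul_div_mul_right_eq_div]
  have h5 : (C / A) * g⁻¹ ∈ LN d := by
    rw [Subgroup.mul_mem_iff_of_index_two hidx, inv_mem_iff]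
    exact iff_of_false h1 hg
  obtain ⟨x, hx⟩ := norm_of_LN hfix hs hss (mul_mem h5 hb0')
  obtain ⟨y, hy⟩ := norm_of_LN hfix hs hss (mul_mem h3 (mul_mem h5 hc0'))
  refine ⟨x, y, ?_⟩
  have e : x * algebraMap F L a * star x + y * algebraMap F L b * star y =
      algebraMap F L a * (x * star x) + algebraMap F L b * (y * star y) := by ring
  rw [e, hx, hy, ← map_mul, ← map_mul, ← map_add]
  congr 1
  simp only [Units.val_mul, Units.val_div_eq_div_val, Units.val_inv_eq_inv_val]
  change a * (c / a * (g : F)⁻¹ * b0) + b * (a / b * (c / a * (g : F)⁻¹ * c0)) = c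
  have hg0 : (g : F) ≠ 0 := g.ne_zero
  field_simp
  linear_combination -hgs

end norm

/-- LOC4b. Hermitian matrices over a local quadratic extension are classified by rank and
discriminant. -/
theorem hermitian_class (F L : Type) [Field F] [CharZero F] (hF : IndexTwo F) [Field L]
    [Algebra F L] [StarRing L] (hfix : ∀ x : L, star x = x ↔ x ∈ Set.range (algebraMap F L))
    (_hL : Module.finrank F L = 2) {d : Fˣ} (hd : ¬ IsSquare (d : F)) {s : L}
    (hs : s ^ 2 = algebraMap F L d) (hss : star s = -s) {n : ℕ}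
    (G H : Matrix (Fin n) (Fin n) L) (hG : G.conjTranspose = G) (hH : H.conjTranspose = H)
    (hG0 : G.det ≠ 0) (hH0 : H.det ≠ 0) (hdisc : ∃ z : L, z ≠ 0 ∧ H.det = G.det * (z * star z)) :
    ∃ t : Matrix (Fin n) (Fin n) L, t.conjTranspose * G * t = H := by
  have : CharZero L := charZero_of_injective_algebraMap (algebraMap F L).injective
  have hGs : star G.det = G.det := by rw [← Matrix.det_conjTranspose, hG]
  obtain ⟨z, -, hz⟩ := hdisc
  obtain ⟨Q, -, hQ⟩ := herm_class two_ne_zero (binUniv hF hfix hd hs hss) G H hG hH hG0 hH0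
    ⟨G.det * z, by rw [hz, star_mul', hGs]; ring⟩
  exact ⟨Q.conjTranspose, by rw [Matrix.conjTranspose_conjTranspose]; exact hQ⟩

/-- Automorphisms of matrix algebras are inner. -/
theorem matrix_inner {L : Type} [Field L] {n : ℕ}
    (Φ : Matrix (Fin n) (Fin n) L ≃ₐ[L] Matrix (Fin n) (Fin n) L) :
    ∃ S : Matrix (Fin n) (Fin n) L, IsUnit S ∧ ∀ x, Φ x * S = S * x := by
  let Ψ : Module.End L (Fin n → L) ≃ₐ[L] Module.End L (Fin n → L) :=
    (Matrix.toLinAlgEquiv' (n := Fin n) (R := L)).symm.trans (Φ.trans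
      (Matrix.toLinAlgEquiv' (n := Fin n) (R := L)))
  obtain ⟨T, hT⟩ := AlgEquiv.eq_linearEquivConjAlgEquiv Ψ
  refine ⟨LinearMap.toMatrix' T.toLinearMap, ?_, ?_⟩
  · have h1 : LinearMap.toMatrix' T.toLinearMap * LinearMap.toMatrix' T.symm.toLinearMap = 1 := by
      rw [← LinearMap.toMatrix'_comp]
      simp
    have h2 : LinearMap.toMatrix' T.symm.toLinearMap * LinearMap.toMatrix' T.toLinearMap = 1 := by
      rw [← LinearMap.toMatrix'_comp]
      simp
    exact ⟨⟨_, _, h1, h2⟩, rfl⟩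
  · intro x
    have h1 : Ψ (Matrix.toLin' x) = Matrix.toLin' (Φ x) := by
      change (Matrix.toLinAlgEquiv' (n := Fin n) (R := L)) (Φ
        ((Matrix.toLinAlgEquiv' (n := Fin n) (R := L)).symm (Matrix.toLin' x))) = _
      have h2 : (Matrix.toLinAlgEquiv' (n := Fin n) (R := L)).symm (Matrix.toLin' x) = x :=
        (Matrix.toLinAlgEquiv' (n := Fin n) (R := L)).symm_apply_apply x
      rw [h2]
      rfl
    rw [hT] at h1
    have h3 : (Matrix.toLin' (Φ x)) ∘ₗ T.toLinearMap = T.toLinearMap ∘ₗ Matrix.toLin' x := by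
      rw [← h1]
      ext v i
      simp [LinearEquiv.conjAlgEquiv_apply]
    have h4 := congrArg LinearMap.toMatrix' h3
    rw [LinearMap.toMatrix'_comp, LinearMap.toMatrix'_comp, LinearMap.toMatrix'_toLin',
      LinearMap.toMatrix'_toLin'] at h4
    exact h4

/-- LOC4a. Involutions of the second kind on matrix algebras. -/
theorem exists_gram (F L : Type) [Field F] [CharZero F] [Field L] [Algebra F L] [StarRing L]
    (hfix : ∀ x : L, star x = x ↔ x ∈ Set.range (algebraMap F L))
    (hL : Module.finrank F L = 2) {n : ℕ}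
    (τ : Matrix (Fin n) (Fin n) L →ₗ[F] Matrix (Fin n) (Fin n) L)
    (hmul : ∀ x y, τ (x * y) = τ y * τ x) (hinv : ∀ x, τ (τ x) = x)
    (hsc : ∀ c : L, τ (Matrix.scalar (Fin n) c) = Matrix.scalar (Fin n) (star c)) :
    ∃ G : Matrix (Fin n) (Fin n) L, IsUnit G ∧ G.conjTranspose = G ∧
      ∀ x, G * τ x = x.conjTranspose * G := by
  have hcharL : CharZero L := charZero_of_injective_algebraMap (algebraMap F L).injective
  -- an antisymmetric scalar
  obtain ⟨s, hs0, hs⟩ : ∃ s : L, s ≠ 0 ∧ star s = -s := by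
    by_contra hcon
    push Not at hcon
    have h1 : ∀ x : L, star x = x := by
      intro x
      by_contra hx
      apply hcon (x - star x) (fun h => hx (sub_eq_zero.mp h).symm)
      rw [star_sub, star_star, neg_sub]
    have h2 : Function.Surjective (algebraMap F L) := fun x => (hfix x).mp (h1 x)
    have h3 : Module.finrank F L = 1 := by
      rw [finrank_eq_one_iff']
      refine ⟨1, one_ne_zero, fun w => ?_⟩
      obtain ⟨c, rfl⟩ := h2 w
      exact ⟨c, by rw [Algebra.smul_def, mul_one]⟩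
    omega
  let Φ : Matrix (Fin n) (Fin n) L ≃ₐ[L] Matrix (Fin n) (Fin n) L :=
    { toFun := fun x => τ xᴴ
      invFun := fun x => (τ x)ᴴ
      left_inv := fun x => by
        change (τ (τ xᴴ))ᴴ = x
        rw [hinv, Matrix.conjTranspose_conjTranspose]
      right_inv := fun x => by
        change τ ((τ x)ᴴ)ᴴ = x
        rw [Matrix.conjTranspose_conjTranspose, hinv]
      map_mul' := fun x y => by rw [Matrix.conjTranspose_mul, hmul]
      map_add' := fun x y => by rw [Matrix.conjTranspose_add, map_add]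
      commutes' := fun c => by
        have h1 : (algebraMap L (Matrix (Fin n) (Fin n) L) c)ᴴ =
            Matrix.scalar (Fin n) (star c) := by
          rw [Matrix.algebraMap_eq_diagonal, Matrix.diagonal_conjTranspose]
          rfl
        rw [h1, hsc, star_star]
        rfl }
  have hΦ : ∀ x, Φ x = τ xᴴ := fun _ => rfl
  obtain ⟨S, hS, hSx⟩ := matrix_inner Φ
  obtain ⟨U, rfl⟩ := hS
  set T : Matrix (Fin n) (Fin n) L := ((U⁻¹ : (Matrix (Fin n) (Fin n) L)ˣ) :
    Matrix (Fin n) (Fin n) L) with hT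
  set S : Matrix (Fin n) (Fin n) L := (U : Matrix (Fin n) (Fin n) L) with hSdef
  have hST : S * T = 1 := Units.mul_inv U
  have hTS : T * S = 1 := Units.inv_mul U
  have hSTs : Tᴴ * Sᴴ = 1 := by rw [← Matrix.conjTranspose_mul, hST, Matrix.conjTranspose_one]
  have hTSs : Sᴴ * Tᴴ = 1 := by rw [← Matrix.conjTranspose_mul, hTS, Matrix.conjTranspose_one]
  -- `τ x = S xᴴ T`
  have hτ : ∀ x, τ x = S * xᴴ * T := by
    intro x
    have h1 := hSx xᴴ
    rw [hΦ, Matrix.conjTranspose_conjTranspose] at h1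
    rw [← h1, mul_assoc, hST, mul_one]
  -- `S * Tᴴ` is central
  have hcen : ∀ x, S * Tᴴ * x = x * (S * Tᴴ) := by
    intro x
    have h1 := hinv x
    rw [hτ, hτ, Matrix.conjTranspose_mul, Matrix.conjTranspose_mul,
      Matrix.conjTranspose_conjTranspose] at h1
    have h2 := congrArg (fun z => z * (S * Tᴴ)) h1
    have h3 : S * (Tᴴ * (x * Sᴴ)) * T * (S * Tᴴ) = S * Tᴴ * x := by
      calc S * (Tᴴ * (x * Sᴴ)) * T * (S * Tᴴ) = S * Tᴴ * x * (Sᴴ * ((T * S) * Tᴴ)) := by
            simp only [mul_assoc]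
        _ = _ := by rw [hTS, one_mul, hTSs, mul_one]
    rw [← h3]
    exact h2
  obtain ⟨c, hc⟩ : ∃ c : L, S * Tᴴ = Matrix.scalar (Fin n) c := by
    have h1 : S * Tᴴ ∈ Set.range (Matrix.scalar (Fin n) : L → Matrix (Fin n) (Fin n) L) := by
      rw [Matrix.mem_range_scalar_iff_commute_single']
      intro i j
      exact (hcen _).symm
    obtain ⟨c, hc⟩ := h1
    exact ⟨c, hc.symm⟩
  have hscal : ∀ (a : L) (x : Matrix (Fin n) (Fin n) L), Matrix.scalar (Fin n) a * x = a • x := by
    intro a x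
    ext i j
    simp
  -- `S = c Sᴴ`
  have hSc : S = c • Sᴴ := by
    rw [← hscal, ← hc, mul_assoc, hSTs, mul_one]
  rcases Nat.eq_zero_or_pos n with rfl | hn
  · refine ⟨1, isUnit_one, by simp, fun x => ?_⟩
    ext i
    exact i.elim0
  have hcc : c * star c = 1 := by
    have h1 : S = (c * star c) • S := by
      conv_lhs => rw [hSc]
      conv_lhs => rw [hSc]
      rw [Matrix.conjTranspose_smul, Matrix.conjTranspose_conjTranspose, smul_smul]
    have h2 : (1 - c * star c) • (1 : Matrix (Fin n) (Fin n) L) = 0 := by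
      have h3 := congrArg (fun z => z * T) h1
      simp only [smul_mul_assoc, hST] at h3
      rw [sub_smul, one_smul, ← h3, sub_self]
    have h3 := congrFun (congrFun h2 ⟨0, hn⟩) ⟨0, hn⟩
    simp only [Matrix.smul_apply, Matrix.one_apply_eq, smul_eq_mul, mul_one,
      Matrix.zero_apply] at h3
    exact (sub_eq_zero.mp h3).symm
  -- Hilbert 90
  obtain ⟨l, hl0, hl⟩ : ∃ l : L, l ≠ 0 ∧ star l = c * l := by
    by_cases h1 : 1 + star c = 0
    · refine ⟨s, hs0, ?_⟩
      have h2 : c = -1 := by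
        have := congrArg star h1
        rw [star_add, star_one, star_star, star_zero] at this
        linear_combination this
      rw [hs, h2, neg_one_mul]
    · refine ⟨1 + star c, h1, ?_⟩
      rw [star_add, star_one, star_star, mul_add, hcc, mul_one, add_comm]
  -- `l • S` is hermitian
  have hlS : (l • S)ᴴ = l • S := by
    rw [Matrix.conjTranspose_smul, hl, mul_smul, smul_comm c l]
    conv_rhs => rw [hSc]
  refine ⟨l⁻¹ • T, ?_, ?_, ?_⟩
  · refine ⟨⟨l⁻¹ • T, l • S, ?_, ?_⟩, rfl⟩
    · rw [smul_mul_smul_comm, hTS, inv_mul_cancel₀ hl0, one_smul]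
    · rw [smul_mul_smul_comm, hST, mul_inv_cancel₀ hl0, one_smul]
  · have h1 : (l • S) * (l⁻¹ • T) = 1 := by
      rw [smul_mul_smul_comm, hST, mul_inv_cancel₀ hl0, one_smul]
    have h2 : (l⁻¹ • T) * (l • S) = 1 := by
      rw [smul_mul_smul_comm, hTS, inv_mul_cancel₀ hl0, one_smul]
    have h3 : (l⁻¹ • T)ᴴ * (l • S) = 1 := by
      conv_lhs => rw [← hlS]
      rw [← Matrix.conjTranspose_mul, h1, Matrix.conjTranspose_one]
    calc (l⁻¹ • T)ᴴ = (l⁻¹ • T)ᴴ * ((l • S) * (l⁻¹ • T)) := by rw [h1, mul_one]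
      _ = ((l⁻¹ • T)ᴴ * (l • S)) * (l⁻¹ • T) := by rw [mul_assoc]
      _ = l⁻¹ • T := by rw [h3, one_mul]
  · intro x
    rw [hτ, smul_mul_assoc, mul_smul_comm, ← mul_assoc, ← mul_assoc, hTS, one_mul]

end Vale.Agent.P011.Even
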