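import Vale.Agent.P011.Even.LocDefs

/-!
# The local algebra of a division algebra with an involution of the second kind is simple
-/

namespace Vale.Agent.P011.Even.LocSimple

open Module TensorProduct

section

variable {k D F : Type} [Field k] [DivisionRing D] [Algebra k D] [Field F] [Algebra k F]

open Classical in
/-- coordinates of the base change -/
noncomputable def crd {ι : Type} (b : Basis ι k F) : F ⊗[k] D ≃ₗ[k] ι →₀ D :=
  TensorProduct.equivFinsuppOfBasisLeft b

theorem crd_tmul {ι : Type} (b : Basis ι k F) (e : F) (d : D) (i : ι) :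
    crd b (e ⊗ₜ d) i = b.repr e i • d := by
  classical
  exact TensorProduct.equivFinsuppOfBasisLeft_apply_tmul_apply b e d i

theorem crd_symm {ι : Type} (b : Basis ι k F) (v : ι →₀ D) :
    (crd b).symm v = v.sum fun i n => b i ⊗ₜ n := by
  classical
  exact TensorProduct.equivFinsuppOfBasisLeft_symm_apply b v

theorem crd_mul_right {ι : Type} (b : Basis ι k F) (x : F ⊗[k] D) (d : D) (i : ι) :
    crd b (x * (1 ⊗ₜ d)) i = crd b x i * d := by
  induction x using TensorProduct.induction_on with
  | zero => simp
  | tmul e c =>
    rw [Algebra.TensorProduct.tmul_mul_tmul, mul_one, crd_tmul, crd_tmul, smul_mul_assoc]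
  | add x y hx hy => rw [add_mul, map_add, map_add, Finsupp.add_apply, Finsupp.add_apply, hx, hy,
      add_mul]

theorem crd_mul_left {ι : Type} (b : Basis ι k F) (x : F ⊗[k] D) (d : D) (i : ι) :
    crd b ((1 ⊗ₜ d) * x) i = d * crd b x i := by
  induction x using TensorProduct.induction_on with
  | zero => simp
  | tmul e c =>
    rw [Algebra.TensorProduct.tmul_mul_tmul, one_mul, crd_tmul, crd_tmul, mul_smul_comm]
  | add x y hx hy => rw [mul_add, map_add, map_add, Finsupp.add_apply, Finsupp.add_apply, hx, hy,
      mul_add]

variable {K : Type} [Field K] [Algebra k K] [Algebra K D] [IsScalarTower k K D]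

/-- an element whose coordinates are central comes from `F ⊗ K` -/
theorem mem_of_crd {ι : Type} (b : Basis ι k F) (x : F ⊗[k] D) {s : K}
    (hspan : ∀ x : K, ∃ a b : k, x = algebraMap k K a + algebraMap k K b * s)
    (h : ∀ i, crd b x i ∈ Set.range (algebraMap K D)) :
    ∃ f g : F, x = f ⊗ₜ 1 + g ⊗ₜ (algebraMap K D s) := by
  choose c hc using h
  choose p q hpq using hspan
  refine ⟨(crd b x).sum fun i _ => p (c i) • b i, (crd b x).sum fun i _ => q (c i) • b i, ?_⟩
  have h1 : x = (crd b x).sum fun i n => b i ⊗ₜ n := by
    rw [← crd_symm, LinearEquiv.symm_apply_apply]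
  refine h1.trans ?_
  rw [Finsupp.sum, Finsupp.sum, Finsupp.sum, TensorProduct.sum_tmul, TensorProduct.sum_tmul,
    ← Finset.sum_add_distrib]
  refine Finset.sum_congr rfl fun i _ => ?_
  have h2 : crd b x i = p (c i) • (1 : D) + q (c i) • algebraMap K D s := by
    rw [← hc i]
    nth_rewrite 1 [hpq (c i)]
    rw [map_add, map_mul, ← IsScalarTower.algebraMap_apply, ← IsScalarTower.algebraMap_apply,
      Algebra.algebraMap_eq_smul_one, Algebra.smul_def (q (c i))]
  rw [h2, TensorProduct.tmul_add, TensorProduct.tmul_smul, TensorProduct.tmul_smul,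
    TensorProduct.smul_tmul', TensorProduct.smul_tmul']

variable [Algebra.IsCentral K D]

omit [Algebra k D] [Algebra k K] [IsScalarTower k K D] in
theorem mem_range_of_comm {d : D} (h : ∀ c : D, c * d = d * c) :
    d ∈ Set.range (algebraMap K D) := by
  have h1 : d ∈ Subalgebra.center K D := by
    rw [Subalgebra.mem_center_iff]
    intro c
    exact h c
  rw [Algebra.IsCentral.center_eq_bot, Algebra.mem_bot] at h1
  exact h1

/-- the centralizer of `D` in the base change -/
theorem center_tensor {x : F ⊗[k] D} {s : K}
    (hspan : ∀ x : K, ∃ a b : k, x = algebraMap k K a + algebraMap k K b * s)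
    (h : ∀ d : D, (1 ⊗ₜ d) * x = x * (1 ⊗ₜ d)) :
    ∃ f g : F, x = f ⊗ₜ 1 + g ⊗ₜ (algebraMap K D s) := by
  let b := Basis.ofVectorSpace k F
  apply mem_of_crd b x hspan
  intro i
  apply mem_range_of_comm
  intro c
  rw [← crd_mul_left, h, crd_mul_right]

/-- the base change is simple -/
theorem simple_tensor {d : k} {s : K} (hs : s ^ 2 = algebraMap k K d)
    (hspan : ∀ x : K, ∃ a b : k, x = algebraMap k K a + algebraMap k K b * s)
    (hd : ¬ IsSquare (algebraMap k F d)) : IsSimpleRing (F ⊗[k] D) := by
  classical
  let b := Basis.ofVectorSpace k F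
  have key : ∀ (n : ℕ) (I : TwoSidedIdeal (F ⊗[k] D)) (x : F ⊗[k] D), x ∈ I → x ≠ 0 →
      (crd b x).support.card = n → I = ⊤ := by
    intro n
    induction n using Nat.strong_induction_on with
    | _ n ih =>
      intro I x hx hx0 hn
      have hv0 : crd b x ≠ 0 := by
        intro h0
        exact hx0 ((crd b).map_eq_zero_iff.mp h0)
      obtain ⟨i0, hi0⟩ : ∃ i, crd b x i ≠ 0 := by
        by_contra hcon
        push Not at hcon
        exact hv0 (Finsupp.ext hcon)
      obtain ⟨y, hy⟩ : ∃ y, y = x * (1 ⊗ₜ (crd b x i0)⁻¹) := ⟨_, rfl⟩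
      have hyI : y ∈ I := by rw [hy]; exact I.mul_mem_right _ _ hx
      have hyc : ∀ i, crd b y i = crd b x i * (crd b x i0)⁻¹ := fun i => by
        rw [hy, crd_mul_right]
      have hy1 : crd b y i0 = 1 := by rw [hyc, mul_inv_cancel₀ hi0]
      have hysup : (crd b y).support ⊆ (crd b x).support := by
        intro i hi
        rw [Finsupp.mem_support_iff] at hi ⊢
        intro h0
        apply hi
        rw [hyc, h0, zero_mul]
      by_cases hcomm : ∀ d : D, (1 ⊗ₜ d) * y = y * (1 ⊗ₜ d)
      · obtain ⟨f, g, he⟩ := center_tensor hspan hcomm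
        have hfg : f ^ 2 - algebraMap k F d * g ^ 2 ≠ 0 := by
          intro h0
          by_cases hg : g = 0
          · rw [hg] at h0
            have hf : f = 0 := by
              have : f ^ 2 = 0 := by simpa using h0
              exact pow_eq_zero_iff (two_ne_zero) |>.1 this
            rw [hf, hg, TensorProduct.zero_tmul, TensorProduct.zero_tmul, add_zero] at he
            rw [he, map_zero, Finsupp.zero_apply] at hy1
            exact zero_ne_one hy1
          · apply hd
            refine ⟨f / g, ?_⟩
            field_simp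
            rw [sub_eq_zero] at h0
            rw [h0]
        rw [← TwoSidedIdeal.one_mem_iff]
        have h1 : (1 : F ⊗[k] D) = ((f ^ 2 - algebraMap k F d * g ^ 2)⁻¹ ⊗ₜ 1) *
            ((f ⊗ₜ 1 - g ⊗ₜ (algebraMap K D s)) * y) := by
          have h2 : (f ⊗ₜ 1 - g ⊗ₜ (algebraMap K D s)) * y =
              (f ^ 2 - algebraMap k F d * g ^ 2) ⊗ₜ (1 : D) := by
            have hss : algebraMap K D s * algebraMap K D s = d • (1 : D) := by
              rw [← map_mul, ← sq, hs, ← IsScalarTower.algebraMap_apply,
                Algebra.algebraMap_eq_smul_one]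
            rw [he, sub_mul, mul_add, mul_add, Algebra.TensorProduct.tmul_mul_tmul,
              Algebra.TensorProduct.tmul_mul_tmul, Algebra.TensorProduct.tmul_mul_tmul,
              Algebra.TensorProduct.tmul_mul_tmul, mul_one, mul_one, one_mul, hss,
              mul_comm g f, TensorProduct.sub_tmul, TensorProduct.tmul_smul,
              TensorProduct.smul_tmul', ← sq, ← sq, Algebra.smul_def]
            abel
          rw [h2, Algebra.TensorProduct.tmul_mul_tmul, inv_mul_cancel₀ hfg, mul_one,
            Algebra.TensorProduct.one_def]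
        rw [h1]
        exact I.mul_mem_left _ _ (I.mul_mem_left _ _ hyI)
      · push Not at hcomm
        obtain ⟨d, hd⟩ := hcomm
        obtain ⟨z, hz⟩ : ∃ z, z = (1 ⊗ₜ d) * y - y * (1 ⊗ₜ d) := ⟨_, rfl⟩
        have hzI : z ∈ I := by
          rw [hz]
          exact I.sub_mem (I.mul_mem_left _ _ hyI) (I.mul_mem_right _ _ hyI)
        have hz0 : z ≠ 0 := by rw [hz]; exact sub_ne_zero.mpr hd
        have hzc : ∀ i, crd b z i = d * crd b y i - crd b y i * d := by
          intro i
          rw [hz, map_sub, Finsupp.sub_apply, crd_mul_left, crd_mul_right]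
        refine ih (crd b z).support.card ?_ I z hzI hz0 rfl
        rw [← hn]
        apply Finset.card_lt_card
        rw [Finset.ssubset_iff_of_subset]
        · refine ⟨i0, by rw [Finsupp.mem_support_iff]; exact hi0, ?_⟩
          rw [Finsupp.mem_support_iff, hzc, hy1, mul_one, one_mul, sub_self]
          simp
        · intro i hi
          rw [Finsupp.mem_support_iff, hzc] at hi
          apply hysup
          rw [Finsupp.mem_support_iff]
          intro h0
          apply hi
          rw [h0, mul_zero, zero_mul, sub_self]
  have hnt : Nontrivial (F ⊗[k] D) := by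
    refine ⟨⟨1, 0, ?_⟩⟩
    intro h10
    obtain ⟨i, hi⟩ : ∃ i, b.repr (1 : F) i ≠ 0 := by
      by_contra hcon
      push Not at hcon
      have h2 : b.repr (1 : F) = 0 := Finsupp.ext hcon
      exact one_ne_zero (b.repr.map_eq_zero_iff.mp h2)
    have h1 := congrArg (fun x => crd b x i) h10
    simp only [Algebra.TensorProduct.one_def, crd_tmul, map_zero, Finsupp.zero_apply,
      Algebra.smul_def, mul_one, map_eq_zero] at h1
    exact hi h1
  refine ⟨⟨fun I => ?_⟩⟩
  by_cases hI : I = ⊥
  · exact Or.inl hI
  · right
    obtain ⟨x, hx, hx0⟩ : ∃ x ∈ I, x ≠ 0 := by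
      by_contra hcon
      push Not at hcon
      apply hI
      rw [eq_bot_iff]
      intro x hx
      rw [TwoSidedIdeal.mem_bot]
      exact hcon x hx
    exact key _ I x hx hx0 rfl

/-- The base change of an algebra with an involution of the second kind. -/
theorem secondKind_tensor [StarRing D] [CharZero F] {d : kˣ} {s : K}
    (hs : s ^ 2 = algebraMap k K d)
    (hspan : ∀ x : K, ∃ a b : k, x = algebraMap k K a + algebraMap k K b * s)
    (hd : ¬ IsSquare (algebraMap k F d)) (σ : D →ₗ[k] D) (hσ : ∀ x, σ x = star x)
    (hss : star (algebraMap K D s) = -algebraMap K D s) :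
    SecondKind F (F ⊗[k] D) (Units.map (algebraMap k F : k →* F) d) (1 ⊗ₜ algebraMap K D s)
      (σ.baseChange F) where
  ns := hd
  sq := by
    rw [sq, Algebra.TensorProduct.tmul_mul_tmul, mul_one, ← map_mul, ← sq, hs,
      ← IsScalarTower.algebraMap_apply, Algebra.algebraMap_eq_smul_one (d : k),
      TensorProduct.tmul_smul, TensorProduct.smul_tmul', Algebra.TensorProduct.algebraMap_apply,
      Algebra.smul_def, mul_one]
    rfl
  central := fun x => by
    induction x using TensorProduct.induction_on with
    | zero => simp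
    | tmul e c =>
      rw [Algebra.TensorProduct.tmul_mul_tmul, Algebra.TensorProduct.tmul_mul_tmul, mul_one,
        one_mul, Algebra.commutes]
    | add x y hx hy => rw [add_mul, mul_add, hx, hy]
  center := fun z hz => by
    obtain ⟨f, g, h⟩ := center_tensor (x := z) hspan (fun x => hz _)
    refine ⟨f, g, ?_⟩
    rw [h, Algebra.TensorProduct.algebraMap_apply, Algebra.TensorProduct.algebraMap_apply,
      Algebra.TensorProduct.tmul_mul_tmul, mul_one, one_mul]
    rfl
  mul := fun x y => by
    induction x using TensorProduct.induction_on with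
    | zero => simp
    | add x x' hx hx' => rw [add_mul, map_add, map_add, mul_add, hx, hx']
    | tmul e c =>
      induction y using TensorProduct.induction_on with
      | zero => simp
      | add y y' hy hy' => rw [mul_add, map_add, map_add, add_mul, hy, hy']
      | tmul e' c' =>
        rw [Algebra.TensorProduct.tmul_mul_tmul, LinearMap.baseChange_tmul,
          LinearMap.baseChange_tmul, LinearMap.baseChange_tmul,
          Algebra.TensorProduct.tmul_mul_tmul, hσ, hσ, hσ, star_mul, mul_comm e e']
  invol := fun x => by
    induction x using TensorProduct.induction_on with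
    | zero => simp
    | add x x' hx hx' => rw [map_add, map_add, hx, hx']
    | tmul e c =>
      rw [LinearMap.baseChange_tmul, LinearMap.baseChange_tmul, hσ, hσ, star_star]
  neg := by
    rw [LinearMap.baseChange_tmul, hσ, hss, TensorProduct.tmul_neg]

end

end Vale.Agent.P011.Even.LocSimple
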