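import Vale.Agent.P011.Even.LocQuat
import Vale.Agent.P011.Even.LocDiv

/-!
Local splitting: a simple algebra with an involution of the second kind over a local field is a
matrix algebra over its centre.
-/

namespace Vale.Agent.P011.Even

/-- Two algebras spanned by one and a square root of the same non-square are isomorphic. -/
theorem exists_equiv_of_quadratic {F L E : Type} [Field F] [Field L] [Algebra F L]
    [DivisionRing E] [Algebra F E] {d : F} (hd : ¬ IsSquare d) {sL : L} {s : E}
    (hL : sL ^ 2 = algebraMap F L d) (hE : s ^ 2 = algebraMap F E d)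
    (hL2 : Module.finrank F L = 2)
    (hsp : ∀ z : E, ∃ a b : F, z = algebraMap F E a + algebraMap F E b * s) :
    ∃ φ : E ≃ₐ[F] L, φ s = sL := by
  let fL : QuadraticAlgebra F d 0 →ₐ[F] L := QuadraticAlgebra.lift
    ⟨sL, by rw [← pow_two, hL, Algebra.algebraMap_eq_smul_one, zero_smul, add_zero]⟩
  let fE : QuadraticAlgebra F d 0 →ₐ[F] E := QuadraticAlgebra.lift
    ⟨s, by rw [← pow_two, hE, Algebra.algebraMap_eq_smul_one, zero_smul, add_zero]⟩
  have hfL : ∀ z, fL z = z.re • 1 + z.im • sL := fun z => rfl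
  have hfE : ∀ z, fE z = z.re • 1 + z.im • s := fun z => rfl
  have hinj : Function.Injective fL := by
    rw [injective_iff_map_eq_zero]
    intro z hz
    rw [hfL] at hz
    have him : z.im = 0 := by
      by_contra h0
      apply hd
      have h1 : sL = algebraMap F L (-(z.im⁻¹ * z.re)) := by
        rw [Algebra.algebraMap_eq_smul_one, neg_smul, mul_smul, ← smul_neg,
          ← eq_neg_of_add_eq_zero_right hz, smul_smul, inv_mul_cancel₀ h0, one_smul]
      refine ⟨-(z.im⁻¹ * z.re), (algebraMap F L).injective ?_⟩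
      rw [← hL, h1, map_mul, pow_two]
    rw [him, zero_smul, add_zero] at hz
    have hre : z.re = 0 := (smul_eq_zero.mp hz).resolve_right one_ne_zero
    exact QuadraticAlgebra.ext hre him
  have hinjE : Function.Injective fE := by
    rw [injective_iff_map_eq_zero]
    intro z hz
    rw [hfE] at hz
    have him : z.im = 0 := by
      by_contra h0
      apply hd
      have h1 : s = algebraMap F E (-(z.im⁻¹ * z.re)) := by
        rw [Algebra.algebraMap_eq_smul_one, neg_smul, mul_smul, ← smul_neg,
          ← eq_neg_of_add_eq_zero_right hz, smul_smul, inv_mul_cancel₀ h0, one_smul]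
      refine ⟨-(z.im⁻¹ * z.re), (algebraMap F E).injective ?_⟩
      rw [← hE, h1, map_mul, pow_two]
    rw [him, zero_smul, add_zero] at hz
    have hre : z.re = 0 := (smul_eq_zero.mp hz).resolve_right one_ne_zero
    exact QuadraticAlgebra.ext hre him
  have hsurjE : Function.Surjective fE := by
    intro z
    obtain ⟨a, b, rfl⟩ := hsp z
    refine ⟨⟨a, b⟩, ?_⟩
    rw [hfE, Algebra.smul_def, Algebra.smul_def, mul_one]
  have hQ : Module.finrank F (QuadraticAlgebra F d 0) = 2 := QuadraticAlgebra.finrank_eq_two _ _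
  have : FiniteDimensional F (QuadraticAlgebra F d 0) := Module.finite_of_finrank_pos (by omega)
  have : FiniteDimensional F L := Module.finite_of_finrank_pos (by omega)
  have hbijL : Function.Bijective fL := by
    refine ⟨hinj, ?_⟩
    have := LinearMap.injective_iff_surjective_of_finrank_eq_finrank (f := fL.toLinearMap)
      (by rw [hQ, hL2])
    exact this.mp hinj
  let eL := AlgEquiv.ofBijective fL hbijL
  let eE := AlgEquiv.ofBijective fE ⟨hinjE, hsurjE⟩
  refine ⟨eE.symm.trans eL, ?_⟩
  have h1 : eE ⟨0, 1⟩ = s := by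
    change fE ⟨0, 1⟩ = s
    rw [hfE]
    simp
  have h2 : eL ⟨0, 1⟩ = sL := by
    change fL ⟨0, 1⟩ = sL
    rw [hfL]
    simp
  rw [AlgEquiv.trans_apply, ← h1, AlgEquiv.symm_apply_apply, h2]

theorem SecondKind.transport {F A A' : Type} [Field F] [Ring A] [Algebra F A] [Ring A']
    [Algebra F A'] (e : A ≃ₐ[F] A') {d : Fˣ} {s : A} {τ : A →ₗ[F] A}
    (h : SecondKind F A d s τ) :
    SecondKind F A' d (e s) (e.toLinearMap ∘ₗ τ ∘ₗ e.symm.toLinearMap) where
  ns := h.ns
  sq := by rw [← map_pow, h.sq, AlgEquiv.commutes]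
  central x := by
    obtain ⟨y, rfl⟩ := e.surjective x
    rw [← map_mul, ← map_mul, h.central]
  center z hz := by
    obtain ⟨y, rfl⟩ := e.surjective z
    obtain ⟨a, b, hab⟩ := h.center y (fun x => e.injective (by rw [map_mul, map_mul, hz]))
    refine ⟨a, b, ?_⟩
    rw [hab, map_add, map_mul, AlgEquiv.commutes, AlgEquiv.commutes]
  mul x y := by
    simp [h.mul]
  invol x := by
    simp [h.invol]
  neg := by
    simp [h.neg]

/-- LOC3. -/
theorem SecondKind.split {F A : Type} [NontriviallyNormedField F] [CharZero F]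
    [IsUltrametricDist F] [ProperSpace F] (hF : IndexTwo F) [Ring A]
    [IsSimpleRing A] [Algebra F A] [FiniteDimensional F A] {d : Fˣ} {s : A}
    {τ : A →ₗ[F] A} (h : SecondKind F A d s τ) (L : Type) [Field L] [Algebra F L] (sL : L)
    (hL : Module.finrank F L = 2) (hsL : sL ^ 2 = algebraMap F L d) :
    ∃ (n : ℕ) (ρ : A ≃ₐ[F] Matrix (Fin n) (Fin n) L), ρ s = Matrix.scalar (Fin n) sL := by
  have : IsArtinianRing A := IsArtinianRing.of_finite F A
  obtain ⟨n, hn, E, _, _, _, ⟨e⟩⟩ :=
    IsSimpleRing.exists_algEquiv_matrix_divisionRing_finite F A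
  obtain ⟨s', τ', h', hs'⟩ := descend_involution F E hn.out (h.transport e)
  have hone : ∀ c : F, τ' (algebraMap F E c) = algebraMap F E c := h'.map_algebraMap
  have h4 := LocDiv.finrank_center_le_four F E τ' (fun x y => map_add τ' x y) h'.mul hone
  have hcomm := h'.comm h4 hF
  obtain ⟨φ, hφ⟩ := exists_equiv_of_quadratic h'.ns hsL h'.sq hL
    (fun z => h'.center z (fun x => hcomm x z))
  refine ⟨n, e.trans φ.mapMatrix, ?_⟩
  rw [AlgEquiv.trans_apply, hs']
  ext i j
  by_cases hij : i = j
  · subst hij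
    simp [hφ]
  · simp [hij]

end Vale.Agent.P011.Even
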