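import Vale.Agent.P011.Even.Defs
import Vale.Agent.P011.Even.LocSplit
import Vale.Agent.P011.Even.LocSimple
import Vale.Agent.P011.Even.LocHerm
import Vale.Agent.P011.Even.Completion
import Vale.Agent.P011.Bdl.B2

/-!
The local input for rank-one hermitian forms over a division algebra at a nonsplit finite place.
-/

namespace Vale.Agent.P011.Even

open Polynomial Matrix TensorProduct NumberField IsDedekindDomain

section compare

theorem exists_common {K Ω L : Type} [Field K] [Field Ω] [Algebra K Ω] [Field L] [Algebra K L] :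
    ∃ (M : Type) (_ : Field M) (i : Ω →+* M) (j : L →+* M),
      i.comp (algebraMap K Ω) = j.comp (algebraMap K L) := by
  obtain ⟨m, hm⟩ := Ideal.exists_maximal (Ω ⊗[K] L)
  let _ : Field ((Ω ⊗[K] L) ⧸ m) := Ideal.Quotient.field m
  refine ⟨(Ω ⊗[K] L) ⧸ m, inferInstance,
    (Ideal.Quotient.mk m).comp (Algebra.TensorProduct.includeLeftRingHom),
    (Ideal.Quotient.mk m).comp (Algebra.TensorProduct.includeRight : L →ₐ[K] Ω ⊗[K] L).toRingHom, ?_⟩
  ext x
  simp only [RingHom.comp_apply, Algebra.TensorProduct.includeLeftRingHom_apply,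
    AlgHom.toRingHom_eq_coe, RingHom.coe_coe, Algebra.TensorProduct.includeRight_apply]
  congr 1
  rw [Algebra.algebraMap_eq_smul_one, Algebra.algebraMap_eq_smul_one, TensorProduct.smul_tmul]

theorem charpoly_eval {K D Ω M : Type} [Field K] [DivisionRing D] [Algebra K D]
    [FiniteDimensional K D] [Algebra.IsCentral K D] {n : ℕ} (hn : 0 < n)
    (hdeg : Module.finrank K D = n ^ 2) [Field Ω] [Algebra K Ω] [Field M] (i : Ω →+* M)
    (f : D →ₐ[K] Matrix (Fin n) (Fin n) Ω) (x : D) (c : K) :
    (((f x).charpoly.map i) ^ n).eval (i (algebraMap K Ω c)) =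
      i (algebraMap K Ω (Algebra.norm K (algebraMap K D c - x))) := by
  rw [Vale.Agent.P011S.SF.norm_eq_det_pow hn hdeg f, eval_pow, eval_map_apply, ← map_pow,
    Matrix.eval_charpoly]
  congr 3
  rw [map_sub, AlgHom.commutes]
  rfl

theorem eq_of_monic_pow {M : Type} [Field M] {P Q : M[X]} (hP : P.Monic) (hQ : Q.Monic) {n : ℕ}
    (hn : n ≠ 0) (h : P ^ n = Q ^ n) : P = Q := by
  have h1 : P ∣ Q := (UniqueFactorizationMonoid.pow_dvd_pow_iff_dvd hn).mp (dvd_of_eq h)
  have h2 : Q ∣ P := (UniqueFactorizationMonoid.pow_dvd_pow_iff_dvd hn).mp (dvd_of_eq h.symm)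
  exact eq_of_monic_of_associated hP hQ (associated_of_dvd_dvd h1 h2)

/-- The reduced norms computed in two splitting fields agree. -/
theorem det_compare_gen {K D Ω L M : Type} [Field K] [CharZero K] [DivisionRing D] [Algebra K D]
    [FiniteDimensional K D] [Algebra.IsCentral K D] {n : ℕ} (hn : 0 < n)
    (hdeg : Module.finrank K D = n ^ 2) [Field Ω] [Algebra K Ω] [Field L] [Algebra K L]
    (f : D →ₐ[K] Matrix (Fin n) (Fin n) Ω) (g : D →ₐ[K] Matrix (Fin n) (Fin n) L) (x : D)
    [Field M] (i : Ω →+* M) (j : L →+* M)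
    (hij : i.comp (algebraMap K Ω) = j.comp (algebraMap K L)) :
    i (f x).det = j (g x).det := by
  have hij' : ∀ c : K, i (algebraMap K Ω c) = j (algebraMap K L c) := fun c =>
    RingHom.congr_fun hij c
  have hpow : ((f x).charpoly.map i) ^ n = ((g x).charpoly.map j) ^ n := by
    apply Polynomial.eq_of_infinite_eval_eq
    refine Set.Infinite.mono (s := Set.range fun c : K => i (algebraMap K Ω c)) ?_ ?_
    · rintro _ ⟨c, rfl⟩
      change eval (i (algebraMap K Ω c)) _ = eval (i (algebraMap K Ω c)) _
      rw [charpoly_eval hn hdeg, hij' c, charpoly_eval hn hdeg, hij']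
    · apply Set.infinite_range_of_injective
      exact (i.injective.comp (algebraMap K Ω).injective)
  have heq := eq_of_monic_pow ((f x).charpoly_monic.map i) ((g x).charpoly_monic.map j)
    hn.ne' hpow
  have h0 := congrArg (Polynomial.eval (0 : M)) heq
  have e1 : ∀ {Ω' : Type} [Field Ω'] (i' : Ω' →+* M) (A : Matrix (Fin n) (Fin n) Ω'),
      (A.charpoly.map i').eval 0 = (-1) ^ n * i' A.det := by
    intro Ω' _ i' A
    have h1 := Polynomial.eval_map_apply (f := i') (p := A.charpoly) (x := (0 : Ω'))
    rw [map_zero] at h1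
    rw [h1, Matrix.eval_charpoly, map_zero, zero_sub, Matrix.det_neg, Fintype.card_fin, map_mul,
      map_pow, map_neg, map_one]
  rw [e1, e1] at h0
  have h1 : ((-1 : M)) ^ n ≠ 0 := pow_ne_zero _ (neg_ne_zero.mpr one_ne_zero)
  exact mul_left_cancel₀ h1 h0

/-- The reduced norms computed in two splitting fields agree. -/
theorem det_compare {K D Ω L : Type} [Field K] [CharZero K] [DivisionRing D] [Algebra K D]
    [FiniteDimensional K D] [Algebra.IsCentral K D] {n : ℕ} (hn : 0 < n)
    (hdeg : Module.finrank K D = n ^ 2) [Field Ω] [Algebra K Ω] [Field L] [Algebra K L]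
    (f : D →ₐ[K] Matrix (Fin n) (Fin n) Ω) (g : D →ₐ[K] Matrix (Fin n) (Fin n) L) (x : D)
    {ν : K} (h : (f x).det = algebraMap K Ω ν) : (g x).det = algebraMap K L ν := by
  obtain ⟨M, _, i, j, hij⟩ := exists_common (K := K) (Ω := Ω) (L := L)
  have h1 := det_compare_gen hn hdeg f g x i j hij
  rw [h] at h1
  exact (j.injective (((RingHom.congr_fun hij ν).symm.trans h1))).symm

end compare

section span

variable {k K D : Type} [Field k] [NumberField k] [Field K] [StarRing K]
    [DivisionRing D] [StarRing D] [Algebra k K] [Algebra k D] [Algebra K D] [IsScalarTower k K D]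
    {d : kˣ} {s : K}

omit [NumberField k] [Algebra k D] [IsScalarTower k K D] in
theorem Setting.s_ne (hS : Setting k K D d s) : s ≠ 0 := by
  rintro rfl
  have := hS.sq
  rw [zero_pow two_ne_zero] at this
  exact d.ne_zero ((algebraMap k K).injective (by rw [← this, map_zero]))

omit [Algebra k D] [IsScalarTower k K D] in
theorem Setting.span (hS : Setting k K D d s) (x : K) :
    ∃ a b : k, x = algebraMap k K a + algebraMap k K b * s := by
  have : CharZero K := charZero_of_injective_algebraMap (algebraMap k K).injective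
  have h2 : (2 : K) ≠ 0 := two_ne_zero
  have hs := hS.s_ne
  obtain ⟨a, ha⟩ := (hS.fix ((x + star x) / 2)).mp (by
    rw [star_div₀, star_add, star_star, star_ofNat, add_comm])
  obtain ⟨b, hb⟩ := (hS.fix ((x - star x) / (2 * s))).mp (by
    rw [star_div₀, star_sub, star_star, star_mul', star_ofNat, hS.star_s, mul_neg, div_neg,
      ← neg_div, neg_sub])
  refine ⟨a, b, ?_⟩
  rw [ha, hb]
  field_simp
  ring

omit [NumberField k] in
theorem Setting.fin_k (hS : Setting k K D d s) : FiniteDimensional k D := by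
  have := hS.fin
  have : FiniteDimensional k K := Module.finite_of_finrank_pos (by rw [hS.rank]; norm_num)
  exact Module.Finite.trans K D

/-- The involution as a linear map. -/
noncomputable def Setting.sig (hS : Setting k K D d s) : D →ₗ[k] D where
  toFun := star
  map_add' := star_add
  map_smul' c x := by
    have h1 : star (algebraMap k K c) = algebraMap k K c := (hS.fix _).mpr ⟨c, rfl⟩
    have h2 := hS.star_smul (algebraMap k K c) x
    rw [h1, algebraMap_smul, algebraMap_smul] at h2
    exact h2

omit [NumberField k] [Algebra k D] [IsScalarTower k K D] in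
theorem Setting.star_alg (hS : Setting k K D d s) (x : K) :
    star (algebraMap K D x) = algebraMap K D (star x) := by
  rw [Algebra.algebraMap_eq_smul_one, Algebra.algebraMap_eq_smul_one, hS.star_smul, star_one]

end span

section density

variable {k D : Type} [Field k] [NumberField k] [DivisionRing D] [StarRing D] [Algebra k D]

omit [NumberField k] in
theorem coord_form {F : Type} [Field F] [Algebra k F] {N : ℕ} (B : Module.Basis (Fin N) k D)
    (σ : D →ₗ[k] D) (hσ : ∀ x, σ x = star x) (e : D) (c : Fin N → F) (j : Fin N) :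
    (Algebra.TensorProduct.basis F B).repr
      (σ.baseChange F (∑ i, c i ⊗ₜ B i) * (1 ⊗ₜ e) * (∑ i, c i ⊗ₜ B i)) j =
      ∑ i, ∑ l, c i * c l * algebraMap k F (B.repr (star (B i) * e * B l) j) := by
  rw [map_sum, Finset.sum_mul, Finset.sum_mul, map_sum, Finsupp.finsetSum_apply]
  refine Finset.sum_congr rfl fun i _ => ?_
  rw [Finset.mul_sum, map_sum, Finsupp.finsetSum_apply]
  refine Finset.sum_congr rfl fun l _ => ?_
  rw [LinearMap.baseChange_tmul, hσ, Algebra.TensorProduct.tmul_mul_tmul,
    Algebra.TensorProduct.tmul_mul_tmul, mul_one, Algebra.TensorProduct.basis_repr_tmul]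
  rw [Finsupp.smul_apply, Finsupp.mapRange_apply, smul_eq_mul]

theorem locF_of_tensor {N : ℕ} (B : Module.Basis (Fin N) k D) (v : HeightOneSpectrum (𝓞 k))
    (σ : D →ₗ[k] D) (hσ : ∀ x, σ x = star x) {e e' : D}
    (T : v.adicCompletion k ⊗[k] D)
    (hT : σ.baseChange (v.adicCompletion k) T * (1 ⊗ₜ e) * T = 1 ⊗ₜ e') : LocF B v e e' := by
  intro ε hε
  let F := v.adicCompletion k
  obtain ⟨δ, hδ, hδ'⟩ := exists_radius v ε hε
  let B' := Algebra.TensorProduct.basis F B
  let c : Fin N → F := fun i => B'.repr T i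
  have hTc : T = ∑ i, c i ⊗ₜ B i := by
    rw [← B'.sum_repr T]
    refine Finset.sum_congr rfl fun i _ => ?_
    rw [Algebra.TensorProduct.basis_apply, TensorProduct.smul_tmul', smul_eq_mul, mul_one]
  let Φ : Fin N → (Fin N → F) → F := fun j c =>
    ∑ i, ∑ l, c i * c l * algebraMap k F (B.repr (star (B i) * e * B l) j)
  have hΦ : ∀ j, Continuous (Φ j) := by
    intro j
    refine continuous_finsetSum _ fun i _ => continuous_finsetSum _ fun l _ => ?_
    exact ((continuous_apply i).mul (continuous_apply l)).mul continuous_const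
  have hΦc : ∀ j, Φ j c = algebraMap k F (B.repr e' j) := by
    intro j
    have h1 := coord_form B σ hσ e c j
    rw [← hTc, hT, Algebra.TensorProduct.basis_repr_tmul] at h1
    rw [Finsupp.smul_apply, Finsupp.mapRange_apply, one_smul] at h1
    exact h1.symm
  have hopen : IsOpen {c' : Fin N → F | ∀ j, ‖Φ j c' - algebraMap k F (B.repr e' j)‖ < δ} := by
    rw [Set.ofPred_forall]
    exact isOpen_iInter_of_finite fun j =>
      isOpen_lt ((hΦ j).sub continuous_const).norm continuous_const
  have hmem : c ∈ {c' : Fin N → F | ∀ j, ‖Φ j c' - algebraMap k F (B.repr e' j)‖ < δ} := by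
    intro j
    rw [hΦc j, sub_self, norm_zero]
    exact hδ
  obtain ⟨r, hr, hball⟩ := Metric.isOpen_iff.mp hopen c hmem
  choose y hy using fun i => dense v (c i) r hr
  have hy' : (fun i => algebraMap k F (y i)) ∈ Metric.ball c r := by
    rw [Metric.mem_ball, dist_pi_lt_iff hr]
    intro i
    rw [dist_comm, dist_eq_norm]
    exact hy i
  have hfin := hball hy'
  refine ⟨∑ i, y i • B i, fun j => hδ' _ ?_⟩
  have h1 := hfin j
  have h2 : Φ j (fun i => algebraMap k F (y i)) =
      algebraMap k F (B.repr (star (∑ i, y i • B i) * e * (∑ i, y i • B i)) j) := by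
    have h3 := coord_form (F := F) B σ hσ e (fun i => algebraMap k F (y i)) j
    have h4 : ∑ i, algebraMap k F (y i) ⊗ₜ[k] B i = (1 : F) ⊗ₜ[k] (∑ i, y i • B i) := by
      rw [TensorProduct.tmul_sum]
      refine Finset.sum_congr rfl fun i _ => ?_
      rw [TensorProduct.tmul_smul, TensorProduct.smul_tmul', Algebra.algebraMap_eq_smul_one]
    rw [h4, LinearMap.baseChange_tmul, hσ, Algebra.TensorProduct.tmul_mul_tmul,
      Algebra.TensorProduct.tmul_mul_tmul, mul_one, mul_one,
      Algebra.TensorProduct.basis_repr_tmul, Finsupp.smul_apply, Finsupp.mapRange_apply,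
      one_smul] at h3
    exact h3.symm
  rw [h2, ← map_sub] at h1
  rw [map_sub, Finsupp.sub_apply]
  exact h1

end density

theorem fact_of_not_square {F : Type} [Field F] {d : F} (hd : ¬ IsSquare d) :
    Fact (∀ r : F, r ^ 2 ≠ d + 0 * r) :=
  ⟨fun r hr => hd ⟨r, by rw [← pow_two, hr]; ring⟩⟩

theorem omega_sq' {F : Type} [Field F] (d : F) :
    (⟨0, 1⟩ : QuadraticAlgebra F d 0) ^ 2 = algebraMap F _ d := by
  rw [pow_two]
  apply QuadraticAlgebra.ext
  · simp
  · simp

theorem star_qa {F : Type} [Field F] {d : F} (z : QuadraticAlgebra F d 0) :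
    star z = ⟨z.re, -z.im⟩ := by
  apply QuadraticAlgebra.ext
  · simp
  · simp

theorem fix_qa {F : Type} [Field F] [CharZero F] {d : F} (x : QuadraticAlgebra F d 0) :
    star x = x ↔ x ∈ Set.range (algebraMap F (QuadraticAlgebra F d 0)) := by
  rw [star_qa]
  constructor
  · intro h0
    have h1 : -x.im = x.im := congrArg QuadraticAlgebra.im h0
    have h2 : x.im = 0 := by
      have h3 : (2 : F) * x.im = 0 := by linear_combination -h1
      exact (mul_eq_zero.mp h3).resolve_left two_ne_zero
    exact ⟨x.re, QuadraticAlgebra.ext (by simp) (by simp [h2])⟩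
  · rintro ⟨a, rfl⟩
    apply QuadraticAlgebra.ext
    · simp
    · simp

theorem star_omega {F : Type} [Field F] {d : F} :
    star (⟨0, 1⟩ : QuadraticAlgebra F d 0) = -⟨0, 1⟩ := by
  apply QuadraticAlgebra.ext
  · simp
  · simp

theorem span_qa {F : Type} [Field F] {d : F} (x : QuadraticAlgebra F d 0) :
    ∃ a b : F, x = algebraMap F _ a + algebraMap F _ b * ⟨0, 1⟩ := by
  refine ⟨x.re, x.im, ?_⟩
  apply QuadraticAlgebra.ext
  · simp
  · simp

/-- Extension of an embedding of `k` to `k(√d)`. -/
theorem exists_hom {k K L : Type} [Field k] [Field K] [Algebra k K] [Field L] [Algebra k L]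
    {d : k} (hd : ¬ IsSquare d) {s : K} (hs : s ^ 2 = algebraMap k K d)
    (hspan : ∀ x : K, ∃ a b : k, x = algebraMap k K a + algebraMap k K b * s)
    {sL : L} (hsL : sL ^ 2 = algebraMap k L d) : ∃ j : K →ₐ[k] L, j s = sL := by
  have := fact_of_not_square hd
  obtain ⟨φ, hφ⟩ := exists_equiv_of_quadratic (F := k) (L := QuadraticAlgebra k d 0) (E := K) hd
    (sL := ⟨0, 1⟩) (s := s) (omega_sq' d) hs (QuadraticAlgebra.finrank_eq_two _ _) hspan
  refine ⟨(QuadraticAlgebra.lift
    ⟨sL, by rw [← pow_two, hsL, Algebra.algebraMap_eq_smul_one, zero_smul, add_zero]⟩).comp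
      φ.toAlgHom, ?_⟩
  change QuadraticAlgebra.lift _ (φ s) = sL
  rw [hφ]
  change (0 : k) • (1 : L) + (1 : k) • sL = sL
  simp

theorem SecondKind.map_alg {F A : Type} [Field F] [Ring A] [Algebra F A] {d : Fˣ} {s : A}
    {τ : A →ₗ[F] A} (h : SecondKind F A d s τ) (a : F) :
    τ (algebraMap F A a) = algebraMap F A a := by
  have h1 : τ 1 = 1 := by
    have h2 := h.mul 1 (τ 1)
    rw [one_mul, h.invol, one_mul] at h2
    exact h2.symm
  rw [Algebra.algebraMap_eq_smul_one, map_smul, h1]

/-- LOC6, in the matrix algebra. -/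
theorem local_isometry {F L : Type} [Field F] [CharZero F] (hF : IndexTwo F) [Field L]
    [Algebra F L] [StarRing L] (hfix : ∀ x : L, star x = x ↔ x ∈ Set.range (algebraMap F L))
    (hL : Module.finrank F L = 2) {d : Fˣ} (hd : ¬ IsSquare (d : F)) {s : L}
    (hs : s ^ 2 = algebraMap F L d) (hss : star s = -s)
    (hspan : ∀ x : L, ∃ a b : F, x = algebraMap F L a + algebraMap F L b * s) {n : ℕ}
    {τ : Matrix (Fin n) (Fin n) L →ₗ[F] Matrix (Fin n) (Fin n) L}
    (h : SecondKind F (Matrix (Fin n) (Fin n) L) d (Matrix.scalar (Fin n) s) τ)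
    {E E' : Matrix (Fin n) (Fin n) L} (hE : τ E = E) (hE' : τ E' = E') {ν ν' : Fˣ}
    (hν : E.det = algebraMap F L ν) (hν' : E'.det = algebraMap F L ν')
    (hN : ν * ν' ∈ LN d) : ∃ t, τ t * E * t = E' := by
  have hscal : ∀ a : F, algebraMap F (Matrix (Fin n) (Fin n) L) a =
      Matrix.scalar (Fin n) (algebraMap F L a) := fun a => rfl
  have hstarF : ∀ a : F, star (algebraMap F L a) = algebraMap F L a := fun a =>
    (hfix _).mpr ⟨a, rfl⟩
  have hsc : ∀ c : L, τ (Matrix.scalar (Fin n) c) = Matrix.scalar (Fin n) (star c) := by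
    intro c
    obtain ⟨a, b, rfl⟩ := hspan c
    rw [map_add, map_mul, ← hscal, ← hscal, map_add, h.mul, h.map_alg, h.map_alg, h.neg,
      star_add, star_mul', hstarF, hstarF, hss, map_add, map_mul, ← hscal, ← hscal, map_neg,
      neg_mul, ← Algebra.commutes b, mul_neg]
  obtain ⟨G, hGu, hGs, hG⟩ := exists_gram F L hfix hL τ h.mul h.invol hsc
  have hherm : ∀ X, τ X = X → (G * X).conjTranspose = G * X := by
    intro X hX
    rw [Matrix.conjTranspose_mul, hGs, ← hG, hX]
  have hG0 : G.det ≠ 0 := ((Matrix.isUnit_iff_isUnit_det G).mp hGu).ne_zero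
  have hF0 : ∀ u : Fˣ, algebraMap F L u ≠ 0 := fun u => (_root_.map_ne_zero _).mpr u.ne_zero
  obtain ⟨x, y, hxy⟩ := hN
  obtain ⟨t, ht⟩ := hermitian_class F L hF hfix hL hd hs hss (G * E) (G * E') (hherm E hE)
    (hherm E' hE') (by rw [Matrix.det_mul, hν]; exact mul_ne_zero hG0 (hF0 ν))
    (by rw [Matrix.det_mul, hν']; exact mul_ne_zero hG0 (hF0 ν')) (by
      set w : L := (algebraMap F L x + algebraMap F L y * s) * (algebraMap F L ν)⁻¹ with hw
      have hww : w * star w = algebraMap F L ν' * (algebraMap F L ν)⁻¹ := by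
        have h1 : (algebraMap F L x + algebraMap F L y * s) *
            (algebraMap F L x - algebraMap F L y * s) = algebraMap F L ν * algebraMap F L ν' := by
          have h2 : (algebraMap F L x + algebraMap F L y * s) *
            (algebraMap F L x - algebraMap F L y * s) =
              algebraMap F L x ^ 2 - s ^ 2 * algebraMap F L y ^ 2 := by ring
          rw [h2, hs, ← map_pow, ← map_pow, ← map_mul, ← map_sub, ← map_mul, ← hxy,
            Units.val_mul]
        have h3 : star w = (algebraMap F L x - algebraMap F L y * s) * (algebraMap F L ν)⁻¹ := by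
          rw [hw, star_mul', star_inv₀, star_add, star_mul', hstarF, hstarF, hstarF, hss,
            mul_neg, sub_eq_add_neg]
        rw [h3, hw]
        have h4 := hF0 ν
        field_simp
        rw [h1]
      refine ⟨w, ?_, ?_⟩
      · intro h0
        rw [h0, zero_mul] at hww
        exact mul_ne_zero (hF0 ν') (inv_ne_zero (hF0 ν)) hww.symm
      · rw [Matrix.det_mul, Matrix.det_mul, hν, hν', hww]
        have h4 := hF0 ν
        field_simp)
  refine ⟨t, ?_⟩
  rw [← Matrix.mul_assoc, ← hG, Matrix.mul_assoc, Matrix.mul_assoc] at ht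
  have h5 := hGu.mul_left_cancel ht
  rw [Matrix.mul_assoc]
  exact h5

/-- LOC6. The local input for rank-one hermitian forms. -/
theorem loc_fin {k K D : Type} [Field k] [NumberField k] [Field K] [StarRing K]
    [DivisionRing D] [StarRing D] [Algebra k K] [Algebra k D] [Algebra K D] [IsScalarTower k K D]
    {d : kˣ} {s : K} (hS : Setting k K D d s) {N : ℕ} (B : Module.Basis (Fin N) k D)
    {n : ℕ} {Ω : Type} [Field Ω] [Algebra K Ω] (f : D →ₐ[K] Matrix (Fin n) (Fin n) Ω)
    (hn : Module.finrank K D = n ^ 2)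
    (v : HeightOneSpectrum (𝓞 k)) (hv : d ∉ Arith.LS (v.valuation k)) {e e' : D}
    (he : star e = e) (he' : star e' = e') {ν ν' : kˣ}
    (hν : (f e).det = algebraMap K Ω (algebraMap k K ν))
    (hν' : (f e').det = algebraMap K Ω (algebraMap k K ν'))
    (hN : ν * ν' ∈ Arith.NF d ⊔ Arith.LS (v.valuation k)) : LocF B v e e' := by
  have := hS.fin
  have := hS.cen
  have : CharZero K := charZero_of_injective_algebraMap (algebraMap k K).injective
  have hn0 : 0 < n := by
    rcases Nat.eq_zero_or_pos n with h0 | h0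
    · rw [h0] at hn
      exact absurd hn (Module.finrank_pos (R := K) (M := D)).ne'
    · exact h0
  have hfk := hS.fin_k
  have hd : ¬ IsSquare (algebraMap k (v.adicCompletion k) (d : k)) := fun h0 =>
    hv ((isSquare_iff v d).mp h0)
  let _ := nnf v
  have := isUltra v
  let F := v.adicCompletion k
  have hσ : ∀ x, hS.sig x = star x := fun x => rfl
  have hss : star (algebraMap K D s) = -algebraMap K D s := by
    rw [hS.star_alg, hS.star_s, map_neg]
  have SK := LocSimple.secondKind_tensor (F := F) hS.sq hS.span hd hS.sig hσ hss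
  have : IsSimpleRing (F ⊗[k] D) := LocSimple.simple_tensor hS.sq hS.span hd
  let dF : F := algebraMap k F (d : k)
  have := fact_of_not_square hd
  let L := QuadraticAlgebra F dF 0
  let sL : L := ⟨0, 1⟩
  have hsL : sL ^ 2 = algebraMap F L dF := omega_sq' dF
  have hL2 : Module.finrank F L = 2 := QuadraticAlgebra.finrank_eq_two _ _
  obtain ⟨m, ρ, hρ⟩ := SK.split (indexTwo v) L sL hL2 hsL
  -- the degree
  have hmn : m = n := by
    have h1 := ρ.toLinearEquiv.finrank_eq
    have h2 : Module.finrank k D = 2 * n ^ 2 := by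
      have := hS.rank
      have h3 := Module.finrank_mul_finrank k K D
      rw [hS.rank, hn] at h3
      exact h3.symm
    rw [Module.finrank_baseChange, h2, Module.finrank_matrix, Fintype.card_fin, hL2] at h1
    have h4 : m ^ 2 = n ^ 2 := by
      have : m ^ 2 = m * m := pow_two m
      omega
    exact Nat.pow_left_injective two_ne_zero h4
  subst hmn
  -- the embedding of the quadratic extension
  have hsL' : sL ^ 2 = algebraMap k L (d : k) := by
    rw [hsL, IsScalarTower.algebraMap_apply k F L]
  obtain ⟨j, hj⟩ := exists_hom hS.ns hS.sq hS.span hsL'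
  let _ : Algebra K L := j.toRingHom.toAlgebra
  have hjk : ∀ a : k, algebraMap K L (algebraMap k K a) = algebraMap F L (algebraMap k F a) := by
    intro a
    change j (algebraMap k K a) = _
    rw [AlgHom.commutes, IsScalarTower.algebraMap_apply k F L]
  have hone : ∀ a : k, ρ ((1 : F) ⊗ₜ[k] algebraMap k D a) =
      algebraMap F (Matrix (Fin m) (Fin m) L) (algebraMap k F a) := by
    intro a
    rw [← AlgEquiv.commutes ρ, Algebra.TensorProduct.algebraMap_apply,
      Algebra.algebraMap_eq_smul_one a, TensorProduct.tmul_smul, TensorProduct.smul_tmul',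
      ← Algebra.algebraMap_eq_smul_one a]
    rfl
  let g : D →ₐ[K] Matrix (Fin m) (Fin m) L :=
    { toFun := fun x => ρ ((1 : F) ⊗ₜ[k] x)
      map_one' := by rw [← Algebra.TensorProduct.one_def, map_one]
      map_mul' := fun x y => by
        rw [← map_mul, Algebra.TensorProduct.tmul_mul_tmul, one_mul]
      map_zero' := by rw [TensorProduct.tmul_zero, map_zero]
      map_add' := fun x y => by rw [TensorProduct.tmul_add, map_add]
      commutes' := fun c => by
        obtain ⟨a, b, rfl⟩ := hS.span c
        have h1 : (1 : F) ⊗ₜ[k] (algebraMap K D (algebraMap k K a + algebraMap k K b * s)) =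
            (1 : F) ⊗ₜ[k] algebraMap k D a + ((1 : F) ⊗ₜ[k] algebraMap k D b) *
              ((1 : F) ⊗ₜ[k] algebraMap K D s) := by
          rw [Algebra.TensorProduct.tmul_mul_tmul, one_mul, ← TensorProduct.tmul_add, map_add,
            map_mul, ← IsScalarTower.algebraMap_apply, ← IsScalarTower.algebraMap_apply]
        rw [h1, map_add, map_mul, hone, hone, hρ]
        change _ = Matrix.scalar (Fin m) (algebraMap K L (algebraMap k K a + algebraMap k K b * s))
        rw [map_add, map_mul, hjk, hjk]
        change _ = Matrix.scalar (Fin m) (algebraMap F L (algebraMap k F a) +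
          algebraMap F L (algebraMap k F b) * j s)
        rw [hj, map_add, map_mul]
        rfl }
  have hg : ∀ x, g x = ρ ((1 : F) ⊗ₜ[k] x) := fun x => rfl
  have hge : (g e).det = algebraMap F L (algebraMap k F (ν : k)) := by
    rw [det_compare hn0 hn f g e hν, hjk]
  have hge' : (g e').det = algebraMap F L (algebraMap k F (ν' : k)) := by
    rw [det_compare hn0 hn f g e' hν', hjk]
  have SK' := SK.transport ρ
  rw [hρ] at SK'
  have hτg : ∀ x : D, star x = x →
      (ρ.toLinearMap ∘ₗ hS.sig.baseChange F ∘ₗ ρ.symm.toLinearMap) (g x) = g x := by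
    intro x hx
    rw [hg]
    simp only [LinearMap.comp_apply, AlgEquiv.toLinearMap_apply, AlgEquiv.symm_apply_apply,
      LinearMap.baseChange_tmul, hσ, hx]
  obtain ⟨t, ht⟩ := local_isometry (indexTwo v) fix_qa hL2 hd hsL star_omega span_qa SK' (hτg e he)
    (hτg e' he') (ν := iu v ν) (ν' := iu v ν') hge hge' (by
      rw [← map_mul]
      exact (mem_LN_iff v d (ν * ν')).mpr hN)
  refine locF_of_tensor B v hS.sig hσ (ρ.symm t) (ρ.injective ?_)
  rw [map_mul, map_mul, AlgEquiv.apply_symm_apply]
  exact ht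

end Vale.Agent.P011.Even
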