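import Vale.Agent.P011.Even.LocDefs

/-!
Descent of involutions of the second kind from matrix rings, and involutions of the second kind on
quaternion algebras.
-/

namespace Vale.Agent.P011.Even

open Matrix

section descend

variable {F E : Type} [Field F] [DivisionRing E] [Algebra F E] {r : ℕ}

/-- The corner embedding. -/
def co (i₀ : Fin r) (y : E) : Matrix (Fin r) (Fin r) E := Matrix.single i₀ i₀ y

theorem co_mul (i₀ : Fin r) (x y : E) : co i₀ (x * y) = co i₀ x * co i₀ y := by
  simp [co]

theorem co_one_mul_co (i₀ : Fin r) (y : E) : co i₀ 1 * co i₀ y = co i₀ y := by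
  rw [← co_mul, one_mul]

theorem co_mul_co_one (i₀ : Fin r) (y : E) : co i₀ y * co i₀ 1 = co i₀ y := by
  rw [← co_mul, mul_one]

theorem co_corner (i₀ : Fin r) (x : Matrix (Fin r) (Fin r) E) :
    co i₀ 1 * x * co i₀ 1 = co i₀ (x i₀ i₀) := by
  simp [co, Matrix.single_mul_mul_single]

theorem co_apply (i₀ : Fin r) (y : E) : co i₀ y i₀ i₀ = y := by
  simp [co]

theorem co_injective (i₀ : Fin r) : Function.Injective (co i₀ : E → _) := by
  intro x y h
  rw [← co_apply i₀ x, h, co_apply]

theorem co_add (i₀ : Fin r) (x y : E) : co i₀ (x + y) = co i₀ x + co i₀ y := by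
  simp [co, Matrix.single_add]

theorem co_smul (i₀ : Fin r) (c : F) (y : E) : co i₀ (c • y) = c • co i₀ y := by
  simp [co, Matrix.smul_single]

theorem exists_row (i₀ : Fin r) {x : Matrix (Fin r) (Fin r) E} (hx : x ≠ 0) :
    ∃ a : Matrix (Fin r) (Fin r) E, co i₀ 1 * a * x ≠ 0 := by
  obtain ⟨i, j, hij⟩ : ∃ i j, x i j ≠ 0 := by
    by_contra h
    push Not at h
    exact hx (Matrix.ext h)
  refine ⟨Matrix.single i₀ i 1, fun h => hij ?_⟩
  have := congrFun (congrFun h i₀) j
  simpa [co] using this

theorem exists_col (i₀ : Fin r) {x : Matrix (Fin r) (Fin r) E} (hx : x ≠ 0) :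
    ∃ a : Matrix (Fin r) (Fin r) E, x * a * co i₀ 1 ≠ 0 := by
  obtain ⟨i, j, hij⟩ : ∃ i j, x i j ≠ 0 := by
    by_contra h
    push Not at h
    exact hx (Matrix.ext h)
  refine ⟨Matrix.single j i₀ 1, fun h => hij ?_⟩
  have := congrFun (congrFun h i) i₀
  simpa [co, Matrix.mul_assoc] using this

end descend

/-- LOC3a. The involution descends from a matrix ring to the division ring. -/
theorem descend_involution (F E : Type) [Field F] [CharZero F] [DivisionRing E]
    [Algebra F E] {r : ℕ} (hr : r ≠ 0) {d : Fˣ} {s : Matrix (Fin r) (Fin r) E}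
    {τ : Matrix (Fin r) (Fin r) E →ₗ[F] Matrix (Fin r) (Fin r) E}
    (h : SecondKind F (Matrix (Fin r) (Fin r) E) d s τ) :
    ∃ (s' : E) (τ' : E →ₗ[F] E), SecondKind F E d s' τ' ∧ s = Matrix.scalar (Fin r) s' := by
  classical
  let i₀ : Fin r := ⟨0, Nat.pos_of_ne_zero hr⟩
  set p : Matrix (Fin r) (Fin r) E := co i₀ 1 with hp
  have hpp : p * p = p := by rw [hp, ← co_mul, one_mul]
  have hp0 : p ≠ 0 := by
    intro h0
    have := congrFun (congrFun h0 i₀) i₀
    rw [hp, co_apply] at this
    exact one_ne_zero this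
  set q := τ p with hq
  have hqq : q * q = q := by rw [hq, ← h.mul, hpp]
  have hτq : τ q = p := h.invol p
  have hq0 : q ≠ 0 := fun h0 => hp0 (by rw [← hτq, h0, map_zero])
  have hs0 : s ≠ 0 := by
    rintro rfl
    have := h.sq
    rw [zero_pow two_ne_zero] at this
    exact h.ns (by
      have h1 : algebraMap F (Matrix (Fin r) (Fin r) E) d = algebraMap F _ 0 := by
        rw [← this, map_zero]
      have h2 := congrFun (congrFun h1 i₀) i₀
      simp only [Matrix.algebraMap_matrix_apply, if_true] at h2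
      have h3 : (d : F) = 0 := (algebraMap F E).injective h2
      exact absurd h3 d.ne_zero)
  -- a symmetric element of the corner
  obtain ⟨t, ht0, htp, htq, hτt⟩ : ∃ t : Matrix (Fin r) (Fin r) E, t ≠ 0 ∧ p * t = t ∧
      t * q = t ∧ τ t = t := by
    obtain ⟨a, ha⟩ := exists_row i₀ hq0
    set x := p * a * q with hx
    have hxp : p * x = x := by rw [hx, ← mul_assoc, ← mul_assoc, hpp]
    have hxq : x * q = x := by rw [hx, mul_assoc, hqq]
    have hyp : p * τ x = τ x := by rw [← hτq, ← h.mul, hxq]
    have hyq : τ x * q = τ x := by rw [hq, ← h.mul, hxp]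
    by_cases hc : x + τ x = 0
    · refine ⟨s * x, ?_, ?_, ?_, ?_⟩
      · intro h0
        have : s * (s * x) = 0 := by rw [h0, mul_zero]
        rw [← mul_assoc, ← pow_two, h.sq] at this
        have h1 : (d : F) • x = 0 := by rw [Algebra.smul_def]; exact this
        exact ha ((smul_eq_zero.mp h1).resolve_left d.ne_zero)
      · rw [← mul_assoc, h.central p, mul_assoc, hxp]
      · rw [mul_assoc, hxq]
      · rw [h.mul, h.neg, eq_neg_of_add_eq_zero_right hc, neg_mul_neg, h.central]
    · exact ⟨x + τ x, hc, by rw [mul_add, hxp, hyp], by rw [add_mul, hxq, hyq],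
        by rw [map_add, h.invol, add_comm]⟩
  -- an inverse
  obtain ⟨z, hz, hzp, hqz⟩ : ∃ z : Matrix (Fin r) (Fin r) E, t * z = p ∧ z * p = z ∧
      q * z = z := by
    obtain ⟨a, ha⟩ := exists_col i₀ ht0
    have e1 : t * a * p = co i₀ ((t * a * p) i₀ i₀) := by
      rw [← co_corner]
      change _ = p * (t * a * p) * p
      rw [← mul_assoc, ← mul_assoc, htp, mul_assoc (t * a), hpp]
    set c := (t * a * p) i₀ i₀ with hc
    have hc0 : c ≠ 0 := by
      intro h0
      apply ha
      change t * a * p = 0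
      rw [e1, h0]
      simp [co]
    refine ⟨q * (a * p * co i₀ c⁻¹), ?_, ?_, ?_⟩
    · rw [← mul_assoc, htq, ← mul_assoc, ← mul_assoc, e1, ← co_mul, mul_inv_cancel₀ hc0]
    · rw [mul_assoc, mul_assoc, co_mul_co_one]
    · rw [← mul_assoc, hqq]
  have hzt : z * t = q := by
    -- `z t` is a nonzero idempotent of `q A q`
    set w := z * t with hw
    have h1 : w * w = w := by
      rw [hw, mul_assoc, ← mul_assoc t, hz, htp]
    have h2 : w * q = w := by rw [hw, mul_assoc, htq]
    have h2' : q * w = w := by rw [hw, ← mul_assoc, hqz]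
    have h3 : w ≠ 0 := by
      intro h0
      have : t * w = 0 := by rw [h0, mul_zero]
      rw [hw, ← mul_assoc, hz, htp] at this
      exact ht0 this
    have h4 : p * τ w = τ w := by rw [← hτq, ← h.mul, h2]
    have h4' : τ w * p = τ w := by rw [← hτq, ← h.mul, h2']
    have h7 : τ w = co i₀ ((τ w) i₀ i₀) := by
      rw [← co_corner]
      change _ = p * τ w * p
      rw [h4, h4']
    set c := (τ w) i₀ i₀
    have h8 : c * c = c := by
      apply co_injective i₀
      rw [co_mul, ← h7, ← h.mul, h1]
    have h9 : c ≠ 0 := by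
      intro h0
      apply h3
      rw [← h.invol w, h7, h0]
      simp [co]
    have h10 : c = 1 := mul_left_cancel₀ h9 (h8.trans (mul_one c).symm)
    rw [← h.invol w, h7, h10]
  have hpt : ∀ x, p * (t * x) = t * x := fun x => by rw [← mul_assoc, htp]
  -- the involution
  let τ' : E →ₗ[F] E :=
    { toFun := fun y => (t * τ (co i₀ y) * z) i₀ i₀
      map_add' := by
        intro x y
        rw [co_add, map_add, mul_add, add_mul, Matrix.add_apply]
      map_smul' := by
        intro c x
        rw [co_smul, map_smul, Matrix.mul_smul, Matrix.smul_mul, Matrix.smul_apply]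
        rfl }
  have hco : ∀ y, co i₀ (τ' y) = t * τ (co i₀ y) * z := by
    intro y
    change co i₀ ((t * τ (co i₀ y) * z) i₀ i₀) = _
    rw [← co_corner]
    change p * (t * τ (co i₀ y) * z) * p = _
    rw [mul_assoc t, hpt, mul_assoc, mul_assoc, hzp, ← mul_assoc]
  have hco2 : ∀ y, co i₀ (τ' y) * t = t * τ (co i₀ y) := by
    intro y
    rw [hco, mul_assoc, hzt, hq, mul_assoc, ← h.mul, hp, co_one_mul_co]
  -- the central element
  have hscal : s = Matrix.scalar (Fin r) (s i₀ i₀) := by
    have hc : ∀ i j : Fin r, Matrix.single i j (1 : E) * s = s * Matrix.single i j 1 :=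
      fun i j => h.central _
    ext i j
    have h1 := congrFun (congrFun (hc i₀ i) i₀) j
    by_cases hij : i = j
    · subst hij
      have e1 : (Matrix.single i₀ i (1 : E) * s) i₀ i = s i i := by simp
      have e2 : (s * Matrix.single i₀ i (1 : E)) i₀ i = s i₀ i₀ := by simp
      rw [e1, e2] at h1
      rw [h1]
      simp
    · have e1 : (Matrix.single i₀ i (1 : E) * s) i₀ j = s i j := by simp
      have e2 : (s * Matrix.single i₀ i (1 : E)) i₀ j = 0 := by
        simp [Ne.symm hij]
      rw [e1, e2] at h1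
      rw [h1]
      simp [hij]
  set s' := s i₀ i₀ with hs'
  have hcos : co i₀ s' = p * s := by
    rw [hs', ← co_corner]
    change p * s * p = _
    rw [mul_assoc, ← h.central p, ← mul_assoc, hpp]
  have hcen : ∀ x : E, x * s' = s' * x := by
    intro x
    apply co_injective i₀
    rw [co_mul, co_mul, hcos, ← mul_assoc, mul_assoc p, ← h.central, ← mul_assoc]
    change co i₀ x * co i₀ 1 * s = co i₀ 1 * co i₀ x * s
    rw [co_mul_co_one, co_one_mul_co]
  have hco_alg : ∀ c : F, co i₀ (algebraMap F E c) = c • p := by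
    intro c
    rw [Algebra.algebraMap_eq_smul_one, co_smul]
  refine ⟨s', τ', ⟨h.ns, ?_, hcen, ?_, ?_, ?_, ?_⟩, hscal⟩
  · apply co_injective i₀
    rw [pow_two, co_mul, hcos, mul_assoc, ← mul_assoc s, ← h.central, mul_assoc p s s, ← mul_assoc p p,
      hpp, ← pow_two s, h.sq, hco_alg, Algebra.smul_def]
    exact (Algebra.commutes _ _).symm
  · intro c hc
    obtain ⟨a, b, hab⟩ := h.center (Matrix.scalar (Fin r) c) (by
      intro x
      ext i j
      simp [hc])
    refine ⟨a, b, ?_⟩
    have h1 := congrFun (congrFun hab i₀) i₀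
    rw [hscal] at h1
    simpa [Matrix.algebraMap_matrix_apply, Matrix.mul_apply, Matrix.diagonal_apply] using h1
  · intro x y
    apply co_injective i₀
    rw [hco, co_mul, co_mul, hco x, ← mul_assoc, ← mul_assoc, hco2, h.mul, ← mul_assoc]
  · intro x
    apply co_injective i₀
    have h1 : co i₀ x * t = t * τ (co i₀ (τ' x)) := by
      have h2 := congrArg τ (hco2 x)
      rw [h.mul, h.mul, h.invol, hτt] at h2
      exact h2.symm
    rw [hco, ← h1, mul_assoc, hz]
    exact co_mul_co_one i₀ x
  · apply co_injective i₀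
    have h1 : co i₀ (-s') = -(p * s) := by
      rw [← hcos]
      have := co_smul i₀ (-1 : F) s'
      simpa using this
    rw [hco, hcos, h1, h.mul, h.neg, ← mul_assoc, mul_neg, neg_mul, neg_mul, h.central t]
    congr 1
    rw [mul_assoc s, ← hq, htq, mul_assoc, hz, h.central]

end Vale.Agent.P011.Even
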