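import Vale.Agent.P011.Even.LocInv

/-!
Division algebras with an involution of the second kind, of dimension at most four over their
centre, over a field satisfying the norm index theorem, are commutative.
-/

namespace Vale.Agent.P011.Even

theorem sq_sum {E : Type} [Ring E] {A B C : E} (hAB : A * B = -(B * A)) (hAC : A * C = -(C * A))
    (hBC : B * C = -(C * B)) : (A + B + C) * (A + B + C) = A * A + B * B + C * C := by
  have h : (A + B + C) * (A + B + C) =
      A * A + B * B + C * C + (A * B + B * A) + (A * C + C * A) + (B * C + C * B) := by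
    noncomm_ring
  rw [h, hAB, hAC, hBC]
  simp

section quat

variable {F E : Type} [Field F] [CharZero F] [DivisionRing E] [Algebra F E]

omit [CharZero F] in
theorem finite_center [FiniteDimensional F E] : Module.Finite (Subring.center E) E := by
  obtain ⟨S, hS⟩ := (Module.finite_def.mp (inferInstance : Module.Finite F E))
  refine Module.finite_def.mpr ⟨S, ?_⟩
  rw [eq_top_iff]
  rintro x -
  have hx : x ∈ Submodule.span F (S : Set E) := hS ▸ Submodule.mem_top
  induction hx using Submodule.span_induction with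
  | mem x h => exact Submodule.subset_span h
  | zero => exact zero_mem _
  | add x y _ _ hx hy => exact add_mem hx hy
  | smul a x _ hx =>
    have ha : algebraMap F E a ∈ Subring.center E := by
      rw [Subring.mem_center_iff]
      intro g
      exact (Algebra.commutes a g).symm
    have h1 : a • x = (⟨algebraMap F E a, ha⟩ : Subring.center E) • x := by
      rw [Algebra.smul_def]
      rfl
    rw [h1]
    exact Submodule.smul_mem _ _ hx

omit [CharZero F] in
theorem central_quadratic [FiniteDimensional F E]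
    (h4 : Module.finrank (Subring.center E) E ≤ 4) {x y : E} (hxy : x * y ≠ y * x) :
    ∃ a b : E, (∀ z, z * a = a * z) ∧ (∀ z, z * b = b * z) ∧ x * x = a + b * x := by
  have := finite_center (F := F) (E := E)
  have hdep : ¬ LinearIndependent (Subring.center E) ![1, x, y, x * y, x * x] := by
    intro hli
    have := hli.fintype_card_le_finrank
    simp only [Fintype.card_fin] at this
    omega
  rw [Fintype.not_linearIndependent_iff] at hdep
  obtain ⟨g, hg, i, hi⟩ := hdep
  simp only [Fin.sum_univ_five, Subring.smul_def, smul_eq_mul] at hg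
  have hc : ∀ i z, z * (g i : E) = (g i : E) * z := fun i z =>
    Subring.mem_center_iff.mp (g i).2 z
  have hx0 : ∀ i j, (g i : E) + (g j : E) * x = 0 → (g j : E) = 0 := by
    intro i j h0
    by_contra hj
    apply hxy
    have h1 : x = -((g j : E)⁻¹ * (g i : E)) := by
      have h2 : (g j : E) * x = -(g i : E) := eq_neg_of_add_eq_zero_right h0
      rw [← mul_neg, ← h2, inv_mul_cancel_left₀ hj]
    have h3 : ∀ z, z * ((g j : E)⁻¹ * (g i : E)) = ((g j : E)⁻¹ * (g i : E)) * z := by
      intro z
      have h4 : Commute z (g j : E) := hc j z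
      have h5 : Commute z (g i : E) := hc i z
      exact (h4.inv_right₀.mul_right h5)
    rw [h1, neg_mul, mul_neg, h3]
  have e0 : ((![1, x, y, x * y, x * x] : Fin 5 → E) 0) = 1 := rfl
  have e1 : ((![1, x, y, x * y, x * x] : Fin 5 → E) 1) = x := rfl
  have e2 : ((![1, x, y, x * y, x * x] : Fin 5 → E) 2) = y := rfl
  have e3 : ((![1, x, y, x * y, x * x] : Fin 5 → E) 3) = x * y := rfl
  have e4 : ((![1, x, y, x * y, x * x] : Fin 5 → E) 4) = x * x := rfl
  rw [e0, e1, e2, e3, e4] at hg
  have hg' : ((g 0 : E) + (g 1 : E) * x + (g 4 : E) * (x * x)) +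
      ((g 2 : E) + (g 3 : E) * x) * y = 0 := by
    rw [← hg]
    noncomm_ring
  have h23 : (g 2 : E) + (g 3 : E) * x = 0 := by
    by_contra hne
    apply hxy
    have hxc : ∀ i, Commute x (g i : E) := fun i => hc i x
    have h1 : y = -(((g 2 : E) + (g 3 : E) * x)⁻¹ *
        ((g 0 : E) + (g 1 : E) * x + (g 4 : E) * (x * x))) := by
      have h2 := eq_neg_of_add_eq_zero_right hg'
      rw [← mul_neg, ← h2, inv_mul_cancel_left₀ hne]
    have h3 : Commute x y := by
      rw [h1]
      refine Commute.neg_right (Commute.mul_right (Commute.inv_right₀ ?_) ?_)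
      · exact (hxc 2).add_right ((hxc 3).mul_right (Commute.refl x))
      · exact ((hxc 0).add_right ((hxc 1).mul_right (Commute.refl x))).add_right
          ((hxc 4).mul_right ((Commute.refl x).mul_right (Commute.refl x)))
    exact h3
  have hg3 : (g 3 : E) = 0 := hx0 2 3 h23
  have hg2 : (g 2 : E) = 0 := by rw [hg3, zero_mul, add_zero] at h23; exact h23
  rw [h23, zero_mul, add_zero] at hg'
  have hg4 : (g 4 : E) ≠ 0 := by
    intro h4
    rw [h4, zero_mul, add_zero] at hg'
    have hg1 : (g 1 : E) = 0 := hx0 0 1 hg'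
    have hg0 : (g 0 : E) = 0 := by rw [hg1, zero_mul, add_zero] at hg'; exact hg'
    have hall : ∀ i, g i = 0 := by
      intro i
      apply Subtype.ext
      rw [ZeroMemClass.coe_zero]
      fin_cases i
      · exact hg0
      · exact hg1
      · exact hg2
      · exact hg3
      · exact h4
    exact hi (hall i)
  refine ⟨-((g 4 : E)⁻¹ * (g 0 : E)), -((g 4 : E)⁻¹ * (g 1 : E)), ?_, ?_, ?_⟩
  · intro z
    exact Commute.neg_right (Commute.mul_right (Commute.inv_right₀ (hc 4 z)) (hc 0 z))
  · intro z
    exact Commute.neg_right (Commute.mul_right (Commute.inv_right₀ (hc 4 z)) (hc 1 z))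
  · have h2 := eq_neg_of_add_eq_zero_right hg'
    calc x * x = (g 4 : E)⁻¹ * ((g 4 : E) * (x * x)) := by rw [inv_mul_cancel_left₀ hg4]
      _ = (g 4 : E)⁻¹ * (-((g 0 : E) + (g 1 : E) * x)) := by rw [h2]
      _ = _ := by noncomm_ring

variable {d : Fˣ} {s : E} {τ : E →ₗ[F] E}

omit [CharZero F] in
theorem SecondKind.s_ne (h : SecondKind F E d s τ) : s ≠ 0 := by
  rintro rfl
  have := h.sq
  rw [zero_pow two_ne_zero] at this
  have h1 : (d : F) = 0 := (algebraMap F E).injective (by rw [← this, map_zero])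
  exact d.ne_zero h1

omit [CharZero F] in
theorem SecondKind.map_algebraMap (h : SecondKind F E d s τ) (a : F) :
    τ (algebraMap F E a) = algebraMap F E a := by
  have h1 : τ 1 = 1 := by
    have h2 := h.mul 1 (τ 1)
    rw [one_mul, h.invol, one_mul] at h2
    exact h2.symm
  rw [Algebra.algebraMap_eq_smul_one, map_smul, h1]

theorem SecondKind.sym_central (h : SecondKind F E d s τ) {z : E} (hz : ∀ x : E, x * z = z * x)
    (hs : τ z = z) : ∃ a : F, z = algebraMap F E a := by
  obtain ⟨a, b, rfl⟩ := h.center z hz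
  refine ⟨a, ?_⟩
  rw [map_add, h.mul, h.map_algebraMap, h.map_algebraMap, h.neg, neg_mul,
    ← Algebra.commutes b s, add_right_inj] at hs
  have h1 : (2 : F) • (algebraMap F E b * s) = 0 := by
    rw [two_smul]
    nth_rewrite 1 [← hs]
    exact neg_add_cancel _
  have h2 := (smul_eq_zero.mp h1).resolve_left two_ne_zero
  rw [h2, add_zero]

theorem SecondKind.sym_quadratic [FiniteDimensional F E] (h : SecondKind F E d s τ)
    (h4 : Module.finrank (Subring.center E) E ≤ 4) {x y : E} (hxy : x * y ≠ y * x)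
    (hx : τ x = x) : ∃ a b : F, x * x = algebraMap F E a + algebraMap F E b * x := by
  obtain ⟨a, b, ha, hb, hab⟩ := central_quadratic (F := F) h4 hxy
  have hcen : ∀ z, (∀ w, w * z = z * w) → ∀ w, w * τ z = τ z * w := by
    intro z hz w
    have h1 := congrArg τ (hz (τ w))
    rw [h.mul, h.mul, h.invol] at h1
    exact h1.symm
  have h1 : x * x = τ a + τ b * x := by
    have := congrArg τ hab
    rw [h.mul, map_add, h.mul, hx, hcen b hb] at this
    exact this
  have h2 : (a - τ a) + (b - τ b) * x = 0 := by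
    rw [sub_mul]
    have : a + b * x - (τ a + τ b * x) = 0 := by rw [← hab, ← h1, sub_self]
    rw [← this]
    abel
  have hbb : b - τ b = 0 := by
    by_contra hne
    apply hxy
    have h3 : x = -((b - τ b)⁻¹ * (a - τ a)) := by
      rw [← mul_neg, ← eq_neg_of_add_eq_zero_right h2, inv_mul_cancel_left₀ hne]
    have h5 : Commute y (a - τ a) := Commute.sub_right (ha y) (hcen a ha y)
    have h6 : Commute y (b - τ b) := Commute.sub_right (hb y) (hcen b hb y)
    have h7 : Commute y x := by
      rw [h3]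
      exact (h6.inv_right₀.mul_right h5).neg_right
    exact h7.symm
  have haa : a - τ a = 0 := by rw [hbb, zero_mul, add_zero] at h2; exact h2
  obtain ⟨a', rfl⟩ := h.sym_central ha (sub_eq_zero.mp haa).symm
  obtain ⟨b', rfl⟩ := h.sym_central hb (sub_eq_zero.mp hbb).symm
  exact ⟨a', b', hab⟩

theorem SecondKind.exists_sym (h : SecondKind F E d s τ) {x y : E} (hxy : x * y ≠ y * x) :
    ∃ u v : E, τ u = u ∧ τ v = v ∧ u * v ≠ v * u := by
  by_contra hno
  push Not at hno
  apply hxy
  have hdec : ∀ z : E, ∃ u v : E, τ u = u ∧ τ v = v ∧ z = u + s * v := by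
    intro z
    refine ⟨(2 : F)⁻¹ • (z + τ z), (2 : F)⁻¹ • (s⁻¹ * (z - τ z)), ?_, ?_, ?_⟩
    · rw [map_smul, map_add, h.invol, add_comm]
    · have hsi : τ s⁻¹ = -s⁻¹ := by
        have h1 : τ s⁻¹ * τ s = 1 := by
          rw [← h.mul, mul_inv_cancel₀ h.s_ne, ← map_one (algebraMap F E), h.map_algebraMap]
        rw [h.neg] at h1
        have h2 : τ s⁻¹ * s = -1 := by
          rw [mul_neg] at h1
          rw [← h1, neg_neg]
        rw [← mul_inv_cancel_right₀ h.s_ne (τ s⁻¹), h2, neg_one_mul]
      have hcs : ∀ w : E, w * s⁻¹ = s⁻¹ * w := fun w =>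
        (show Commute w s from h.central w).inv_right₀
      rw [map_smul, h.mul, map_sub, h.invol, hsi, mul_neg, hcs, ← mul_neg, neg_sub]
    · rw [mul_smul_comm, mul_inv_cancel_left₀ h.s_ne, ← smul_add]
      have h1 : z + τ z + (z - τ z) = (2 : F) • z := by
        rw [two_smul]
        abel
      rw [h1, smul_smul, inv_mul_cancel₀ two_ne_zero, one_smul]
  obtain ⟨u, v, hu, hv, rfl⟩ := hdec x
  obtain ⟨u', v', hu', hv', rfl⟩ := hdec y
  have c1 : Commute u u' := hno u u' hu hu'
  have c2 : Commute u v' := hno u v' hu hv'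
  have c3 : Commute v u' := hno v u' hv hu'
  have c4 : Commute v v' := hno v v' hv hv'
  have cs : ∀ w, Commute w s := h.central
  exact Commute.add_left (c1.add_right ((cs u).mul_right c2))
    (Commute.mul_left (cs _).symm (c3.add_right ((cs v).mul_right c4)))

/-- The standard generators. -/
theorem SecondKind.exists_gens [FiniteDimensional F E] (h : SecondKind F E d s τ)
    (h4 : Module.finrank (Subring.center E) E ≤ 4) {x y : E} (hxy : x * y ≠ y * x) :
    ∃ (X Y : E) (a b : F), X * X = algebraMap F E a ∧ Y * Y = algebraMap F E b ∧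
      X * Y = -(Y * X) ∧ X ≠ 0 ∧ Y ≠ 0 := by
  obtain ⟨u, y, hu, hy, huy⟩ := h.exists_sym hxy
  obtain ⟨a, b, hab⟩ := h.sym_quadratic h4 huy hu
  -- the shift
  obtain ⟨X, a', hX, hXX, hXy⟩ : ∃ (X : E) (a' : F), τ X = X ∧ X * X = algebraMap F E a' ∧
      X * y ≠ y * X := by
    refine ⟨u - algebraMap F E (b / 2), a + b ^ 2 / 4, ?_, ?_, ?_⟩
    · rw [map_sub, hu, h.map_algebraMap]
    · have hc : ∀ c : F, u * algebraMap F E c = algebraMap F E c * u := fun c =>
        (Algebra.commutes c u).symm
      rw [sub_mul, mul_sub, mul_sub, hab, hc, ← map_mul]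
      have h1 : algebraMap F E b * u = algebraMap F E (b / 2) * u + algebraMap F E (b / 2) * u := by
        rw [← add_mul, ← map_add, add_halves]
      rw [h1]
      have h2 : a + b ^ 2 / 4 = a + b / 2 * (b / 2) := by ring
      rw [h2, map_add]
      abel
    · intro h0
      apply huy
      rw [sub_mul, mul_sub, Algebra.commutes (b / 2) y] at h0
      exact sub_left_inj.mp h0
  set Y := s * (X * y - y * X) with hY
  have hY0 : Y ≠ 0 := mul_ne_zero h.s_ne (sub_ne_zero.mpr hXy)
  have hX0 : X ≠ 0 := by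
    rintro rfl
    exact hXy (by rw [zero_mul, mul_zero])
  have hYs : τ Y = Y := by
    rw [hY, h.mul, h.neg, map_sub, h.mul, h.mul, hX, hy, mul_neg, ← neg_mul, neg_sub, h.central]
  have hXY : X * Y = -(Y * X) := by
    have hc : ∀ w : E, w * algebraMap F E a' = algebraMap F E a' * w := fun w =>
      (Algebra.commutes a' w).symm
    have e1 : X * Y = s * (algebraMap F E a' * y - X * y * X) := by
      rw [hY, ← mul_assoc, h.central X, mul_assoc, mul_sub, ← mul_assoc X X, hXX, mul_assoc X y X]
    have e2 : Y * X = s * (X * y * X - algebraMap F E a' * y) := by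
      rw [hY, mul_assoc, sub_mul, mul_assoc y X X, hXX, hc]
    rw [e1, e2, ← mul_neg, neg_sub]
  have hXYne : Y * X ≠ X * Y := by
    intro h0
    rw [hXY] at h0
    have h1 : (2 : F) • (Y * X) = 0 := by
      rw [two_smul]
      nth_rewrite 1 [h0]
      exact neg_add_cancel _
    exact (mul_ne_zero hY0 hX0) ((smul_eq_zero.mp h1).resolve_left two_ne_zero)
  obtain ⟨e, f, hef⟩ := h.sym_quadratic h4 hXYne hYs
  clear_value Y
  have hf : f = 0 := by
    by_contra hf0
    apply hXYne
    have h1 : X * (Y * Y) = Y * Y * X := by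
      calc X * (Y * Y) = X * Y * Y := (mul_assoc _ _ _).symm
        _ = -(Y * X) * Y := by rw [hXY]
        _ = -(Y * (X * Y)) := by rw [neg_mul, mul_assoc]
        _ = Y * (Y * X) := by rw [hXY, mul_neg, neg_neg]
        _ = Y * Y * X := (mul_assoc _ _ _).symm
    rw [hef, mul_add, add_mul, ← Algebra.commutes e X, add_right_inj, ← mul_assoc,
      ← Algebra.commutes f X, mul_assoc, mul_assoc] at h1
    exact (mul_left_cancel₀ (by
      intro h0
      exact hf0 ((algebraMap F E).injective (by rw [h0, map_zero]))) h1).symm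
  refine ⟨X, Y, a', e, hXX, ?_, hXY, hX0, hY0⟩
  rw [hef, hf, map_zero, zero_mul, add_zero]

/-- LOC3b. -/
theorem SecondKind.comm [FiniteDimensional F E] (h : SecondKind F E d s τ)
    (h4 : Module.finrank (Subring.center E) E ≤ 4) (hF : IndexTwo F) :
    ∀ x y : E, x * y = y * x := by
  by_contra hno
  push Not at hno
  obtain ⟨x, y, hxy⟩ := hno
  obtain ⟨X, Y, a, b, hX, hY, hXY, hX0, hY0⟩ := h.exists_gens h4 hxy
  have hinj := (algebraMap F E).injective
  have ha0 : a ≠ 0 := by
    rintro rfl
    rw [map_zero] at hX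
    exact hX0 (mul_self_eq_zero.mp hX)
  have hb0 : b ≠ 0 := by
    rintro rfl
    rw [map_zero] at hY
    exact hY0 (mul_self_eq_zero.mp hY)
  have h2 : ∀ z : E, z = -z → z = 0 := by
    intro z hz
    have h1 : (2 : F) • z = 0 := by
      rw [two_smul]
      nth_rewrite 1 [hz]
      exact neg_add_cancel _
    exact (smul_eq_zero.mp h1).resolve_left two_ne_zero
  have hcF : ∀ (c : F) (w : E), w * algebraMap F E c = algebraMap F E c * w := fun c w =>
    (Algebra.commutes c w).symm
  -- the third generator and its multiplication rules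
  have hYX : Y * X = -(X * Y) := by rw [hXY, neg_neg]
  have hXnc : ∀ z : E, (∀ w, w * z = z * w) → X ≠ z := by
    rintro z hz rfl
    have h1 := hz Y
    rw [hXY] at h1
    exact mul_ne_zero hY0 hX0 (h2 _ h1)
  have hXP : X * (X * Y) = algebraMap F E a * Y := by rw [← mul_assoc, hX]
  have hPX : X * Y * X = -(algebraMap F E a * Y) := by
    rw [mul_assoc, hYX, mul_neg, hXP]
  have hYP : Y * (X * Y) = -(algebraMap F E b * X) := by
    rw [← mul_assoc, hYX, neg_mul, mul_assoc, hY, hcF]
  have hPY : X * Y * Y = algebraMap F E b * X := by rw [mul_assoc, hY, hcF]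
  have hPP : X * Y * (X * Y) = algebraMap F E (-(a * b)) := by
    rw [mul_assoc, hYP, mul_neg, ← mul_assoc, hcF, mul_assoc, hX, map_neg, map_mul, hcF]
  have hPnc : ∀ z : E, (∀ w, w * z = z * w) → X * Y ≠ z := by
    intro z hz he
    have h1 := hz X
    rw [← he, hXP, hPX] at h1
    refine mul_ne_zero ?_ hY0 (h2 _ h1)
    intro h0
    exact ha0 (hinj (by rw [h0, map_zero]))
  set Z := s * (X * Y) with hZ
  have hss : s * s = algebraMap F E d := by rw [← pow_two, h.sq]
  have hZZ : Z * Z = algebraMap F E (-(d * (a * b))) := by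
    rw [hZ, mul_assoc, ← mul_assoc (X * Y) s, h.central (X * Y), mul_assoc, hPP, ← mul_assoc, hss,
      ← map_mul]
    congr 1
    ring
  have hXZ : X * Z = -(Z * X) := by
    rw [hZ, ← mul_assoc, h.central X, mul_assoc, hXP, mul_assoc, hPX, mul_neg, neg_neg]
  have hYZ : Y * Z = -(Z * Y) := by
    rw [hZ, ← mul_assoc, h.central Y, mul_assoc, hYP, mul_assoc s, hPY, mul_neg]
  have hsc : ∀ z : E, (∀ w, w * z = z * w) → ∀ w, w * (s⁻¹ * z) = (s⁻¹ * z) * w := by
    intro z hz w
    exact ((show Commute w s from h.central w).inv_right₀).mul_right (hz w)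
  have hZnc : ∀ z : E, (∀ w, w * z = z * w) → Z ≠ z := by
    intro z hz he
    refine hPnc (s⁻¹ * z) (hsc z hz) ?_
    rw [← he, hZ, inv_mul_cancel_left₀ h.s_ne]
  -- square roots of scalars
  have hroot : ∀ (W : E) (c : F), W * W = algebraMap F E (c * c) →
      W = algebraMap F E c ∨ W = algebraMap F E (-c) := by
    intro W c hW
    have h1 : (W - algebraMap F E c) * (W + algebraMap F E c) = 0 := by
      rw [sub_mul, mul_add, mul_add, hW, hcF, map_mul]
      abel
    rcases mul_eq_zero.mp h1 with h1 | h1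
    · exact Or.inl (sub_eq_zero.mp h1)
    · exact Or.inr (by rw [map_neg]; exact eq_neg_of_add_eq_zero_left h1)
  have hn1 : -(a * b) ≠ 0 := neg_ne_zero.mpr (mul_ne_zero ha0 hb0)
  let a1 : Fˣ := Units.mk0 _ hn1
  let a2 : Fˣ := d * a1
  have ha1 : ¬ IsSquare (a1 : F) := by
    rintro ⟨c, hc⟩
    change -(a * b) = c * c at hc
    rw [hc] at hPP
    rcases hroot _ _ hPP with h1 | h1
    · exact hPnc _ (hcF c) h1
    · exact hPnc _ (hcF (-c)) h1
  have ha2 : ¬ IsSquare (a2 : F) := by
    rintro ⟨c, hc⟩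
    change (d : F) * (-(a * b)) = c * c at hc
    rw [mul_neg] at hc
    rw [hc] at hZZ
    rcases hroot _ _ hZZ with h1 | h1
    · exact hZnc _ (hcF c) h1
    · exact hZnc _ (hcF (-c)) h1
  have hne : ¬ LN a2 ≤ LN a1 := by
    intro hle
    have h1 := Subgroup.relIndex_mul_index hle
    rw [hF.two a1 ha1, hF.two a2 ha2] at h1
    have h3 : (LN a2).relIndex (LN a1) = 1 := by omega
    have heq : LN a1 = LN a2 := le_antisymm (Subgroup.relIndex_eq_one.mp h3) hle
    obtain ⟨c, hc⟩ := hF.inj a1 a2 heq
    apply h.ns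
    refine ⟨c / a1, ?_⟩
    have h5 : (a1 : F) * (d * a1) = c * c := hc
    have h6 : (a1 : F) ≠ 0 := a1.ne_zero
    field_simp
    linear_combination h5
  obtain ⟨g, hg2, hg1⟩ := Set.not_subset.mp hne
  let α : Fˣ := Units.mk0 a ha0
  obtain ⟨c, hc1, hc2⟩ : ∃ c : Fˣ, α⁻¹ * c ∈ LN a1 ∧ c ∈ LN a2 := by
    by_cases hα : α ∈ LN a1
    · exact ⟨1, by rw [mul_one]; exact inv_mem hα, one_mem _⟩
    · refine ⟨g, ?_, hg2⟩
      rw [Subgroup.mul_mem_iff_of_index_two (hF.two a1 ha1)]
      constructor
      · intro h0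
        exact absurd (inv_mem_iff.mp h0) hα
      · intro h0
        exact absurd h0 hg1
  obtain ⟨u, v, huv⟩ := hc1
  obtain ⟨z, w, hzw⟩ := hc2
  have huv' : (c : F) = a * (u ^ 2 - -(a * b) * v ^ 2) := by
    have h1 : (α : F)⁻¹ * (c : F) = u ^ 2 - -(a * b) * v ^ 2 := by
      rw [← Units.val_inv_eq_inv_val, ← Units.val_mul]
      exact huv
    rw [← h1]
    change (c : F) = a * (a⁻¹ * c)
    field_simp
  have hzw' : (c : F) = z ^ 2 - d * (-(a * b)) * w ^ 2 := hzw
  set Q := u • X + (a * v) • Y + w • Z with hQ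
  have hQQ : Q * Q = algebraMap F E (z * z) := by
    have anti : ∀ (p q : F) (U V : E), U * V = -(V * U) →
        (p • U) * (q • V) = -((q • V) * (p • U)) := by
      intro p q U V hUV
      rw [smul_mul_smul_comm, smul_mul_smul_comm, hUV, smul_neg, mul_comm p q]
    rw [hQ, sq_sum (anti _ _ _ _ hXY) (anti _ _ _ _ hXZ) (anti _ _ _ _ hYZ),
      smul_mul_smul_comm, smul_mul_smul_comm, smul_mul_smul_comm, hX, hY, hZZ,
      Algebra.smul_def, Algebra.smul_def, Algebra.smul_def, ← map_mul, ← map_mul, ← map_mul,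
      ← map_add, ← map_add]
    congr 1
    linear_combination hzw' - huv'
  obtain ⟨q, hq⟩ : ∃ q : F, Q = algebraMap F E q := by
    rcases hroot Q z hQQ with h1 | h1
    · exact ⟨_, h1⟩
    · exact ⟨_, h1⟩
  have hcomm : X * Q = Q * X := by rw [hq, hcF]
  have hzero : (a * v) • (X * Y) + w • (X * Z) = 0 := by
    apply h2
    have e1 : X * Q = u • (X * X) + ((a * v) • (X * Y) + w • (X * Z)) := by
      rw [hQ, mul_add, mul_add, mul_smul_comm, mul_smul_comm, mul_smul_comm, add_assoc]
    have e2 : Q * X = u • (X * X) + -((a * v) • (X * Y) + w • (X * Z)) := by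
      rw [hQ, add_mul, add_mul, smul_mul_assoc, smul_mul_assoc, smul_mul_assoc, hYX,
        add_assoc, neg_add, ← smul_neg, ← smul_neg]
      congr 3
      rw [hXZ, neg_neg]
    rw [e1, e2] at hcomm
    exact add_left_cancel hcomm
  have hfac : ((a * v) • X + (w * a) • s) * Y = 0 := by
    rw [← hzero, add_mul, smul_mul_assoc, smul_mul_assoc, hZ, ← mul_assoc X s, h.central X,
      mul_assoc s, hXP, ← Algebra.smul_def, mul_smul_comm, smul_smul]
  have hfac' := (mul_eq_zero.mp hfac).resolve_right hY0
  have hsne := h.s_ne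
  have hv : v = 0 := by
    by_contra hv
    have h1 : (a * v) • X = -((w * a) • s) := eq_neg_of_add_eq_zero_left hfac'
    have h3 : X = (-((a * v)⁻¹ * (w * a))) • s := by
      rw [neg_smul, mul_smul, ← smul_neg, ← h1, smul_smul, inv_mul_cancel₀ (mul_ne_zero ha0 hv),
        one_smul]
    refine hXnc _ (fun x => ?_) h3
    rw [mul_smul_comm, smul_mul_assoc, h.central]
  have hw : w = 0 := by
    rw [hv, mul_zero, zero_smul, zero_add] at hfac'
    rcases smul_eq_zero.mp hfac' with h1 | h1
    · exact (mul_eq_zero.mp h1).resolve_right ha0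
    · exact absurd h1 hsne
  have hu : u = 0 := by
    by_contra hu
    rw [hv, hw, mul_zero, zero_smul, zero_smul, add_zero, add_zero] at hQ
    rw [hQ, Algebra.algebraMap_eq_smul_one] at hq
    have h3 : X = algebraMap F E (u⁻¹ * q) := by
      rw [Algebra.algebraMap_eq_smul_one, mul_smul, ← hq, smul_smul, inv_mul_cancel₀ hu, one_smul]
    exact hXnc _ (hcF _) h3
  have hc0 : (c : F) = 0 := by
    rw [huv', hu, hv]
    ring
  exact c.ne_zero hc0

end quat

end Vale.Agent.P011.Even
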