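import Mathlib

/-!
Continuity of the minimal polynomial at an element of maximal degree.
-/

open Polynomial Module Filter Topology Matrix

namespace Vale.Agent.P011.Even

section

variable {F A Y : Type} [NormedField F] [Ring A] [Algebra F A] [TopologicalSpace Y]
  {ι : Type} [Fintype ι]

/-- Continuity in coordinates. -/
def CtsAt (B : Basis ι F A) (u : Y → A) (y0 : Y) : Prop :=
  ∀ j, ContinuousAt (fun y => B.repr (u y) j) y0

variable {B : Basis ι F A} {y0 : Y}

theorem CtsAt.functional {u : Y → A} (hu : CtsAt B u y0) (l : A →ₗ[F] F) :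
    ContinuousAt (fun y => l (u y)) y0 := by
  have h1 : (fun y => l (u y)) = fun y => ∑ j, B.repr (u y) j * l (B j) := by
    funext y
    conv_lhs => rw [← B.sum_repr (u y)]
    rw [map_sum]
    exact Finset.sum_congr rfl fun j _ => by rw [map_smul, smul_eq_mul]
  rw [h1]
  exact tendsto_finsetSum _ fun j _ => (hu j).mul continuousAt_const

omit [Fintype ι] in
theorem CtsAt.const (a : A) : CtsAt B (fun _ : Y => a) y0 := fun _ => continuousAt_const

theorem CtsAt.linear {u : Y → A} (hu : CtsAt B u y0) (l : A →ₗ[F] A) :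
    CtsAt B (fun y => l (u y)) y0 := fun j =>
  hu.functional ((B.coord j).comp l)

theorem CtsAt.mul {u v : Y → A} (hu : CtsAt B u y0) (hv : CtsAt B v y0) :
    CtsAt B (fun y => u y * v y) y0 := by
  intro j
  have h1 : (fun y => B.repr (u y * v y) j) =
      fun y => ∑ a, ∑ b, B.repr (u y) a * B.repr (v y) b * B.repr (B a * B b) j := by
    funext y
    conv_lhs => rw [← B.sum_repr (u y), ← B.sum_repr (v y)]
    rw [Finset.sum_mul, map_sum, Finsupp.finsetSum_apply]
    refine Finset.sum_congr rfl fun a _ => ?_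
    rw [Finset.mul_sum, map_sum, Finsupp.finsetSum_apply]
    refine Finset.sum_congr rfl fun b _ => ?_
    rw [smul_mul_smul_comm, map_smul, Finsupp.smul_apply, smul_eq_mul]
  rw [h1]
  exact tendsto_finsetSum _ fun a _ => tendsto_finsetSum _ fun b _ =>
    ((hu a).mul (hv b)).mul continuousAt_const

theorem CtsAt.pow {u : Y → A} (hu : CtsAt B u y0) (n : ℕ) : CtsAt B (fun y => u y ^ n) y0 := by
  induction n with
  | zero => simpa using CtsAt.const (B := B) (y0 := y0) (1 : A)
  | succ n ih => simpa only [pow_succ] using ih.mul hu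

theorem near_minpoly {n : ℕ} {Z : Y → A} (hZ : CtsAt B Z y0)
    (hli : LinearIndependent F (fun i : Fin n => Z y0 ^ (i : ℕ))) {q : F[X]} (hq : q.Monic)
    (hqn : q.natDegree = n) (hq0 : aeval (Z y0) q = 0) {ε : ℝ} (hε : 0 < ε) :
    ∀ᶠ y in 𝓝 y0, LinearIndependent F (fun i : Fin n => Z y ^ (i : ℕ)) ∧
      ∀ m : F[X], m.Monic → m.natDegree = n → aeval (Z y) m = 0 →
        ∀ i, ‖m.coeff i - q.coeff i‖ < ε := by
  classical
  obtain ⟨Λ, hΛ⟩ := LinearMap.exists_leftInverse_of_injective
    (Fintype.linearCombination F (fun i : Fin n => Z y0 ^ (i : ℕ)))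
    (LinearMap.ker_eq_bot.mpr
      (linearIndependent_iff_injective_fintypeLinearCombination.mp hli))
  let M : Y → Matrix (Fin n) (Fin n) F := fun y => Matrix.of fun i j => Λ (Z y ^ (j : ℕ)) i
  have hM0 : M y0 = 1 := by
    ext i j
    have h1 := LinearMap.congr_fun hΛ (Pi.single j 1)
    rw [LinearMap.comp_apply, Fintype.linearCombination_apply_single, one_smul,
      LinearMap.id_apply] at h1
    change Λ (Z y0 ^ (j : ℕ)) i = _
    rw [h1, Matrix.one_apply, Pi.single_apply]
  have hΛc : ∀ (e : ℕ) (i : Fin n), ContinuousAt (fun y => Λ (Z y ^ e) i) y0 := fun e i =>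
    (hZ.pow e).functional ((LinearMap.proj i).comp Λ)
  have hMc : ContinuousAt M y0 := continuousAt_pi.mpr fun i => continuousAt_pi.mpr fun j =>
    hΛc j i
  have hdet : ContinuousAt (fun y => (M y).det) y0 :=
    ((continuous_id.matrix_det).continuousAt (x := M y0)).comp hMc
  have hadj : ContinuousAt (fun y => (M y).adjugate) y0 :=
    ((continuous_id.matrix_adjugate).continuousAt (x := M y0)).comp hMc
  have hdet0 : (M y0).det = 1 := by rw [hM0, det_one]
  let G : Y → Fin n → F := fun y i => -((M y).det)⁻¹ *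
    ((M y).adjugate *ᵥ fun j => Λ (Z y ^ n) j) i
  have hGc : ∀ i, ContinuousAt (fun y => G y i) y0 := by
    intro i
    refine ContinuousAt.mul ?_ ?_
    · exact (hdet.inv₀ (by rw [hdet0]; exact one_ne_zero)).neg
    · have h1 : (fun y => ((M y).adjugate *ᵥ fun j => Λ (Z y ^ n) j) i) =
          fun y => ∑ j, (M y).adjugate i j * Λ (Z y ^ n) j := rfl
      rw [h1]
      exact tendsto_finsetSum _ fun j _ =>
        ((continuousAt_pi.mp (continuousAt_pi.mp hadj i)) j).mul (hΛc n j)
  -- the linear system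
  have key : ∀ y, (M y).det ≠ 0 → ∀ m : F[X], m.Monic → m.natDegree = n → aeval (Z y) m = 0 →
      ∀ i : Fin n, m.coeff i = G y i := by
    intro y hy m hm hmn hm0 i
    rw [aeval_eq_sum_range, hmn, Finset.sum_range_succ, ← hmn, hm.coeff_natDegree, one_smul, hmn,
      Finset.sum_range] at hm0
    have h1 := congrArg Λ hm0
    rw [map_add, map_sum, map_zero] at h1
    have h2 : (M y) *ᵥ (fun j : Fin n => m.coeff j) = -(fun j => Λ (Z y ^ n) j) := by
      funext j
      have h3 := congrFun h1 j
      rw [Pi.add_apply, Finset.sum_apply, Pi.zero_apply] at h3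
      rw [Pi.neg_apply, eq_neg_iff_add_eq_zero, ← h3]
      congr 1
      change ∑ l : Fin n, Λ (Z y ^ (l : ℕ)) j * m.coeff (l : ℕ) = _
      refine Finset.sum_congr rfl fun l _ => ?_
      rw [map_smul, Pi.smul_apply, smul_eq_mul, mul_comm]
    have h4 := congrArg (fun w => (M y).adjugate *ᵥ w) h2
    simp only [Matrix.mulVec_mulVec, Matrix.adjugate_mul, Matrix.mulVec_neg] at h4
    rw [Matrix.smul_mulVec, Matrix.one_mulVec] at h4
    have h5 := congrFun h4 i
    rw [Pi.smul_apply, Pi.neg_apply, smul_eq_mul] at h5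
    change m.coeff i = -((M y).det)⁻¹ * ((M y).adjugate *ᵥ fun j => Λ (Z y ^ n) j) i
    field_simp
    rw [mul_comm, h5]
  have hG0 : ∀ i : Fin n, G y0 i = q.coeff i := fun i =>
    (key y0 (by rw [hdet0]; exact one_ne_zero) q hq hqn hq0 i).symm
  have e1 : ∀ᶠ y in 𝓝 y0, (M y).det ≠ 0 :=
    hdet.eventually_ne (by rw [hdet0]; exact one_ne_zero)
  have e2 : ∀ᶠ y in 𝓝 y0, ∀ i, ‖G y i - q.coeff i‖ < ε := by
    rw [eventually_all]
    intro i
    have h1 := (hGc i).eventually (Metric.ball_mem_nhds (G y0 i) hε)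
    filter_upwards [h1] with y hy
    change dist (G y i) (G y0 i) < ε at hy
    rw [dist_eq_norm, hG0] at hy
    exact hy
  filter_upwards [e1, e2] with y h1 h2
  refine ⟨?_, fun m hm hmn hm0 i => ?_⟩
  · have h3 : LinearIndependent F (fun j => (M y).col j) := by
      rw [Matrix.linearIndependent_cols_iff_isUnit, Matrix.isUnit_iff_isUnit_det]
      exact isUnit_iff_ne_zero.mpr h1
    exact LinearIndependent.of_comp Λ h3
  · rcases lt_trichotomy i n with hi | hi | hi
    · rw [key y h1 m hm hmn hm0 ⟨i, hi⟩]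
      exact h2 ⟨i, hi⟩
    · subst hi
      have e3 : m.coeff i = 1 := by rw [← hmn]; exact hm
      have e4 : q.coeff i = 1 := by rw [← hqn]; exact hq
      rw [e3, e4, sub_self, norm_zero]
      exact hε
    · rw [coeff_eq_zero_of_natDegree_lt (by omega), coeff_eq_zero_of_natDegree_lt (by omega),
        sub_self, norm_zero]
      exact hε

end

section

variable {k D F A : Type} [Field k] [DivisionRing D] [StarRing D] [Algebra k D] [NormedField F]
  [Algebra k F] [Ring A] [Algebra F A] {N : ℕ} (B : Basis (Fin N) k D) {ι : Type} [Fintype ι]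
  (BA : Basis ι F A) (g : D →+* A) (hg : ∀ (a : k) x, g (a • x) = algebraMap k F a • g x)
  (τ : A →ₗ[F] A) (hτ : ∀ x, τ (g x) = g (star x))

include BA hg hτ in
/-- The elements `c0⁻¹ * β * c2 * star β` for `β` close to a given element of a completion. -/
theorem near_D (c0 c2 : D) (b : Fin N → F) {n : ℕ}
    (hli : LinearIndependent F (fun i : Fin n =>
      (g c0⁻¹ * (∑ j, b j • g (B j)) * g c2 * τ (∑ j, b j • g (B j))) ^ (i : ℕ)))
    {q : F[X]} (hq : q.Monic) (hqn : q.natDegree = n)
    (hq0 : aeval (g c0⁻¹ * (∑ j, b j • g (B j)) * g c2 * τ (∑ j, b j • g (B j))) q = 0)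
    {ε : ℝ} (hε : 0 < ε) :
    ∃ δ : ℝ, 0 < δ ∧ ∀ β : D, (∀ j, ‖algebraMap k F (B.repr β j) - b j‖ < δ) →
      LinearIndependent k (fun i : Fin n => (c0⁻¹ * β * c2 * star β) ^ (i : ℕ)) ∧
      ∀ m : k[X], m.Monic → m.natDegree = n → aeval (c0⁻¹ * β * c2 * star β) m = 0 →
        ∀ i, ‖algebraMap k F (m.coeff i) - q.coeff i‖ < ε := by
  classical
  let X : (Fin N → F) → A := fun y => ∑ j, y j • g (B j)
  have hX : CtsAt BA X b := by
    intro l
    have h1 : (fun y => BA.repr (X y) l) = fun y : Fin N → F =>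
        ∑ j, y j * BA.repr (g (B j)) l := by
      funext y
      rw [map_sum, Finsupp.finsetSum_apply]
      exact Finset.sum_congr rfl fun j _ => by rw [map_smul, Finsupp.smul_apply, smul_eq_mul]
    rw [h1]
    exact tendsto_finsetSum _ fun j _ => (continuousAt_apply j b).mul continuousAt_const
  let Z : (Fin N → F) → A := fun y => g c0⁻¹ * X y * g c2 * τ (X y)
  have hZ : CtsAt BA Z b :=
    (((CtsAt.const _).mul hX).mul (CtsAt.const _)).mul (hX.linear τ)
  have hev := near_minpoly hZ hli hq hqn hq0 hε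
  obtain ⟨δ, hδ, hball⟩ := Metric.eventually_nhds_iff.mp hev
  refine ⟨δ, hδ, fun β hβ => ?_⟩
  have hXβ : X (fun j => algebraMap k F (B.repr β j)) = g β := by
    conv_rhs => rw [← B.sum_repr β]
    rw [map_sum]
    exact Finset.sum_congr rfl fun j _ => (hg _ _).symm
  have hZβ : Z (fun j => algebraMap k F (B.repr β j)) = g (c0⁻¹ * β * c2 * star β) := by
    change g c0⁻¹ * X _ * g c2 * τ (X _) = _
    rw [hXβ, hτ, map_mul, map_mul, map_mul]
  obtain ⟨h1, h2⟩ := hball (y := fun j => algebraMap k F (B.repr β j)) (by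
    rw [dist_pi_lt_iff hδ]
    intro j
    rw [dist_eq_norm]
    exact hβ j)
  rw [hZβ] at h1 h2
  set z := c0⁻¹ * β * c2 * star β with hz
  refine ⟨?_, fun m hm hmn hm0 i => ?_⟩
  · rw [Fintype.linearIndependent_iff] at h1 ⊢
    intro a ha i
    have h3 := h1 (fun i => algebraMap k F (a i)) (by
      have h4 := congrArg g ha
      rw [map_sum, map_zero] at h4
      rw [← h4]
      exact Finset.sum_congr rfl fun i _ => by rw [hg, map_pow]) i
    exact (map_eq_zero (algebraMap k F)).mp h3
  · have h3 := h2 (m.map (algebraMap k F)) (hm.map _) (by rw [natDegree_map, hmn]) (by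
      rw [aeval_eq_sum_range, natDegree_map]
      rw [aeval_eq_sum_range] at hm0
      have h4 := congrArg g hm0
      rw [map_sum, map_zero] at h4
      rw [← h4]
      exact Finset.sum_congr rfl fun i _ => by rw [hg, map_pow, coeff_map]) i
    rwa [coeff_map] at h3

end

end Vale.Agent.P011.Even
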