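import Vale.Agent.P011.Even.Pattern

/-!
Continuity of the norm of an extension of number fields at a finite place.
-/

open NumberField IsDedekindDomain Module

namespace Vale.Agent.P011.Even

open Arith

variable {F E : Type} [Field F] [NumberField F] [Field E] [NumberField E] [Algebra F E]

/-- Powers of a small element beat a large one. -/
theorem exists_pow_mul_le {a b : Z0} (ha : a < 1) : ∃ N : ℕ, a ^ N * b ≤ 1 := by
  by_cases hb : b = 0
  · exact ⟨0, by simp [hb]⟩
  by_cases ha0 : a = 0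
  · exact ⟨1, by simp [ha0]⟩
  obtain ⟨i, rfl⟩ := Sch.exp_of_ne_zero ha0
  obtain ⟨j, rfl⟩ := Sch.exp_of_ne_zero hb
  rw [← WithZero.exp_zero, WithZero.exp_lt_exp] at ha
  refine ⟨j.toNat, ?_⟩
  rw [← WithZero.exp_nsmul, ← WithZero.exp_add, ← WithZero.exp_zero, WithZero.exp_le_exp,
    nsmul_eq_mul]
  have h1 : j ≤ (j.toNat : ℤ) := Int.self_le_toNat j
  nlinarith [Int.natCast_nonneg j.toNat]

omit [NumberField F] in
theorem val_int_le (w : HeightOneSpectrum (𝓞 E)) (s : 𝓞 F) : w.valuation E (algebraMap F E (s : F)) ≤ 1 := by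
  have h : algebraMap F E (s : F) = algebraMap (𝓞 E) E (algebraMap (𝓞 F) (𝓞 E) s) := by
    rw [← IsScalarTower.algebraMap_apply (𝓞 F) (𝓞 E) E]
    exact (IsScalarTower.algebraMap_apply (𝓞 F) F E s).symm
  rw [h]
  exact w.valuation_le_one _

/-- An element which is integral at the primes above `v` is integral up to a `v`-unit. -/
theorem exists_clear (v : HeightOneSpectrum (𝓞 F)) (x : E)
    (hx : ∀ w : HeightOneSpectrum (𝓞 E), Ab w v → w.valuation E x ≤ 1) :
    ∃ s : 𝓞 F, s ∉ v.asIdeal ∧ ∃ y : 𝓞 E, (y : E) = algebraMap F E (s : F) * x := by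
  classical
  have hT := HeightOneSpectrum.Support.finite (𝓞 E) x
  have hs : ∀ w : HeightOneSpectrum (𝓞 E), ∃ s : 𝓞 F, s ∉ v.asIdeal ∧
      (1 < w.valuation E x → w.valuation E (algebraMap F E (s : F)) * w.valuation E x ≤ 1) := by
    intro w
    by_cases hw : 1 < w.valuation E x
    · obtain ⟨v', hv'⟩ := Arith.exists_below (F := F) w
      have hne : v' ≠ v := by
        rintro rfl
        exact absurd (hx w hv') (not_le.mpr hw)
      obtain ⟨s, hs1, hs2⟩ := exists_lt_one_ge_one hne
      have hws : w.valuation E (algebraMap F E (s : F)) < 1 := by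
        rw [val_lt_one_iff hv']
        exact (HeightOneSpectrum.valuation_lt_one_iff_mem (K := F) v' s).mpr hs1
      obtain ⟨N, hN⟩ := exists_pow_mul_le (b := w.valuation E x) hws
      refine ⟨s ^ N, fun h => hs2 (v.isPrime.mem_of_pow_mem N h), fun _ => ?_⟩
      rw [← map_pow] at hN
      have e : algebraMap F E (((s ^ N : 𝓞 F)) : F) = (algebraMap F E (s : F)) ^ N := by
        rw [show (((s ^ N : 𝓞 F)) : F) = (s : F) ^ N from map_pow (algebraMap (𝓞 F) F) s N, map_pow]
      rw [e]
      exact hN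
    · exact ⟨1, fun h => v.isPrime.ne_top ((Ideal.eq_top_iff_one _).mpr h), fun h => absurd h hw⟩
  choose s hs1 hs2 using hs
  refine ⟨∏ w ∈ hT.toFinset, s w, ?_, ?_⟩
  · intro h
    obtain ⟨w, _, hw⟩ := (v.isPrime.prod_mem_iff).mp h
    exact hs1 w hw
  · have hall : ∀ w : HeightOneSpectrum (𝓞 E),
        w.valuation E (algebraMap F E (((∏ w ∈ hT.toFinset, s w : 𝓞 F)) : F) * x) ≤ 1 := by
      intro w
      rw [map_mul]
      by_cases hw : 1 < w.valuation E x
      · have hwT : w ∈ hT.toFinset := hT.mem_toFinset.mpr hw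
        have h1 := val_int_le w (∏ w ∈ hT.toFinset.erase w, s w)
        rw [← Finset.mul_prod_erase _ _ hwT, show (((s w * ∏ w ∈ hT.toFinset.erase w, s w : 𝓞 F)) : F) =
          (s w : F) * ((∏ w ∈ hT.toFinset.erase w, s w : 𝓞 F) : F) from
            map_mul (algebraMap (𝓞 F) F) _ _, map_mul, map_mul, mul_right_comm]
        calc _ ≤ 1 * 1 := mul_le_mul' (hs2 w hw) h1
          _ = 1 := one_mul 1
      · have h1 := val_int_le w (∏ w ∈ hT.toFinset, s w)
        calc _ ≤ 1 * 1 := mul_le_mul' h1 (not_lt.mp hw)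
          _ = 1 := one_mul 1
    obtain ⟨y, hy⟩ := HeightOneSpectrum.mem_integers_of_valuation_le_one E _ hall
    exact ⟨y, hy⟩

/-- The trace of an element which is integral at the primes above `v`. -/
theorem val_trace_le (v : HeightOneSpectrum (𝓞 F)) (x : E)
    (hx : ∀ w : HeightOneSpectrum (𝓞 E), Ab w v → w.valuation E x ≤ 1) :
    v.valuation F (Algebra.trace F E x) ≤ 1 := by
  obtain ⟨s, hs, y, hy⟩ := exists_clear v x hx
  have h1 : IsIntegral ℤ (Algebra.trace F E (y : E)) :=
    Algebra.isIntegral_trace (RingOfIntegers.isIntegral_coe y)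
  have h2 : Algebra.trace F E (y : E) = (s : F) * Algebra.trace F E x := by
    rw [hy, ← Algebra.smul_def, map_smul, smul_eq_mul]
  have h3 : v.valuation F (s : F) = 1 := by
    have h4 := v.valuation_le_one (K := F) s
    have h5 : ¬ v.valuation F (s : F) < 1 := fun h =>
      hs ((HeightOneSpectrum.valuation_lt_one_iff_mem (K := F) v s).mp h)
    exact le_antisymm h4 (not_lt.mp h5)
  have h4 : v.valuation F (Algebra.trace F E (y : E)) ≤ 1 :=
    v.valuation_le_one (K := F) (⟨_, h1⟩ : 𝓞 F)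
  rwa [h2, map_mul, h3, one_mul] at h4

theorem exists_val_lt_one (v : HeightOneSpectrum (𝓞 F)) : ∃ π : Fˣ, v.valuation F (π : F) < 1 := by
  obtain ⟨π, hπ⟩ := v.valuation_exists_uniformizer F
  have hπ0 : π ≠ 0 := by
    rintro rfl
    rw [map_zero] at hπ
    exact WithZero.exp_ne_zero hπ.symm
  refine ⟨Units.mk0 π hπ0, ?_⟩
  rw [Units.val_mk0, hπ, ← WithZero.exp_zero, WithZero.exp_lt_exp]
  norm_num

/-- The coordinates of a small element are small. -/
theorem coord_small {ι : Type} [Fintype ι] (c : Basis ι F E) (v : HeightOneSpectrum (𝓞 F))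
    (γ : Fˣ) : ∃ η : Fˣ, ∀ x : E, (∀ w : HeightOneSpectrum (𝓞 E), Ab w v →
      w.valuation E x < w.valuation E (algebraMap F E η)) →
      ∀ i, v.valuation F (c.repr x i) < v.valuation F (γ : F) := by
  classical
  obtain ⟨π, hπ⟩ := exists_val_lt_one v
  have : Algebra.IsAlgebraic ℤ E := (IsFractionRing.comap_isAlgebraic_iff (K := ℚ)).mpr
    inferInstance
  obtain ⟨y, hy0, hy⟩ := Algebra.IsAlgebraic.exists_integral_multiples ℤ
    (Finset.univ.image (fun i => c.traceDual i))
  have hyF : (y : F) ≠ 0 := by exact_mod_cast hy0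
  refine ⟨γ * π * Units.mk0 (y : F) hyF, ?_⟩
  intro x hx i
  have h1 : c.repr x i = Algebra.trace F E (x * c.traceDual i) := by
    have h2 := c.traceDual.traceDual_repr_apply x i
    rw [Module.Basis.traceDual_traceDual, Algebra.traceForm_apply] at h2
    exact h2
  have hγπ : ((γ * π : Fˣ) : F) ≠ 0 := (γ * π).ne_zero
  have h3 : v.valuation F (Algebra.trace F E
      ((algebraMap F E ((γ * π : Fˣ) : F))⁻¹ * (x * c.traceDual i))) ≤ 1 := by
    refine val_trace_le v _ fun w hw => ?_
    have h4 := hx w hw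
    have h5 : IsIntegral ℤ (y • c.traceDual i) := hy _ (by simp)
    have h6 : w.valuation E (y • c.traceDual i) ≤ 1 :=
      w.valuation_le_one (K := E) (⟨_, h5⟩ : 𝓞 E)
    have h0 : w.valuation E (algebraMap F E ((γ * π * Units.mk0 (y : F) hyF : Fˣ) : F)) ≠ 0 :=
      (Valuation.ne_zero_iff _).mpr ((map_ne_zero _).mpr (Units.ne_zero _))
    have e : (algebraMap F E ((γ * π : Fˣ) : F))⁻¹ * (x * c.traceDual i) =
        (x / algebraMap F E ((γ * π * Units.mk0 (y : F) hyF : Fˣ) : F)) * (y • c.traceDual i) := by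
      have h7 : algebraMap F E ((γ * π : Fˣ) : F) ≠ 0 := (map_ne_zero _).mpr hγπ
      have h8 : (y : E) ≠ 0 := by exact_mod_cast hy0
      have h9 : algebraMap F E ((γ * π * Units.mk0 (y : F) hyF : Fˣ) : F) =
          algebraMap F E ((γ * π : Fˣ) : F) * (y : E) := by
        rw [Units.val_mul (γ * π), map_mul, Units.val_mk0, map_intCast]
      rw [h9, zsmul_eq_mul]
      field_simp
    rw [e, map_mul, map_div₀]
    calc _ ≤ 1 * 1 := mul_le_mul' ((div_lt_one₀ (zero_lt_iff.mpr h0)).mpr h4).le h6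
      _ = 1 := one_mul 1
  rw [← map_inv₀, ← Algebra.smul_def, map_smul, smul_eq_mul, ← h1, map_mul, map_inv₀,
    inv_mul_le_one₀ (zero_lt_iff.mpr ((Valuation.ne_zero_iff _).mpr hγπ))] at h3
  refine h3.trans_lt ?_
  rw [Units.val_mul, map_mul]
  have h0 : 0 < v.valuation F (γ : F) := zero_lt_iff.mpr ((Valuation.ne_zero_iff _).mpr γ.ne_zero)
  calc _ < v.valuation F (γ : F) * 1 := (mul_lt_mul_iff_right₀ h0).mpr hπ
    _ = _ := mul_one _

/-- The determinant of a matrix close to the identity. -/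
theorem det_near_one {F : Type} [Field F] (v : Valuation F Z0) {ι : Type} [Fintype ι]
    [DecidableEq ι] (M : Matrix ι ι F) (γ : F) (hγ : v γ ≤ 1) (hγ0 : v γ ≠ 0)
    (hM : ∀ i j, v ((M - 1) i j) < v γ) : v (M.det - 1) < v γ := by
  let A : Subring F := v.integer
  let I : Ideal A :=
    { carrier := {x | v (x : F) < v γ}
      add_mem' := fun {x y} hx hy => v.map_add_lt hx hy
      zero_mem' := by
        change v ((0 : A) : F) < v γ
        simpa using zero_lt_iff.mpr hγ0
      smul_mem' := fun c x hx => by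
        change v ((c • x : A) : F) < v γ
        have h1 : v (c : F) ≤ 1 := c.2
        have h2 : v (x : F) < v γ := hx
        rw [smul_eq_mul, Subring.coe_mul, map_mul]
        calc _ ≤ 1 * v (x : F) := mul_le_mul' h1 le_rfl
          _ < v γ := by rwa [one_mul] }
  have hint : ∀ i j, v ((M - 1) i j) ≤ 1 := fun i j => (hM i j).le.trans hγ
  let N : Matrix ι ι A := Matrix.of fun i j => ⟨(M - 1) i j, hint i j⟩
  have hN : (A.subtype).mapMatrix (1 + N) = M := by
    rw [map_add, map_one]
    ext i j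
    simp [N]
  have h1 : Ideal.Quotient.mk I ((1 + N).det) = 1 := by
    rw [RingHom.map_det, map_add, map_one]
    have : (Ideal.Quotient.mk I).mapMatrix N = 0 := by
      ext i j
      simp only [RingHom.mapMatrix_apply, Matrix.map_apply, Matrix.zero_apply]
      exact Ideal.Quotient.eq_zero_iff_mem.mpr (hM i j)
    rw [this, add_zero, Matrix.det_one]
  have h2 : (1 + N).det - 1 ∈ I := by
    rw [← Ideal.Quotient.eq_zero_iff_mem, map_sub, h1, map_one, sub_self]
  have h3 : (((1 + N).det - 1 : A) : F) = M.det - 1 := by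
    rw [← hN, ← RingHom.map_det]
    simp
  have h4 : v ((((1 + N).det - 1 : A)) : F) < v γ := h2
  rwa [h3] at h4

/-- Continuity of the norm at `1`. -/
theorem norm_near_one (v : HeightOneSpectrum (𝓞 F)) (γ : Fˣ) (hγ : v.valuation F (γ : F) ≤ 1) :
    ∃ η : Fˣ, ∀ x : E, (∀ w : HeightOneSpectrum (𝓞 E), Ab w v →
      w.valuation E (x - 1) < w.valuation E (algebraMap F E η)) →
      v.valuation F (Algebra.norm F x - 1) < v.valuation F (γ : F) := by
  classical
  let c := Module.finBasis F E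
  -- bound for the matrices of the basis elements
  obtain ⟨κ, hκ⟩ : ∃ κ : Fˣ, ∀ k i j, v.valuation F ((κ : F) * Algebra.leftMulMatrix c (c k) i j) ≤ 1 := by
    obtain ⟨π, hπ⟩ := exists_val_lt_one v
    have h1 : ∀ k i j, ∃ N : ℕ, (v.valuation F (π : F)) ^ N *
        v.valuation F (Algebra.leftMulMatrix c (c k) i j) ≤ 1 := fun k i j =>
      exists_pow_mul_le hπ
    choose N hN using h1
    refine ⟨π ^ (∑ k, ∑ i, ∑ j, N k i j), fun k i j => ?_⟩
    have hle : N k i j ≤ ∑ k, ∑ i, ∑ j, N k i j :=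
      (Finset.single_le_sum (f := fun j => N k i j) (fun _ _ => Nat.zero_le _)
        (Finset.mem_univ j)).trans
      ((Finset.single_le_sum (f := fun i => ∑ j, N k i j) (fun _ _ => Nat.zero_le _)
        (Finset.mem_univ i)).trans
        (Finset.single_le_sum (f := fun k => ∑ i, ∑ j, N k i j) (fun _ _ => Nat.zero_le _)
        (Finset.mem_univ k)))
    rw [map_mul, Units.val_pow_eq_pow_val, map_pow]
    calc _ ≤ (v.valuation F (π : F)) ^ (N k i j) *
        v.valuation F (Algebra.leftMulMatrix c (c k) i j) :=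
          mul_le_mul' (pow_le_pow_right_of_le_one' hπ.le hle) le_rfl
      _ ≤ 1 := hN k i j
  obtain ⟨η, hη⟩ := coord_small c v (γ * κ)
  refine ⟨η, fun x hx => ?_⟩
  rw [Algebra.norm_eq_matrix_det c]
  refine det_near_one _ _ _ hγ ((Valuation.ne_zero_iff _).mpr γ.ne_zero) ?_
  intro i j
  have h1 : Algebra.leftMulMatrix c x - 1 =
      ∑ k, c.repr (x - 1) k • Algebra.leftMulMatrix c (c k) := by
    rw [← map_one (Algebra.leftMulMatrix c), ← map_sub]
    conv_lhs => rw [← c.sum_repr (x - 1)]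
    rw [map_sum]
    exact Finset.sum_congr rfl fun k _ => map_smul _ _ _
  rw [h1, Matrix.sum_apply]
  refine (v.valuation F).map_sum_lt ((Valuation.ne_zero_iff _).mpr γ.ne_zero) fun k _ => ?_
  rw [Matrix.smul_apply, smul_eq_mul, map_mul]
  have h2 := hη (x - 1) hx k
  have h3 := hκ k i j
  rw [Units.val_mul, map_mul] at h2
  rw [map_mul] at h3
  have hκ0 : v.valuation F (κ : F) ≠ 0 := (Valuation.ne_zero_iff _).mpr κ.ne_zero
  rcases eq_or_ne (v.valuation F (Algebra.leftMulMatrix c (c k) i j)) 0 with h0 | h0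
  · rw [h0, mul_zero]
    exact zero_lt_iff.mpr ((Valuation.ne_zero_iff _).mpr γ.ne_zero)
  calc _ < v.valuation F (γ : F) * v.valuation F (κ : F) *
        v.valuation F (Algebra.leftMulMatrix c (c k) i j) :=
          (mul_lt_mul_iff_left₀ (zero_lt_iff.mpr h0)).mpr h2
    _ = v.valuation F (γ : F) * (v.valuation F (κ : F) *
        v.valuation F (Algebra.leftMulMatrix c (c k) i j)) := mul_assoc _ _ _
    _ ≤ v.valuation F (γ : F) * 1 := mul_le_mul' le_rfl h3
    _ = _ := mul_one _

end Vale.Agent.P011.Even
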