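import Vale.Agent.P011.Even.NormCont

/-!
Norms of local norms are local norms.
-/

open NumberField IsDedekindDomain Module

namespace Vale.Agent.P011.Even

open Arith

section near

variable {F : Type} [Field F]

/-- The elements close to `1`. -/
def UG (w : Valuation F Z0) (g : Z0) (hg0 : g ≠ 0) (hg : g ≤ 1) : Subgroup Fˣ where
  carrier := {x | w ((x : F) - 1) < g}
  mul_mem' := by
    intro x y hx hy
    have hx' : w ((x : F) - 1) < g := hx
    have hy' : w ((y : F) - 1) < g := hy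
    change w (((x * y : Fˣ) : F) - 1) < g
    have e : ((x * y : Fˣ) : F) - 1 = ((x : F) - 1) + ((y : F) - 1) + ((x : F) - 1) * ((y : F) - 1) := by
      rw [Units.val_mul]; ring
    rw [e]
    refine w.map_add_lt (w.map_add_lt hx' hy') ?_
    rw [map_mul]
    calc _ ≤ w ((x : F) - 1) * 1 := mul_le_mul' le_rfl (hy'.le.trans hg)
      _ < g := by rwa [mul_one]
  one_mem' := by
    change w (((1 : Fˣ) : F) - 1) < g
    simpa using zero_lt_iff.mpr hg0
  inv_mem' := by
    intro x hx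
    have hx' : w ((x : F) - 1) < g := hx
    change w (((x⁻¹ : Fˣ) : F) - 1) < g
    have h1 : w (x : F) = 1 := by
      have := w.map_one_add_of_lt (x := (x : F) - 1) (hx'.trans_le hg)
      rwa [add_sub_cancel] at this
    have e : ((x⁻¹ : Fˣ) : F) - 1 = -(((x : F) - 1) / x) := by
      rw [Units.val_inv_eq_inv_val]
      field_simp
      ring
    rw [e, Valuation.map_neg, map_div₀, h1, div_one]
    exact hx'

theorem mem_UG {w : Valuation F Z0} {g : Z0} {hg0 : g ≠ 0} {hg : g ≤ 1} {x : Fˣ} :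
    x ∈ UG w g hg0 hg ↔ w ((x : F) - 1) < g := Iff.rfl

/-- Closeness of two elements gives closeness of their quotient to `1`. -/
theorem div_near {w : Valuation F Z0} {x y : Fˣ} {g : Z0} (h : w ((x : F) - y) < g * w (y : F)) :
    w (((x / y : Fˣ) : F) - 1) < g := by
  have h0 : w (y : F) ≠ 0 := (Valuation.ne_zero_iff _).mpr y.ne_zero
  have e : ((x / y : Fˣ) : F) - 1 = ((x : F) - y) / y := by
    rw [Units.val_div_eq_div_val]
    have := y.ne_zero
    field_simp
  rw [e, map_div₀, div_lt_iff₀ (zero_lt_iff.mpr h0)]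
  exact h

end near

variable {F : Type} [Field F] [NumberField F]

/-- An element that is a local norm at finitely many places is close to a norm times a
square. -/
theorem near_norm {S : Set (HeightOneSpectrum (𝓞 F))} (hS : S.Finite) (a c : Fˣ)
    (h : ∀ v ∈ S, c ∈ NF a ⊔ LS (v.valuation F)) (ε : HeightOneSpectrum (𝓞 F) → Fˣ) :
    ∃ z ∈ NF a, ∃ t : Fˣ, ∀ v ∈ S,
      v.valuation F (((c / (z * t ^ 2) : Fˣ) : F) - 1) < v.valuation F (ε v : F) := by
  classical
  rcases S.eq_empty_or_nonempty with rfl | ⟨v₀, hv₀⟩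
  · exact ⟨1, Subgroup.one_mem _, 1, by simp⟩
  -- radii at most one
  obtain ⟨e, he1, he2⟩ : ∃ e : HeightOneSpectrum (𝓞 F) → Fˣ, (∀ v : HeightOneSpectrum (𝓞 F), v.valuation F (e v : F) ≤ 1) ∧
      ∀ v : HeightOneSpectrum (𝓞 F), v.valuation F (e v : F) ≤ v.valuation F (ε v : F) := by
    have h1 : ∀ v : HeightOneSpectrum (𝓞 F), ∃ e : Fˣ, v.valuation F (e : F) ≤ 1 ∧
        v.valuation F (e : F) ≤ v.valuation F (ε v : F) := by
      intro v
      by_cases h : v.valuation F (ε v : F) ≤ 1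
      · exact ⟨ε v, h, le_rfl⟩
      · exact ⟨1, by simp, by simpa using (not_le.mp h).le⟩
    choose e he using h1
    exact ⟨e, fun v => (he v).1, fun v => (he v).2⟩
  have hg0 : ∀ v : HeightOneSpectrum (𝓞 F), v.valuation F (e v : F) ≠ 0 := fun v =>
    (Valuation.ne_zero_iff _).mpr (e v).ne_zero
  -- local data
  have hloc : ∀ v : HeightOneSpectrum (𝓞 F), ∃ (z l t : Fˣ) (x y : F), v ∈ S →
      (z : F) = x ^ 2 - a * y ^ 2 ∧ c = z * l ∧
      v.valuation F (((l / t ^ 2 : Fˣ) : F) - 1) < v.valuation F (e v : F) := by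
    intro v
    by_cases hv : v ∈ S
    · obtain ⟨z, ⟨x, y, hz⟩, l, hl, hc⟩ := Subgroup.mem_sup.mp (h v hv)
      obtain ⟨t, ht⟩ := LS_newton' hl (hg0 v)
      refine ⟨z, l, t, x, y, fun _ => ⟨hz, hc.symm, ?_⟩⟩
      rw [Units.val_div_eq_div_val, Units.val_pow_eq_pow_val]
      exact ht
    · exact ⟨1, 1, 1, 0, 0, fun h => absurd h hv⟩
  choose z l t x y hloc using hloc
  have hpos : ∀ (v : HeightOneSpectrum (𝓞 F)) (u : Fˣ), 0 < plAbv (Sum.inl v) (u : F) :=
    fun v u => (plAbv (Sum.inl v)).pos u.ne_zero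
  choose δX hδX hδX' using fun v : HeightOneSpectrum (𝓞 F) => Sch.plAbv_near (Sum.inl v) (x v)
    (M := plAbv (Sum.inl v) ((e v * z v : Fˣ) : F)) (hpos v _)
  choose δY hδY hδY' using fun v : HeightOneSpectrum (𝓞 F) => Sch.plAbv_near (Sum.inl v) (y v)
    (M := plAbv (Sum.inl v) ((e v * z v / a : Fˣ) : F)) (hpos v _)
  choose δt hδt hδt' using fun v : HeightOneSpectrum (𝓞 F) => Sch.plAbv_near (Sum.inl v) (t v : F)
    (M := plAbv (Sum.inl v) ((e v * t v ^ 2 : Fˣ) : F)) (hpos v _)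
  have key : ∀ (f : HeightOneSpectrum (𝓞 F) → F) (δ : HeightOneSpectrum (𝓞 F) → ℝ)
      (_ : ∀ v, 0 < δ v), ∃ r : F, ∀ v ∈ S, plAbv (Sum.inl v) (r - f v) < δ v := by
    intro f δ hδ
    obtain ⟨r, hr⟩ := approx (Sum.inl '' S) (hS.image _) (Sum.elim f fun _ => 0)
      (Sum.elim δ fun _ => 1) (by rintro (v | φ); exacts [hδ v, one_pos])
    exact ⟨r, fun v hv => hr (Sum.inl v) ⟨v, hv, rfl⟩⟩
  obtain ⟨X, hX⟩ := key x δX hδX
  obtain ⟨Y, hY⟩ := key y δY hδY
  obtain ⟨T, hT⟩ := key (fun v => (t v : F)) δt hδt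
  have hz : ∀ v ∈ S, v.valuation F ((X ^ 2 - a * Y ^ 2) - z v) <
      v.valuation F (e v : F) * v.valuation F (z v : F) := by
    intro v hv
    have h1 := hδX' v X (hX v hv)
    have h2 := hδY' v Y (hY v hv)
    rw [plAbv_lt] at h1 h2
    have e1 : (X ^ 2 - a * Y ^ 2) - z v = (X ^ 2 - x v ^ 2) - a * (Y ^ 2 - y v ^ 2) := by
      rw [(hloc v hv).1]; ring
    rw [e1, ← map_mul, ← Units.val_mul]
    refine (v.valuation F).map_sub_lt h1 ?_
    rw [map_mul]
    rw [Units.val_div_eq_div_val, map_div₀, lt_div_iff₀ (zero_lt_iff.mpr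
      ((Valuation.ne_zero_iff _).mpr a.ne_zero)), mul_comm] at h2
    exact h2
  have ht : ∀ v ∈ S, v.valuation F (T ^ 2 - t v ^ 2) <
      v.valuation F (e v : F) * v.valuation F (((t v) ^ 2 : Fˣ) : F) := by
    intro v hv
    have h1 := hδt' v T (hT v hv)
    rw [plAbv_lt] at h1
    rw [← map_mul, ← Units.val_mul]
    exact h1
  have hne : ∀ (v : HeightOneSpectrum (𝓞 F)) (r : F) (u : Fˣ), v.valuation F (r - u) <
      v.valuation F (e v : F) * v.valuation F (u : F) → r ≠ 0 := by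
    rintro v r u h1 rfl
    rw [zero_sub, Valuation.map_neg] at h1
    refine absurd h1 (not_lt.mpr ?_)
    calc _ ≤ 1 * v.valuation F (u : F) := mul_le_mul' (he1 v) le_rfl
      _ = _ := one_mul _
  have hZ0 := hne v₀ _ _ (hz v₀ hv₀)
  have hT0 : T ≠ 0 := by
    have h1 := hne v₀ (T ^ 2) ((t v₀) ^ 2) (by
      rw [Units.val_pow_eq_pow_val]
      simpa [Units.val_pow_eq_pow_val] using ht v₀ hv₀)
    exact fun h => h1 (by rw [h]; ring)
  refine ⟨Units.mk0 _ hZ0, ⟨X, Y, rfl⟩, Units.mk0 T hT0, fun v hv => ?_⟩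
  refine lt_of_lt_of_le ?_ (he2 v)
  obtain ⟨hl1, hl2, hl3⟩ := hloc v hv
  have m1 : Units.mk0 _ hZ0 / z v ∈ UG (v.valuation F) _ (hg0 v) (he1 v) :=
    div_near (by rw [Units.val_mk0]; exact hz v hv)
  have m2 : Units.mk0 T hT0 ^ 2 / t v ^ 2 ∈ UG (v.valuation F) _ (hg0 v) (he1 v) :=
    div_near (by
      rw [Units.val_pow_eq_pow_val, Units.val_pow_eq_pow_val, Units.val_mk0]
      simpa [Units.val_pow_eq_pow_val] using ht v hv)
  have m3 : l v / t v ^ 2 ∈ UG (v.valuation F) _ (hg0 v) (he1 v) := hl3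
  have e2 : c / (Units.mk0 _ hZ0 * Units.mk0 T hT0 ^ 2) =
      (l v / t v ^ 2) / ((Units.mk0 _ hZ0 / z v) * (Units.mk0 T hT0 ^ 2 / t v ^ 2)) := by
    rw [hl2, div_mul_div_comm, div_div_div_eq, div_eq_div_iff_mul_eq_mul]
    simp only [mul_assoc, mul_comm, mul_left_comm]
  rw [e2]
  exact (UG (v.valuation F) _ (hg0 v) (he1 v)).div_mem m3
    ((UG (v.valuation F) _ (hg0 v) (he1 v)).mul_mem m1 m2)

variable {E : Type} [Field E] [NumberField E] [Algebra F E]

omit [NumberField F] [NumberField E] in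
theorem inc_val (x : Fˣ) : ((inc F E x : Eˣ) : E) = algebraMap F E (x : F) := rfl

omit [NumberField F] [NumberField E] in
theorem nrm_val (x : Eˣ) : ((nrm F E x : Fˣ) : F) = Algebra.norm F (x : E) := rfl

/-- The norm of a global norm from `E(√b)` is a norm from `F(√b)`. -/
theorem nrm_mem_NF {b : Fˣ} {z : Eˣ} (hz : z ∈ NF (inc F E b)) : nrm F E z ∈ NF b := by
  classical
  by_cases hb : IsSquare (b : F)
  · rw [NF_eq_top (mem_Sq_iff.mpr hb)]
    exact Subgroup.mem_top _
  obtain ⟨X, Y, hXY⟩ := hz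
  obtain ⟨L, _, _, _, h2, θ, hθ⟩ := exists_quad b hb
  obtain ⟨σ, Q⟩ := exists_QD h2 hθ hb
  let c := Module.finBasis F E
  let f := algebraMap F L
  let MX : Matrix _ _ L := f.mapMatrix (Algebra.leftMulMatrix c X)
  let MY : Matrix _ _ L := f.mapMatrix (Algebra.leftMulMatrix c Y)
  have hcomm : MX * MY = MY * MX := by
    simp only [MX, MY]
    rw [← map_mul, ← map_mul, ← map_mul, ← map_mul, mul_comm X Y]
  have h1 : (MX + θ • MY).det * (MX - θ • MY).det = f (Algebra.norm F (z : E)) := by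
    rw [← Matrix.det_mul, Algebra.norm_eq_matrix_det c, RingHom.map_det]
    congr 1
    have e1 : (z : E) = X * X - algebraMap F E (b : F) * (Y * Y) := by
      rw [hXY, inc_val]; ring
    rw [e1, map_sub, map_sub, ← Algebra.smul_def, map_smul, map_mul, map_mul, map_mul]
    have e2 : f.mapMatrix ((b : F) • (Algebra.leftMulMatrix c Y * Algebra.leftMulMatrix c Y)) =
        (θ * θ) • (MY * MY) := by
      ext i j
      simp only [RingHom.mapMatrix_apply, Matrix.map_apply, Matrix.smul_apply, smul_eq_mul,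
        map_mul]
      have e3 : θ * θ = f (b : F) := by rw [← sq]; exact hθ
      rw [e3]
      congr 1
      have e4 : (f.mapMatrix (Algebra.leftMulMatrix c Y * Algebra.leftMulMatrix c Y)) i j =
        (MY * MY) i j := by rw [map_mul]
      exact e4
    rw [e2, add_mul, mul_sub, mul_sub, smul_mul_smul_comm, Matrix.smul_mul, Matrix.mul_smul,
      hcomm]
    abel
  have h3 : σ ((MX + θ • MY).det) = (MX - θ • MY).det := by
    have e5 : σ ((MX + θ • MY).det) = ((σ : L →+* L).mapMatrix (MX + θ • MY)).det := by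
      exact RingHom.map_det (σ : L →+* L) (MX + θ • MY)
    rw [e5]
    congr 1
    ext i j
    simp only [RingHom.mapMatrix_apply, Matrix.map_apply, Matrix.add_apply, Matrix.sub_apply,
      Matrix.smul_apply, smul_eq_mul, map_add, map_mul, MX, MY, f]
    have e6 : ∀ r : F, (σ : L →+* L) (algebraMap F L r) = algebraMap F L r := fun r => σ.commutes r
    rw [e6, e6]
    have e7 : (σ : L →+* L) θ = -θ := Q.conj
    rw [e7]
    ring
  obtain ⟨p, q, hpq⟩ := coords h2 hθ hb (MX + θ • MY).det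
  have h4 := Q.norm_coords p q
  rw [← hpq, h3, h1] at h4
  exact ⟨p, q, (algebraMap F L).injective h4⟩

/-- I2 at a finite place: the norm of an element that is a norm from `E(√b)` at all primes above
`v` is a norm from `F(√b)` at `v`. -/
theorem nrm_local (v : HeightOneSpectrum (𝓞 F)) (b : Fˣ) (c : Eˣ)
    (h : ∀ w : HeightOneSpectrum (𝓞 E), Ab w v → c ∈ NF (inc F E b) ⊔ LS (w.valuation E)) :
    nrm F E c ∈ NF b ⊔ LS (v.valuation F) := by
  have h40 : (4 : F) ≠ 0 := by norm_num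
  obtain ⟨η, hη⟩ := norm_near_one (E := E) v (Units.mk0 (4 : F) h40) (val_four_le _)
  obtain ⟨z, hz, t, ht⟩ := near_norm (above_finite (E := E) v) (inc F E b) c
    (fun w hw => h w hw) (fun _ => inc F E η)
  have h1 := hη ((c / (z * t ^ 2) : Eˣ) : E) (fun w hw => ht w hw)
  rw [← nrm_val, Units.val_mk0] at h1
  have h2 : nrm F E (c / (z * t ^ 2)) ∈ LS (v.valuation F) := LS_of_close h1
  have h3 : nrm F E c = nrm F E (c / (z * t ^ 2)) * (nrm F E z * (nrm F E t) ^ 2) := by
    rw [← map_pow, ← map_mul, ← map_mul, div_mul_cancel]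
  rw [h3]
  refine Subgroup.mul_mem _ (Subgroup.mem_sup_right h2) (Subgroup.mul_mem _
    (Subgroup.mem_sup_left (nrm_mem_NF hz)) (Subgroup.mem_sup_right (sq_mem_LS _)))

end Vale.Agent.P011.Even
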