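import Vale.Agent.P011.Even.RealPar

/-!
Elements with prescribed norm classes and signs.
-/

open NumberField IsDedekindDomain Module

namespace Vale.Agent.P011.Even

open Arith

variable {F : Type} [Field F] [NumberField F] {E : Type} [Field E] [NumberField E] [Algebra F E]

theorem exists_place_below (q : Pl E) : ∃ p : Pl F, Above q p := by
  rcases q with w | ψ
  · obtain ⟨v, hv⟩ := Arith.exists_below (F := F) w
    exact ⟨.inl v, hv⟩
  · exact ⟨.inr (ψ.comp (algebraMap F E)), rfl⟩

theorem above_unique {q : Pl E} {p p' : Pl F} (h : Above q p) (h' : Above q p') : p = p' := by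
  rcases q with w | ψ <;> rcases p with v | φ <;> rcases p' with v' | φ'
  · exact congrArg Sum.inl (below_unique h h')
  · exact absurd h' (by simp [Above])
  · exact absurd h (by simp [Above])
  · exact absurd h (by simp [Above])
  · exact absurd h (by simp [Above])
  · exact absurd h (by simp [Above])
  · exact absurd h' (by simp [Above])
  · have h1 : ψ.comp (algebraMap F E) = φ := h
    have h2 : ψ.comp (algebraMap F E) = φ' := h'
    rw [← h1, ← h2]

theorem above_set_finite (p : Pl F) : {q : Pl E | Above q p}.Finite := by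
  rcases p with v | φ
  · refine ((above_finite (E := E) v).image Sum.inl).subset ?_
    rintro (w | ψ) h
    · exact ⟨w, h, rfl⟩
    · exact absurd h (by simp [Above])
  · refine (Set.finite_range (Sum.inr : (E →+* ℝ) → Pl E)).subset ?_
    rintro (w | ψ) h
    · exact absurd h (by simp [Above])
    · exact ⟨ψ, rfl⟩

theorem notMem_bad_inl {a b : Fˣ} {v : HeightOneSpectrum (𝓞 F)} :
    (Sum.inl v : Pl F) ∉ bad a b ↔ b ∈ NF a ⊔ LS (v.valuation F) := by
  rw [notMem_bad]
  rfl

theorem notMem_bad_inr {a b : Fˣ} {φ : F →+* ℝ} :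
    (Sum.inr φ : Pl F) ∉ bad a b ↔ b ∈ NF a ⊔ LSR φ := by
  rw [notMem_bad]
  rfl

/-- The places at which the norm of any element is controlled by the number of bad places
above. -/
def Par (E : Type) [Field E] [NumberField E] [Algebra F E] (d : Fˣ) (p : Pl F) : Prop :=
  ∀ c : Eˣ, (p ∉ bad d (nrm F E c) ↔ Even {q : Pl E | Above q p ∧ q ∈ bad (inc F E d) c}.ncard)

theorem par_inl {v : HeightOneSpectrum (𝓞 F)} (hv : TotSplit E v) (d : Fˣ) :
    Par E d (Sum.inl v) := by
  intro c
  have h1 : {q : Pl E | Above q (Sum.inl v) ∧ q ∈ bad (inc F E d) c} =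
      Sum.inl '' {w : HeightOneSpectrum (𝓞 E) | Ab w v ∧
        c ∉ NF (inc F E d) ⊔ LS (w.valuation E)} := by
    ext q
    rcases q with w | ψ
    · simp only [Set.mem_ofPred_eq, Set.mem_image, Sum.inl.injEq, exists_eq_right]
      exact Iff.rfl
    · simp [Above]
  rw [h1, Set.ncard_image_of_injective _ Sum.inl_injective, notMem_bad_inl]
  exact parity_split hv d c

theorem par_inr (φ : F →+* ℝ) (d : Fˣ) : Par E d (Sum.inr φ) := by
  intro c
  have h1 : {q : Pl E | Above q (Sum.inr φ) ∧ q ∈ bad (inc F E d) c} =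
      Sum.inr '' {ψ : E →+* ℝ | ψ.comp (algebraMap F E) = φ ∧
        c ∉ NF (inc F E d) ⊔ LSR ψ} := by
    ext q
    rcases q with w | ψ
    · simp [Above]
    · simp only [Set.mem_ofPred_eq, Set.mem_image, Sum.inr.injEq, exists_eq_right]
      exact Iff.rfl
  rw [h1, Set.ncard_image_of_injective _ Sum.inr_injective, notMem_bad_inr]
  exact parity_real φ d c

/-- I2 at all places. -/
theorem nrm_good {d : Fˣ} {c : Eˣ} {p : Pl F}
    (h : ∀ q : Pl E, Above q p → q ∉ bad (inc F E d) c) : p ∉ bad d (nrm F E c) := by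
  rcases p with v | φ
  · rw [notMem_bad_inl]
    exact nrm_local v d c fun w hw => notMem_bad_inl.mp (h (Sum.inl w) hw)
  · rw [par_inr]
    have : {q : Pl E | Above q (Sum.inr φ) ∧ q ∈ bad (inc F E d) c} = ∅ := by
      ext q
      simp only [Set.mem_ofPred_eq, Set.mem_empty_iff_false, iff_false, not_and]
      exact h q
    rw [this]
    simp

/-- The bad places of a norm. -/
theorem bad_nrm {d : Fˣ} {T : Set (Pl F)} (hT : ∀ p ∈ T, Par E d p) {c : Eˣ}
    (hc : ∀ q ∈ bad (inc F E d) c, ∃ p ∈ T, Above q p) :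
    bad d (nrm F E c) = {p | p ∈ T ∧ Odd {q : Pl E | Above q p ∧ q ∈ bad (inc F E d) c}.ncard} := by
  ext p
  by_cases hp : p ∈ T
  · have h1 := hT p hp c
    simp only [Set.mem_ofPred_eq, hp, true_and]
    rw [← Nat.not_even_iff_odd, ← h1, not_not]
  · simp only [Set.mem_ofPred_eq, hp, false_and, iff_false]
    refine nrm_good fun q hq hqb => ?_
    obtain ⟨p', hp', hqp'⟩ := hc q hqb
    exact hp (above_unique hq hqp' ▸ hp')

section main

variable {d : Fˣ} (hd : ¬ IsSquare (algebraMap F E (d : F))) {T : Set (Pl F)} (hTf : T.Finite)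
    (hT : ∀ p ∈ T, Par E d p) (hT' : ∀ p ∈ T, ∀ q : Pl E, Above q p → inc F E d ∉ LSp q)

include hT in
/-- If a place above a place of `T` is isolated then so is the place below. -/
theorem isol_below {p : Pl F} (hp : p ∈ T) {q : Pl E} (hq : Above q p)
    (h : Isol (inc F E d) q) : Isol d p := by
  obtain ⟨c, hc⟩ := h
  refine ⟨nrm F E c, ?_⟩
  rw [bad_nrm hT (c := c) (by
    rw [hc]
    rintro q' rfl
    exact ⟨p, hp, hq⟩), hc]
  ext p'
  simp only [Set.mem_ofPred_eq, Set.mem_singleton_iff]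
  constructor
  · rintro ⟨_, h1⟩
    by_contra hne
    have : {q_1 | Above q_1 p' ∧ q_1 = q} = (∅ : Set (Pl E)) := by
      ext q'
      simp only [Set.mem_ofPred_eq, Set.mem_empty_iff_false, iff_false, not_and]
      rintro h2 rfl
      exact hne (above_unique h2 hq)
    rw [this] at h1
    simp at h1
  · rintro rfl
    refine ⟨hp, ?_⟩
    have : {q_1 | Above q_1 p' ∧ q_1 = q} = ({q} : Set (Pl E)) := by
      ext q'
      simp only [Set.mem_ofPred_eq, Set.mem_singleton_iff]
      constructor
      · exact fun h => h.2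
      · rintro rfl
        exact ⟨hq, rfl⟩
    rw [this]
    simp

include hd hT hT' in
/-- If `T` contains a place which is not isolated then the isolated places above `T` are exactly
those above the isolated ones. -/
theorem isol_above {p₀ : Pl F} (hp₀ : p₀ ∈ T) (hq₀ : ∃ q₀ : Pl E, Above q₀ p₀)
    (hJ : ¬ Isol d p₀) {p : Pl F} (hp : p ∈ T) {q : Pl E} (hq : Above q p) (h : Isol d p) :
    Isol (inc F E d) q := by
  classical
  obtain ⟨q₀, hq₀⟩ := hq₀
  by_contra hcon
  have h0 : ¬ Isol (inc F E d) q₀ := fun h => hJ (isol_below hT hp₀ hq₀ h)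
  have hne : p ≠ p₀ := by
    rintro rfl
    exact hJ h
  have hqne : q ≠ q₀ := by
    rintro rfl
    exact hne (above_unique hq hq₀)
  obtain ⟨c, hc⟩ := exists_bad_pair (a := inc F E d) hd hqne (hT' p hp q hq) (hT' p₀ hp₀ q₀ hq₀)
    hcon h0
  obtain ⟨b, hb⟩ := h
  apply hJ
  refine ⟨nrm F E c * b, ?_⟩
  rw [bad_mul, hb, bad_nrm hT (c := c) (by
    rw [hc]
    rintro q' (rfl | rfl)
    · exact ⟨p, hp, hq⟩
    · exact ⟨p₀, hp₀, hq₀⟩), hc]
  have h1 : ∀ p', {q' | Above q' p' ∧ q' ∈ ({q, q₀} : Set (Pl E))}.ncard =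
      if p' = p ∨ p' = p₀ then 1 else 0 := by
    intro p'
    by_cases h2 : p' = p
    · subst h2
      have : {q' | Above q' p' ∧ q' ∈ ({q, q₀} : Set (Pl E))} = {q} := by
        ext q'
        simp only [Set.mem_ofPred_eq, Set.mem_singleton_iff, Set.mem_insert_iff]
        constructor
        · rintro ⟨h3, rfl | rfl⟩
          · rfl
          · exact absurd (above_unique h3 hq₀) hne
        · rintro rfl
          exact ⟨hq, Or.inl rfl⟩
      rw [this]
      simp
    · by_cases h3 : p' = p₀
      · subst h3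
        have : {q' | Above q' p' ∧ q' ∈ ({q, q₀} : Set (Pl E))} = {q₀} := by
          ext q'
          simp only [Set.mem_ofPred_eq, Set.mem_singleton_iff, Set.mem_insert_iff]
          constructor
          · rintro ⟨h3, rfl | rfl⟩
            · exact absurd (above_unique h3 hq) h2
            · rfl
          · rintro rfl
            exact ⟨hq₀, Or.inr rfl⟩
        rw [this]
        simp
      · have : {q' | Above q' p' ∧ q' ∈ ({q, q₀} : Set (Pl E))} = ∅ := by
          ext q'
          simp only [Set.mem_ofPred_eq, Set.mem_empty_iff_false, iff_false, not_and,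
            Set.mem_insert_iff, Set.mem_singleton_iff]
          rintro h4 (rfl | rfl)
          · exact h2 (above_unique h4 hq)
          · exact h3 (above_unique h4 hq₀)
        rw [this, if_neg (by tauto)]
        simp
  ext p'
  simp only [Set.mem_symmDiff, Set.mem_ofPred_eq, Set.mem_singleton_iff, h1]
  by_cases h2 : p' = p
  · subst h2
    simp [hp, hne]
  · by_cases h3 : p' = p₀
    · subst h3
      simp [h2, hp₀]
    · simp [h2, h3]

include hd hTf hT hT' in
/-- PNC: elements with prescribed bad places above `T` exist as soon as the norm does. -/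
theorem exists_bad_above (hJ : ∃ p₀ ∈ T, ¬ Isol d p₀ ∧ ∃ q₀ : Pl E, Above q₀ p₀)
    (a : Fˣ) (ha : bad d a ⊆ T) {B : Set (Pl E)} (hB : ∀ q ∈ B, ∃ p ∈ T, Above q p)
    (hBT : ∀ p ∈ T, (p ∈ bad d a ↔ Odd {q : Pl E | Above q p ∧ q ∈ B}.ncard)) :
    ∃ c : Eˣ, bad (inc F E d) c = B ∧ nrm F E c * a ∈ NF d := by
  classical
  obtain ⟨p₀, hp₀, hJ₀, hq₀⟩ := hJ
  have hiso : ∀ p ∈ T, ∀ q : Pl E, Above q p → (Isol (inc F E d) q ↔ Isol d p) :=
    fun p hp q hq => ⟨isol_below hT hp hq, isol_above hd hT hT' hp₀ hq₀ hJ₀ hp hq⟩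
  have hBf : B.Finite := by
    refine (hTf.biUnion fun p _ => above_set_finite (E := E) p).subset ?_
    intro q hq
    obtain ⟨p, hp, hqp⟩ := hB q hq
    exact Set.mem_biUnion hp hqp
  have hdF : ¬ IsSquare (d : F) := by
    rintro ⟨r, hr⟩
    exact hd ⟨algebraMap F E r, by rw [hr, map_mul]⟩
  have hexists : ∃ c : Eˣ, bad (inc F E d) c = B := by
    rw [exists_bad_iff (a := inc F E d) hd hBf (fun q hq => by
      obtain ⟨p, hp, hqp⟩ := hB q hq
      exact hT' p hp q hqp)]
    -- count fibrewise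
    have hbadf : (bad d a).Finite := bad_finite d a
    have h1 : Even {p | p ∈ bad d a ∧ ¬ Isol d p}.ncard :=
      (exists_bad_iff hdF hbadf (fun p hp => notMem_LSp_of_bad hp)).mp ⟨a, rfl⟩
    let T' : Finset (Pl F) := hTf.toFinset.filter fun p => ¬ Isol d p
    let f : Pl F → ℕ := fun p => {q : Pl E | Above q p ∧ q ∈ B}.ncard
    have h2 : {q | q ∈ B ∧ ¬ Isol (inc F E d) q}.ncard = ∑ p ∈ T', f p := by
      have hfin : ∀ p : Pl F, {q : Pl E | Above q p ∧ q ∈ B}.Finite := fun p =>
        hBf.subset fun q hq => hq.2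
      have e1 : {q | q ∈ B ∧ ¬ Isol (inc F E d) q} =
          ((T'.biUnion fun p => (hfin p).toFinset : Finset (Pl E)) : Set (Pl E)) := by
        ext q
        simp only [Set.mem_ofPred_eq, Finset.coe_biUnion, Set.mem_iUnion, Set.Finite.coe_toFinset,
          exists_prop, T', Finset.coe_filter, Set.Finite.mem_toFinset]
        constructor
        · rintro ⟨h3, h4⟩
          obtain ⟨p, hp, hqp⟩ := hB q h3
          exact ⟨p, ⟨hp, fun h5 => h4 ((hiso p hp q hqp).mpr h5)⟩, hqp, h3⟩
        · rintro ⟨p, ⟨hp, h4⟩, hqp, h3⟩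
          exact ⟨h3, fun h5 => h4 ((hiso p hp q hqp).mp h5)⟩
      rw [e1, Set.ncard_coe_finset, Finset.card_biUnion]
      · exact Finset.sum_congr rfl fun p _ => (Set.ncard_eq_toFinset_card _ (hfin p)).symm
      · intro p _ p' _ hne
        rw [Function.onFun, Finset.disjoint_left]
        intro q hq hq'
        rw [Set.Finite.mem_toFinset] at hq hq'
        exact hne (above_unique hq.1 hq'.1)
    rw [h2, ← Nat.not_odd_iff_even, Finset.odd_sum_iff_odd_card_odd, Nat.not_odd_iff_even]
    have h3 : {p | p ∈ bad d a ∧ ¬ Isol d p} =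
        ((T'.filter fun p => Odd (f p) : Finset (Pl F)) : Set (Pl F)) := by
      ext p
      simp only [Set.mem_ofPred_eq, Finset.coe_filter, Finset.mem_filter, T',
        Set.Finite.mem_toFinset]
      constructor
      · rintro ⟨h4, h5⟩
        exact ⟨⟨ha h4, h5⟩, (hBT p (ha h4)).mp h4⟩
      · rintro ⟨⟨h4, h5⟩, h6⟩
        exact ⟨(hBT p h4).mpr h6, h5⟩
    rw [h3, Set.ncard_coe_finset] at h1
    exact h1
  obtain ⟨c, hc⟩ := hexists
  refine ⟨c, hc, mem_NF_of_bad ?_⟩
  rw [bad_mul, bad_nrm hT (c := c) (by rw [hc]; exact hB), hc]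
  have : {p | p ∈ T ∧ Odd {q : Pl E | Above q p ∧ q ∈ B}.ncard} = bad d a := by
    ext p
    constructor
    · rintro ⟨h1, h2⟩
      exact (hBT p h1).mpr h2
    · intro h1
      exact ⟨ha h1, (hBT p (ha h1)).mp h1⟩
  rw [this, symmDiff_self]
  rfl

end main

end Vale.Agent.P011.Even
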