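import Vale.Agent.P011.Even.Split

/-!
Signs of norms at real places.
-/

open NumberField IsDedekindDomain Module

namespace Vale.Agent.P011.Even

open Arith

variable {F : Type} [Field F] [NumberField F] {E : Type} [Field E] [NumberField E] [Algebra F E]

/-- The sign of a norm at a real place. -/
theorem sign_norm (φ : F →+* ℝ) (c : Eˣ) :
    0 < φ (Algebra.norm F (c : E)) ↔
      Even {ψ : E →+* ℝ | ψ.comp (algebraMap F E) = φ ∧ ψ c < 0}.ncard := by
  classical
  let _ : Algebra F ℂ := (Complex.ofRealHom.comp φ).toAlgebra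
  have halg : ∀ x : F, algebraMap F ℂ x = (φ x : ℂ) := fun x => rfl
  let cj : (E →ₐ[F] ℂ) → (E →ₐ[F] ℂ) := fun σ =>
    { (starRingEnd ℂ).comp (σ : E →+* ℂ) with
      commutes' := fun r => by
        change (starRingEnd ℂ) (σ (algebraMap F E r)) = _
        rw [σ.commutes, halg, Complex.conj_ofReal] }
  have hcj : ∀ σ x, cj σ x = (starRingEnd ℂ) (σ x) := fun σ x => rfl
  have hσ0 : ∀ σ : E →ₐ[F] ℂ, σ (c : E) ≠ 0 := fun σ =>
    (map_ne_zero_iff _ σ.toRingHom.injective).mpr c.ne_zero
  let neg : (E →ₐ[F] ℂ) → Prop := fun σ => cj σ = σ ∧ (σ (c : E)).re < 0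
  let h : (E →ₐ[F] ℂ) → ℂ := fun σ =>
    σ (c : E) / (‖σ (c : E)‖ : ℂ) * (if neg σ then -1 else 1)
  have hreal : ∀ σ, cj σ = σ → ∀ x, σ x = ((σ x).re : ℂ) := by
    intro σ hσ x
    have h1 : (starRingEnd ℂ) (σ x) = σ x := by
      conv_rhs => rw [← hσ]
      rw [hcj]
    exact (Complex.conj_eq_iff_re.mp h1).symm
  have hfix : ∀ σ, cj σ = σ → h σ = 1 := by
    intro σ hσ
    have h1 := hreal σ hσ (c : E)
    have h2 : (σ (c : E)).re ≠ 0 := by
      intro h0
      rw [h0, Complex.ofReal_zero] at h1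
      exact hσ0 σ h1
    simp only [h, neg, hσ, true_and]
    rw [h1, Complex.norm_real, Complex.ofReal_re]
    rcases lt_or_gt_of_ne h2 with h3 | h3
    · rw [if_pos h3, Real.norm_eq_abs, abs_of_neg h3]
      have : ((σ (c : E)).re : ℂ) ≠ 0 := by exact_mod_cast h2
      push_cast
      field_simp
    · rw [if_neg (not_lt.mpr h3.le), Real.norm_eq_abs, abs_of_pos h3]
      have : ((σ (c : E)).re : ℂ) ≠ 0 := by exact_mod_cast h2
      field_simp
  have hprod : ∏ σ, h σ = 1 := by
    refine Finset.prod_involution (fun σ _ => cj σ) (fun σ _ => ?_) (fun σ _ hne hc => ?_)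
      (fun σ _ => Finset.mem_univ _) (fun σ _ => ?_)
    · by_cases hσ : cj σ = σ
      · rw [hσ, hfix σ hσ, one_mul]
      · have hσ' : cj (cj σ) ≠ cj σ := by
          intro h1
          apply hσ
          ext x
          have h2 := DFunLike.congr_fun h1 x
          rw [hcj, hcj, Complex.conj_conj] at h2
          rw [hcj]
          exact h2.symm
        simp only [h, neg, hσ, hσ', false_and, if_false, mul_one]
        rw [hcj, Complex.norm_conj]
        have h3 : (‖σ (c : E)‖ : ℂ) ≠ 0 := by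
          exact_mod_cast (norm_ne_zero_iff.mpr (hσ0 σ))
        rw [div_mul_div_comm, Complex.mul_conj, Complex.normSq_eq_norm_sq]
        push_cast
        rw [← sq, div_self (pow_ne_zero 2 h3)]
    · exact hne (hfix σ hc)
    · ext x
      rw [hcj, hcj, Complex.conj_conj]
  have hnorm : (φ (Algebra.norm F (c : E)) : ℂ) = ∏ σ : E →ₐ[F] ℂ, σ (c : E) := by
    rw [← halg, Algebra.norm_eq_prod_embeddings]
  have hsplit : ∏ σ : E →ₐ[F] ℂ, σ (c : E) =
      ((∏ σ : E →ₐ[F] ℂ, ‖σ (c : E)‖ : ℝ) : ℂ) * (-1) ^ (Finset.univ.filter neg).card := by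
    have e1 : ∀ σ : E →ₐ[F] ℂ, σ (c : E) =
        h σ * ((‖σ (c : E)‖ : ℂ) * (if neg σ then -1 else 1)) := by
      intro σ
      have h3 : (‖σ (c : E)‖ : ℂ) ≠ 0 := by
        exact_mod_cast (norm_ne_zero_iff.mpr (hσ0 σ))
      simp only [h]
      split_ifs <;> field_simp
    rw [Finset.prod_congr rfl fun σ _ => e1 σ, Finset.prod_mul_distrib, hprod, one_mul,
      Finset.prod_mul_distrib, Finset.prod_ite, Finset.prod_const_one, mul_one,
      Finset.prod_const]
    push_cast
    rfl
  have hpos : 0 < ∏ σ : E →ₐ[F] ℂ, ‖σ (c : E)‖ :=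
    Finset.prod_pos fun σ _ => norm_pos_iff.mpr (hσ0 σ)
  have hval : φ (Algebra.norm F (c : E)) =
      (∏ σ : E →ₐ[F] ℂ, ‖σ (c : E)‖) * (-1) ^ (Finset.univ.filter neg).card := by
    have := hnorm.trans hsplit
    exact_mod_cast this
  have hcard : {ψ : E →+* ℝ | ψ.comp (algebraMap F E) = φ ∧ ψ c < 0}.ncard =
      (Finset.univ.filter neg).card := by
    rw [← Set.ncard_coe_finset]
    refine (Set.ncard_congr' ?_)
    refine
      { toFun := fun ψ => ⟨{ (Complex.ofRealHom.comp ψ.1) with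
            commutes' := fun r => by
              change ((ψ.1 (algebraMap F E r) : ℝ) : ℂ) = _
              rw [halg]
              exact congrArg _ (RingHom.congr_fun ψ.2.1 r) }, ?_⟩
        invFun := fun σ => ⟨{ toFun := fun x => (σ.1 x).re
                              map_one' := by simp
                              map_zero' := by simp
                              map_mul' := ?_
                              map_add' := ?_ }, ?_⟩
        left_inv := ?_
        right_inv := ?_ }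
    · rw [Finset.mem_coe, Finset.mem_filter]
      refine ⟨Finset.mem_univ _, ?_, ?_⟩
      · ext x
        rw [hcj]
        change (starRingEnd ℂ) ((ψ.1 x : ℝ) : ℂ) = ((ψ.1 x : ℝ) : ℂ)
        rw [Complex.conj_ofReal]
      · change (((ψ.1 c : ℝ) : ℂ)).re < 0
        rw [Complex.ofReal_re]
        exact ψ.2.2
    · intro x y
      have hσ := (Finset.mem_filter.mp (Finset.mem_coe.mp σ.2)).2.1
      have h1 := hreal σ.1 hσ x
      have h2 := hreal σ.1 hσ y
      rw [map_mul, h1, h2]
      simp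
    · intro x y
      rw [map_add, Complex.add_re]
    · have hσ := (Finset.mem_filter.mp (Finset.mem_coe.mp σ.2)).2
      refine ⟨?_, hσ.2⟩
      ext x
      change (σ.1 (algebraMap F E x)).re = φ x
      rw [σ.1.commutes, halg, Complex.ofReal_re]
    · intro ψ
      apply Subtype.ext
      ext x
      change (((ψ.1 x : ℝ) : ℂ)).re = ψ.1 x
      rw [Complex.ofReal_re]
    · intro σ
      have hσ := (Finset.mem_filter.mp (Finset.mem_coe.mp σ.2)).2.1
      apply Subtype.ext
      ext x
      exact (hreal σ.1 hσ x).symm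
  rw [hcard, hval]
  rcases Nat.even_or_odd (Finset.univ.filter neg).card with he | ho
  · rw [he.neg_one_pow, mul_one]
    exact iff_of_true hpos he
  · rw [ho.neg_one_pow]
    refine iff_of_false (by linarith) (Nat.not_even_iff_odd.mpr ho)

/-- I3 at a real place. -/
theorem parity_real (φ : F →+* ℝ) (b : Fˣ) (c : Eˣ) :
    nrm F E c ∈ NF b ⊔ LSR φ ↔
      Even {ψ : E →+* ℝ | ψ.comp (algebraMap F E) = φ ∧ c ∉ NF (inc F E b) ⊔ LSR ψ}.ncard := by
  have hcomp : ∀ ψ : E →+* ℝ, ψ.comp (algebraMap F E) = φ →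
      (inc F E b ∈ LSR ψ ↔ b ∈ LSR φ) := by
    rintro ψ rfl
    exact Iff.rfl
  by_cases hb : b ∈ LSR φ
  · have h1 : NF b ⊔ LSR φ = ⊤ := sup_eq_top (p := Sum.inr φ) hb
    have h2 : {ψ : E →+* ℝ | ψ.comp (algebraMap F E) = φ ∧
        c ∉ NF (inc F E b) ⊔ LSR ψ} = ∅ := by
      ext ψ
      simp only [Set.mem_ofPred_eq, Set.mem_empty_iff_false, iff_false, not_and, not_not]
      intro hψ
      have h3 : NF (inc F E b) ⊔ LSR ψ = ⊤ := sup_eq_top (p := Sum.inr ψ) ((hcomp ψ hψ).mpr hb)
      rw [h3]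
      exact Subgroup.mem_top _
    rw [h1, h2]
    simp
  · have h1 : NF b ⊔ LSR φ = LSR φ := sup_eq_right.mpr (NF_le_LSR (notMem_LSR.mp hb))
    have h2 : {ψ : E →+* ℝ | ψ.comp (algebraMap F E) = φ ∧
        c ∉ NF (inc F E b) ⊔ LSR ψ} = {ψ : E →+* ℝ | ψ.comp (algebraMap F E) = φ ∧ ψ c < 0} := by
      ext ψ
      simp only [Set.mem_ofPred_eq]
      refine and_congr_right fun hψ => ?_
      have h3 : inc F E b ∉ LSR ψ := fun h => hb ((hcomp ψ hψ).mp h)
      have h4 : NF (inc F E b) ⊔ LSR ψ = LSR ψ := sup_eq_right.mpr (NF_le_LSR (notMem_LSR.mp h3))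
      rw [h4, notMem_LSR]
    rw [h1, h2]
    exact sign_norm φ c

end Vale.Agent.P011.Even
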